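import Mathlib
import Crest.Agent.R010.CDefs
import Crest.Agent.R010.Witt

-- ▼ part R010/CSym
section

/-!
Row 10 (S0011), module (cA): symbol calculus modulo 2 for the filtration `Fil n = (x²)^n + (y²)`.
-/

set_option autoImplicit false

noncomputable section

namespace Crest.Agent.R010.C

attribute [local instance 100] LieRing.ofAssociativeRing

/-! ### Ideals and the filtration -/

theorem J0_mul_left (u : Alg F2) {a : Alg F2} (ha : a ∈ J0) : u * a ∈ J0 := by
  unfold J0 at ha ⊢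
  induction ha using Submodule.span_induction with
  | mem x hx =>
    obtain ⟨p, q, rfl⟩ := hx
    exact Submodule.subset_span ⟨u * p, q, by simp only [mul_assoc]⟩
  | zero => simp
  | add x y _ _ hx hy => rw [mul_add]; exact add_mem hx hy
  | smul r x _ hx => rw [mul_smul_comm]; exact Submodule.smul_mem _ _ hx

theorem J0_mul_right (u : Alg F2) {a : Alg F2} (ha : a ∈ J0) : a * u ∈ J0 := by
  unfold J0 at ha ⊢
  induction ha using Submodule.span_induction with
  | mem x hx =>
    obtain ⟨p, q, rfl⟩ := hx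
    exact Submodule.subset_span ⟨p, q * u, by simp only [mul_assoc]⟩
  | zero => simp
  | add x y _ _ hx hy => rw [add_mul]; exact add_mem hx hy
  | smul r x _ hx => rw [smul_mul_assoc]; exact Submodule.smul_mem _ _ hx

theorem J1_mul_left (n : ℕ) (u : Alg F2) {a : Alg F2} (ha : a ∈ J1 n) : u * a ∈ J1 n := by
  cases n with
  | zero => exact Submodule.mem_top
  | succ n =>
    unfold J1 at ha ⊢
    induction ha using Submodule.span_induction with
    | mem x hx =>
      obtain ⟨p, q, hq, rfl⟩ := hx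
      exact Submodule.subset_span ⟨u * p, q, hq, by simp only [mul_assoc]⟩
    | zero => simp
    | add x y _ _ hx hy => rw [mul_add]; exact add_mem hx hy
    | smul r x _ hx => rw [mul_smul_comm]; exact Submodule.smul_mem _ _ hx

theorem J1_mul_right (n : ℕ) (u : Alg F2) {a : Alg F2} (ha : a ∈ J1 n) : a * u ∈ J1 n := by
  induction n generalizing a with
  | zero => exact Submodule.mem_top
  | succ n ih =>
    unfold J1 at ha ⊢
    induction ha using Submodule.span_induction with
    | mem x hx =>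
      obtain ⟨p, q, hq, rfl⟩ := hx
      exact Submodule.subset_span ⟨p, q * u, ih hq, by simp only [mul_assoc]⟩
    | zero => simp
    | add x y _ _ hx hy => rw [add_mul]; exact add_mem hx hy
    | smul r x _ hx => rw [smul_mul_assoc]; exact Submodule.smul_mem _ _ hx

theorem X2_mul_mem_J1 {n : ℕ} {v : Alg F2} (hv : v ∈ J1 n) (u : Alg F2) :
    u * X F2 ^ 2 * v ∈ J1 (n + 1) := by
  unfold J1
  exact Submodule.subset_span ⟨u, v, hv, rfl⟩

theorem J1_succ_le (n : ℕ) : J1 (n + 1) ≤ J1 n := by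
  induction n with
  | zero => exact le_top
  | succ n ih =>
    conv_lhs => unfold J1
    rw [Submodule.span_le]
    rintro x ⟨u, v, hv, rfl⟩
    exact X2_mul_mem_J1 (ih hv) u

theorem J1_antitone : Antitone J1 := antitone_nat_of_succ_le J1_succ_le

theorem J1_mul_mem {m n : ℕ} {a b : Alg F2} (ha : a ∈ J1 m) (hb : b ∈ J1 n) :
    a * b ∈ J1 (m + n) := by
  induction m generalizing a with
  | zero => rw [zero_add]; exact J1_mul_left n a hb
  | succ m ih =>
    unfold J1 at ha
    induction ha using Submodule.span_induction with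
    | mem x hx =>
      obtain ⟨p, q, hq, rfl⟩ := hx
      have := X2_mul_mem_J1 (ih hq) p
      rw [show m + 1 + n = m + n + 1 by ring, mul_assoc]
      exact this
    | zero => simp
    | add x y _ _ hx hy => rw [add_mul]; exact add_mem hx hy
    | smul r x _ hx => rw [smul_mul_assoc]; exact Submodule.smul_mem _ _ hx

theorem J0_le_Fil (n : ℕ) : J0 ≤ Fil n := le_sup_right
theorem J1_le_Fil (n : ℕ) : J1 n ≤ Fil n := le_sup_left

theorem Fil_zero (a : Alg F2) : a ∈ Fil 0 := J1_le_Fil 0 Submodule.mem_top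

theorem Fil_antitone : Antitone Fil := fun _ _ h => sup_le_sup_right (J1_antitone h) J0

theorem Fil_mul_left (n : ℕ) (u : Alg F2) {a : Alg F2} (ha : a ∈ Fil n) : u * a ∈ Fil n := by
  obtain ⟨p, hp, q, hq, rfl⟩ := Submodule.mem_sup.1 ha
  rw [mul_add]
  exact add_mem (J1_le_Fil n (J1_mul_left n u hp)) (J0_le_Fil n (J0_mul_left u hq))

theorem Fil_mul_right (n : ℕ) (u : Alg F2) {a : Alg F2} (ha : a ∈ Fil n) : a * u ∈ Fil n := by
  obtain ⟨p, hp, q, hq, rfl⟩ := Submodule.mem_sup.1 ha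
  rw [add_mul]
  exact add_mem (J1_le_Fil n (J1_mul_right n u hp)) (J0_le_Fil n (J0_mul_right u hq))

theorem Fil_mul_mem {m n : ℕ} {a b : Alg F2} (ha : a ∈ Fil m) (hb : b ∈ Fil n) :
    a * b ∈ Fil (m + n) := by
  obtain ⟨p, hp, q, hq, rfl⟩ := Submodule.mem_sup.1 ha
  obtain ⟨r, hr, s, hs, rfl⟩ := Submodule.mem_sup.1 hb
  rw [add_mul, mul_add]
  refine add_mem (add_mem (J1_le_Fil _ (J1_mul_mem hp hr)) ?_) ?_
  · exact J0_le_Fil _ (J0_mul_left _ hs)
  · exact J0_le_Fil _ (J0_mul_right _ hq)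

theorem X2_mem_Fil : X F2 ^ 2 ∈ Fil 1 := by
  have := X2_mul_mem_J1 (n := 0) (v := 1) Submodule.mem_top 1
  rw [one_mul, mul_one] at this
  exact J1_le_Fil _ this

theorem Y2_mem_J0 : Y F2 ^ 2 ∈ J0 :=
  Submodule.subset_span ⟨1, 1, by simp⟩

/-! ### Characteristic two and commutators -/

theorem two_eq_zero_alg {X : Type*} : (2 : FreeAlgebra F2 X) = 0 := by
  have h : (algebraMap F2 (FreeAlgebra F2 X)) 2 = 2 := map_ofNat _ 2
  have h2 : (2 : F2) = 0 := by decide
  rw [← h, h2, map_zero]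

theorem J0_comm (u : Alg F2) {a : Alg F2} (ha : a ∈ J0) : u * a - a * u ∈ J0 :=
  sub_mem (J0_mul_left u ha) (J0_mul_right u ha)

theorem Fil_comm (n : ℕ) (u : Alg F2) {a : Alg F2} (ha : a ∈ Fil n) : u * a - a * u ∈ Fil n :=
  sub_mem (Fil_mul_left n u ha) (Fil_mul_right n u ha)

theorem Y_comm_cc : Y F2 * cc - cc * Y F2 ∈ J0 := by
  have h : Y F2 * cc - cc * Y F2 =
      2 * (Y F2 * X F2 * Y F2) - 1 * Y F2 ^ 2 * X F2 - X F2 * Y F2 ^ 2 * 1 := by
    unfold cc
    noncomm_ring
  rw [h, two_eq_zero_alg, zero_mul, zero_sub]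
  refine sub_mem (neg_mem ?_) ?_
  · exact Submodule.subset_span ⟨1, X F2, rfl⟩
  · exact Submodule.subset_span ⟨X F2, 1, rfl⟩

theorem Y_comm_FF : Y F2 * FF - FF * Y F2 ∈ J0 := by
  have h : Y F2 * FF - FF * Y F2 =
      1 * Y F2 ^ 2 * X F2 ^ 2 - 2 * (Y F2 * X F2 ^ 2 * Y F2) + X F2 ^ 2 * Y F2 ^ 2 * 1 := by
    unfold FF
    noncomm_ring
  rw [h, two_eq_zero_alg, zero_mul, sub_zero]
  refine add_mem ?_ ?_
  · exact Submodule.subset_span ⟨1, X F2 ^ 2, rfl⟩
  · exact Submodule.subset_span ⟨X F2 ^ 2, 1, rfl⟩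

theorem Zc_succ (k : ℕ) : Zc (k + 1) = cc * Zc k - Zc k * cc := by
  unfold Zc
  rw [Function.iterate_succ_apply']
  rfl

theorem Zc_zero : Zc 0 = FF := rfl

theorem Y_comm_Zc (k : ℕ) : Y F2 * Zc k - Zc k * Y F2 ∈ J0 := by
  induction k with
  | zero => exact Y_comm_FF
  | succ k ih =>
    have h : Y F2 * Zc (k + 1) - Zc (k + 1) * Y F2 =
        ((Y F2 * cc - cc * Y F2) * Zc k - Zc k * (Y F2 * cc - cc * Y F2))
          + (cc * (Y F2 * Zc k - Zc k * Y F2) - (Y F2 * Zc k - Zc k * Y F2) * cc) := by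
      rw [Zc_succ]
      noncomm_ring
    rw [h]
    refine add_mem ?_ (J0_comm _ ih)
    exact sub_mem (J0_mul_right _ Y_comm_cc) (J0_mul_left _ Y_comm_cc)

theorem FF_mem_Fil : FF ∈ Fil 1 := Fil_comm 1 _ X2_mem_Fil

theorem Zc_mem_Fil (k : ℕ) : Zc k ∈ Fil 1 := by
  induction k with
  | zero => exact FF_mem_Fil
  | succ k ih => rw [Zc_succ]; exact Fil_comm 1 _ ih

/-! ### The Ihara derivation and the filtration -/

@[simp] theorem fdA_X (a : Alg F2) : dA F2 a (X F2) = 0 := by
  unfold dA X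
  rw [der_ι]
  simp

@[simp] theorem fdA_Y (a : Alg F2) : dA F2 a (Y F2) = Y F2 * a - a * Y F2 := by
  conv_lhs => unfold dA; rw [show Y F2 = FreeAlgebra.ι F2 1 from rfl]
  rw [der_ι]
  simp [Y]

theorem fdA_mul (a b c : Alg F2) : dA F2 a (b * c) = dA F2 a b * c + b * dA F2 a c :=
  der_mul _ b c

theorem dA_X2 (a : Alg F2) : dA F2 a (X F2 ^ 2) = 0 := by
  rw [pow_two, fdA_mul]; simp

theorem dA_Y2 (a : Alg F2) : dA F2 a (Y F2 ^ 2) = Y F2 ^ 2 * a - a * Y F2 ^ 2 := by
  rw [pow_two, fdA_mul, fdA_Y]; noncomm_ring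

theorem dA_J0 (a : Alg F2) {b : Alg F2} (hb : b ∈ J0) : dA F2 a b ∈ J0 := by
  unfold J0 at hb
  induction hb using Submodule.span_induction with
  | mem x hx =>
    obtain ⟨p, q, rfl⟩ := hx
    rw [fdA_mul, fdA_mul, dA_Y2]
    refine add_mem (J0_mul_right _ (add_mem ?_ ?_)) ?_
    · exact J0_mul_left _ Y2_mem_J0
    · exact J0_mul_left _ (sub_mem (J0_mul_right _ Y2_mem_J0) (J0_mul_left _ Y2_mem_J0))
    · exact J0_mul_right _ (J0_mul_left _ Y2_mem_J0)
  | zero => simp
  | add x y _ _ hx hy => rw [map_add]; exact add_mem hx hy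
  | smul r x _ hx => rw [map_smul]; exact Submodule.smul_mem _ _ hx

theorem dA_mem_Fil {k : ℕ} {a : Alg F2} (ha : Y F2 * a - a * Y F2 ∈ Fil k) (b : Alg F2) :
    dA F2 a b ∈ Fil k := by
  induction b using FreeAlgebra.induction with
  | grade0 r => unfold dA; rw [der_algebraMap]; exact zero_mem _
  | grade1 i =>
    fin_cases i
    · have := fdA_X a
      unfold X at this
      change dA F2 a (FreeAlgebra.ι F2 0) ∈ Fil k
      rw [this]; exact zero_mem _
    · have := fdA_Y a
      change dA F2 a (Y F2) ∈ Fil k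
      rw [this]; exact ha
  | mul b c hb hc =>
    rw [fdA_mul]
    exact add_mem (Fil_mul_right _ _ hb) (Fil_mul_left _ _ hc)
  | add b c hb hc => rw [map_add]; exact add_mem hb hc

theorem dA_J1 {k : ℕ} {a : Alg F2} (ha : Y F2 * a - a * Y F2 ∈ Fil k) {n : ℕ} {b : Alg F2}
    (hb : b ∈ J1 n) : dA F2 a b ∈ Fil (n + k) := by
  induction n generalizing b with
  | zero => rw [zero_add]; exact dA_mem_Fil ha b
  | succ n ih =>
    unfold J1 at hb
    induction hb using Submodule.span_induction with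
    | mem x hx =>
      obtain ⟨p, q, hq, rfl⟩ := hx
      rw [fdA_mul, fdA_mul, dA_X2, mul_zero, add_zero]
      refine add_mem ?_ ?_
      · have h1 : X F2 ^ 2 * q ∈ Fil (n + 1) := by
          have := X2_mul_mem_J1 hq 1
          rw [one_mul] at this
          exact J1_le_Fil _ this
        have := Fil_mul_mem (dA_mem_Fil ha p) h1
        rw [mul_assoc, show n + 1 + k = k + (n + 1) by ring]
        exact this
      · have := Fil_mul_mem (Fil_mul_left 1 p X2_mem_Fil) (ih hq)
        rw [show n + 1 + k = 1 + (n + k) by ring]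
        exact this
    | zero => simp
    | add x y _ _ hx hy => rw [map_add]; exact add_mem hx hy
    | smul r x _ hx => rw [map_smul]; exact Submodule.smul_mem _ _ hx

/-- `D_a` raises the filtration by `k` when `[y, a] ∈ Fil k`. -/
theorem dA_Fil {k : ℕ} {a : Alg F2} (ha : Y F2 * a - a * Y F2 ∈ Fil k) {n : ℕ} {b : Alg F2}
    (hb : b ∈ Fil n) : dA F2 a b ∈ Fil (n + k) := by
  obtain ⟨p, hp, q, hq, rfl⟩ := Submodule.mem_sup.1 hb
  rw [map_add]
  exact add_mem (dA_J1 ha hp) (J0_le_Fil _ (dA_J0 a hq))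

/-! ### Symbols -/

theorem Y_comm_of_symbol {k : ℕ} {σ : Alg F2} (hσ : σ - Zc k ∈ Fil 2) :
    Y F2 * σ - σ * Y F2 ∈ Fil 2 := by
  have h : Y F2 * σ - σ * Y F2 = (Y F2 * (σ - Zc k) - (σ - Zc k) * Y F2)
      + (Y F2 * Zc k - Zc k * Y F2) := by noncomm_ring
  rw [h]
  exact add_mem (Fil_comm _ _ hσ) (J0_le_Fil _ (Y_comm_Zc k))

/-- Operator form: the operator `s_σ = L_σ + D_σ` is, on symbols, left multiplication by `Z_k`. -/
theorem op_symbol {k : ℕ} {σ : Alg F2} (hσ : σ - Zc k ∈ Fil 2) {m : ℕ} {f : Alg F2}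
    (hf : f ∈ Fil m) : (σ * f + dA F2 σ f) - Zc k * f ∈ Fil (m + 2) := by
  have h : (σ * f + dA F2 σ f) - Zc k * f = (σ - Zc k) * f + dA F2 σ f := by noncomm_ring
  rw [h]
  refine add_mem ?_ (dA_Fil (Y_comm_of_symbol hσ) hf)
  rw [add_comm m 2]
  exact Fil_mul_mem hσ hf

@[simp] theorem evalZ_ι (k : ℕ) : evalZ (FreeAlgebra.ι F2 k) = Zc k := by
  unfold evalZ; exact FreeAlgebra.lift_ι_apply _ _

theorem evalZ_mem_Fil {n : ℕ} {P : FreeAlgebra F2 ℕ} (hP : P ∈ wtA F2 (fun _ : ℕ => 1) n) :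
    evalZ P ∈ Fil n := by
  unfold wtA at hP
  induction hP using Submodule.span_induction with
  | mem x hx =>
    obtain ⟨l, hl, rfl⟩ := hx
    have hl' : l.length = n := by simpa using hl
    clear hl
    induction l generalizing n with
    | nil => exact (by simpa using hl') ▸ Fil_zero _
    | cons k l ih =>
      rw [List.map_cons, List.prod_cons, map_mul, evalZ_ι]
      have hn : n = 1 + l.length := by rw [← hl', List.length_cons]; ring
      rw [hn]
      exact Fil_mul_mem (Zc_mem_Fil k) (ih rfl)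
  | zero => rw [map_zero]; exact zero_mem _
  | add x y _ _ hx hy => rw [map_add]; exact add_mem hx hy
  | smul r x _ hx => rw [map_smul]; exact Submodule.smul_mem _ _ hx





end Crest.Agent.R010.C

end
end

-- ▼ part R010/CInj
section

/-!
Row 10 (S0011), module (cA), part 2: injectivity of symbols.  If `q` has word degree `n` and
`evalZ q ∈ Fil (n+1)` then `q = 0`.

`F₂⟨x,y⟩/(y²)` is free of rank four (basis `1, x, y, w`) as a left module over the free algebra
`S = F₂⟨c,E,F⟩`; we only use the resulting matrix representation.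
-/

set_option autoImplicit false

noncomputable section

namespace Crest.Agent.R010.C

attribute [local instance 100] LieRing.ofAssociativeRing

/-- The free algebra on `c, E, F`. -/
abbrev S3 : Type := FreeAlgebra F2 (Fin 3)

def sc : S3 := FreeAlgebra.ι F2 0
def sE : S3 := FreeAlgebra.ι F2 1
def sF : S3 := FreeAlgebra.ι F2 2

/-- Right multiplication by `x` on the row vectors in the basis `1, x, y, w`. -/
def Mx : Matrix (Fin 4) (Fin 4) S3 :=
  !![0, 1, 0, 0;
     sE, 0, 0, 0;
     sc, 0, 0, 1;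
     sF, sc, sE, 0]

/-- Right multiplication by `y`. -/
def My : Matrix (Fin 4) (Fin 4) S3 :=
  !![0, 0, 1, 0;
     0, 0, 0, 1;
     0, 0, 0, 0;
     0, 0, 0, 0]

/-- The representation `Alg F2 → M₄(S)`. -/
def rho : Alg F2 →ₐ[F2] Matrix (Fin 4) (Fin 4) S3 := FreeAlgebra.lift F2 ![Mx, My]

@[simp] theorem rho_X : rho (X F2) = Mx := by
  unfold rho X; rw [FreeAlgebra.lift_ι_apply]; rfl

@[simp] theorem rho_Y : rho (Y F2) = My := by
  unfold rho Y; rw [FreeAlgebra.lift_ι_apply]; rfl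

theorem My_sq : My ^ 2 = 0 := by
  rw [pow_two]
  ext i j
  fin_cases i <;> fin_cases j <;> simp [My, Matrix.mul_apply, Fin.sum_univ_four]

theorem Mx_sq : Mx ^ 2 =
    !![sE, 0, 0, 0;
       0, sE, 0, 0;
       sF, 0, sE, 0;
       sc * sE + sE * sc, sF, 0, sE] := by
  have h2 : sc + sc = 0 := by
    rw [← two_mul, two_eq_zero_alg, zero_mul]
  rw [pow_two]
  ext i j
  fin_cases i <;> fin_cases j <;>
    simp [Mx, Matrix.mul_apply, Fin.sum_univ_four, h2]

/-- The first row of the matrix of `f`: the coordinates of `1 · f`. -/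
def row (f : Alg F2) : Fin 4 → S3 := fun j => rho f 0 j

theorem row_mul {s : S3} {a : Alg F2} (ha : row a = ![s, 0, 0, 0]) (f : Alg F2) :
    row (a * f) = fun j => s * row f j := by
  funext j
  have h0 : rho a 0 0 = s := congrFun ha 0
  have h1 : rho a 0 1 = 0 := congrFun ha 1
  have h2 : rho a 0 2 = 0 := congrFun ha 2
  have h3 : rho a 0 3 = 0 := congrFun ha 3
  simp only [row, map_mul, Matrix.mul_apply, Fin.sum_univ_four, h0, h1, h2, h3, zero_mul,
    add_zero]

theorem row_mul' {s t : S3} {a b : Alg F2} (ha : row a = ![s, 0, 0, 0])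
    (hb : row b = ![t, 0, 0, 0]) : row (a * b) = ![s * t, 0, 0, 0] := by
  rw [row_mul ha, hb]
  funext j
  fin_cases j <;> simp

theorem row_sub (a b : Alg F2) : row (a - b) = row a - row b := by
  funext j; simp [row]

theorem row_cc : row cc = ![sc, 0, 0, 0] := by
  funext j
  have hh : (1 : S3) - 1 = 0 := sub_self _
  have hn : ∀ a : S3, -a = a := fun a => by
    rw [neg_eq_iff_add_eq_zero, ← two_mul, two_eq_zero_alg, zero_mul]
  unfold row cc
  rw [map_sub, map_mul, map_mul, rho_X, rho_Y]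
  fin_cases j <;>
    simp [Mx, My, Matrix.mul_apply, Fin.sum_univ_four, hn]

theorem row_FF : row FF = ![sF, 0, 0, 0] := by
  funext j
  have hn : ∀ a : S3, -a = a := fun a => by
    rw [neg_eq_iff_add_eq_zero, ← two_mul, two_eq_zero_alg, zero_mul]
  unfold row FF
  rw [map_sub, map_mul, map_mul, map_pow, rho_X, rho_Y, Mx_sq]
  fin_cases j <;>
    simp [My, Matrix.mul_apply, Fin.sum_univ_four]

/-- `ad(c)^k F` in `S`. -/
def sZ : ℕ → S3
  | 0 => sF
  | k + 1 => sc * sZ k - sZ k * sc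

theorem row_Zc (k : ℕ) : row (Zc k) = ![sZ k, 0, 0, 0] := by
  induction k with
  | zero => exact row_FF
  | succ k ih =>
    rw [Zc_succ, row_sub, row_mul' row_cc ih, row_mul' ih row_cc]
    funext j
    fin_cases j <;> simp [sZ]

/-- Evaluation at `ad(c)^k F` in `S`. -/
def evalS : FreeAlgebra F2 ℕ →ₐ[F2] S3 := FreeAlgebra.lift F2 sZ

@[simp] theorem evalS_ι (k : ℕ) : evalS (FreeAlgebra.ι F2 k) = sZ k := by
  unfold evalS; exact FreeAlgebra.lift_ι_apply _ _


theorem row_evalZ (q : FreeAlgebra F2 ℕ) : row (evalZ q) = ![evalS q, 0, 0, 0] := by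
  induction q using FreeAlgebra.induction with
  | grade0 r =>
    rw [AlgHom.commutes, AlgHom.commutes]
    funext j
    unfold row
    rw [AlgHom.commutes, Matrix.algebraMap_eq_diagonal]
    fin_cases j <;> simp
  | grade1 k => rw [evalZ_ι, evalS_ι]; exact row_Zc k
  | mul a b ha hb => rw [map_mul, map_mul]; exact row_mul' ha hb
  | add a b ha hb =>
    rw [map_add, map_add]
    have : row (evalZ a + evalZ b) = row (evalZ a) + row (evalZ b) := by
      funext j; simp [row]
    rw [this, ha, hb]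
    funext j
    fin_cases j <;> simp

/-! ### The degree filtration on `S` -/

open Polynomial in
/-- The grading of `S` by the number of letters `E, F`, encoded by a homomorphism to `S[t]`. -/
def gS : S3 →ₐ[F2] S3[X] :=
  FreeAlgebra.lift F2 ![C sc, C sE * Polynomial.X, C sF * Polynomial.X]

open Polynomial in
/-- Elements of level at least `n`. -/
def FS (n : ℕ) : Submodule F2 S3 where
  carrier := {s | ∀ m < n, (gS s).coeff m = 0}
  zero_mem' := by intro m _; simp
  add_mem' := by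
    intro a b ha hb m hm
    rw [map_add, coeff_add, ha m hm, hb m hm, add_zero]
  smul_mem' := by
    intro r a ha m hm
    rw [map_smul, coeff_smul, ha m hm, smul_zero]

theorem FS_mul {m n : ℕ} {a b : S3} (ha : a ∈ FS m) (hb : b ∈ FS n) : a * b ∈ FS (m + n) := by
  intro k hk
  rw [map_mul, Polynomial.coeff_mul]
  apply Finset.sum_eq_zero
  rintro ⟨i, j⟩ hij
  have hij' : i + j = k := by simpa using hij
  by_cases hi : i < m
  · rw [ha i hi, zero_mul]
  · have hj : j < n := by omega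
    rw [hb j hj, mul_zero]

theorem FS_zero (a : S3) : a ∈ FS 0 := fun m hm => absurd hm (Nat.not_lt_zero m)

theorem sE_mem : sE ∈ FS 1 := by
  intro m hm
  have : m = 0 := by omega
  subst this
  have h : gS sE = Polynomial.C sE * Polynomial.X := by
    unfold gS; conv_lhs => rw [show sE = FreeAlgebra.ι F2 1 from rfl]
    rw [FreeAlgebra.lift_ι_apply]; rfl
  rw [h]; simp

theorem sF_mem : sF ∈ FS 1 := by
  intro m hm
  have : m = 0 := by omega
  subst this
  have h : gS sF = Polynomial.C sF * Polynomial.X := by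
    unfold gS; conv_lhs => rw [show sF = FreeAlgebra.ι F2 2 from rfl]
    rw [FreeAlgebra.lift_ι_apply]; rfl
  rw [h]; simp

theorem FS_mul_left {n : ℕ} (u : S3) {a : S3} (ha : a ∈ FS n) : u * a ∈ FS n := by
  have := FS_mul (FS_zero u) ha
  rwa [zero_add] at this

theorem FS_mul_right {n : ℕ} (u : S3) {a : S3} (ha : a ∈ FS n) : a * u ∈ FS n := by
  have := FS_mul ha (FS_zero u)
  rwa [add_zero] at this

/-- Matrices with entries of level at least `n`. -/
def FM (n : ℕ) : Submodule F2 (Matrix (Fin 4) (Fin 4) S3) where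
  carrier := {M | ∀ i j, M i j ∈ FS n}
  zero_mem' := fun i j => zero_mem _
  add_mem' := fun ha hb i j => add_mem (ha i j) (hb i j)
  smul_mem' := fun r _ ha i j => Submodule.smul_mem _ r (ha i j)

theorem FM_mul {m n : ℕ} {A B : Matrix (Fin 4) (Fin 4) S3} (hA : A ∈ FM m) (hB : B ∈ FM n) :
    A * B ∈ FM (m + n) := by
  intro i j
  rw [Matrix.mul_apply]
  exact sum_mem (fun k _ => FS_mul (hA i k) (hB k j))

theorem FM_zero (A : Matrix (Fin 4) (Fin 4) S3) : A ∈ FM 0 := fun _ _ => FS_zero _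

theorem Mx2_mem : Mx ^ 2 ∈ FM 1 := by
  rw [Mx_sq]
  intro i j
  have h1 := sE_mem
  have h2 := sF_mem
  have h3 : sc * sE + sE * sc ∈ FS 1 :=
    add_mem (FS_mul_left _ sE_mem) (FS_mul_right _ sE_mem)
  fin_cases i <;> fin_cases j <;> first | exact h1 | exact h2 | exact h3 | exact zero_mem _

theorem rho_J0 {a : Alg F2} (ha : a ∈ J0) : rho a = 0 := by
  unfold J0 at ha
  induction ha using Submodule.span_induction with
  | mem x hx =>
    obtain ⟨p, q, rfl⟩ := hx
    rw [map_mul, map_mul, map_pow, rho_Y, My_sq, mul_zero, zero_mul]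
  | zero => simp
  | add x y _ _ hx hy => rw [map_add, hx, hy, add_zero]
  | smul r x _ hx => rw [map_smul, hx, smul_zero]

theorem rho_J1 {n : ℕ} {a : Alg F2} (ha : a ∈ J1 n) : rho a ∈ FM n := by
  induction n generalizing a with
  | zero => exact FM_zero _
  | succ n ih =>
    unfold J1 at ha
    induction ha using Submodule.span_induction with
    | mem x hx =>
      obtain ⟨p, q, hq, rfl⟩ := hx
      rw [map_mul, map_mul, map_pow, rho_X]
      have h1 : rho p * Mx ^ 2 ∈ FM 1 := by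
        have := FM_mul (FM_zero (rho p)) Mx2_mem
        rwa [zero_add] at this
      have := FM_mul h1 (ih hq)
      rwa [add_comm 1 n] at this
    | zero => rw [map_zero]; exact zero_mem _
    | add x y _ _ hx hy => rw [map_add]; exact add_mem hx hy
    | smul r x _ hx => rw [map_smul]; exact Submodule.smul_mem _ _ hx

theorem rho_Fil {n : ℕ} {a : Alg F2} (ha : a ∈ Fil n) : rho a ∈ FM n := by
  obtain ⟨p, hp, q, hq, rfl⟩ := Submodule.mem_sup.1 ha
  rw [map_add, rho_J0 hq, add_zero]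
  exact rho_J1 hp

/-! ### Homogeneity of `evalS` -/

open Polynomial in
theorem gS_sZ (k : ℕ) : gS (sZ k) = C (sZ k) * Polynomial.X := by
  induction k with
  | zero =>
    unfold gS sZ
    conv_lhs => rw [show sF = FreeAlgebra.ι F2 2 from rfl]
    rw [FreeAlgebra.lift_ι_apply]; rfl
  | succ k ih =>
    have hc : gS sc = C sc := by
      unfold gS; conv_lhs => rw [show sc = FreeAlgebra.ι F2 0 from rfl]
      rw [FreeAlgebra.lift_ι_apply]; rfl
    have hs : sZ (k + 1) = sc * sZ k - sZ k * sc := rfl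
    rw [hs, map_sub, map_mul, map_mul, ih, hc, C_sub, C_mul, C_mul, sub_mul]
    congr 1
    · rw [mul_assoc]
    · rw [mul_assoc, X_mul_C, mul_assoc]

open Polynomial in
theorem gS_evalS {n : ℕ} {P : FreeAlgebra F2 ℕ} (hP : P ∈ wtA F2 (fun _ : ℕ => 1) n) :
    gS (evalS P) = C (evalS P) * Polynomial.X ^ n := by
  unfold wtA at hP
  induction hP using Submodule.span_induction with
  | mem x hx =>
    obtain ⟨l, hl, rfl⟩ := hx
    have hl' : l.length = n := by simpa using hl
    clear hl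
    induction l generalizing n with
    | nil =>
      have : n = 0 := by simpa using hl'.symm
      subst this
      simp
    | cons k l ih =>
      have hn : n = l.length + 1 := by rw [← hl', List.length_cons]
      rw [List.map_cons, List.prod_cons, map_mul, map_mul, ih rfl, evalS_ι, gS_sZ, C_mul, hn]
      rw [mul_assoc, mul_assoc, ← mul_assoc Polynomial.X, X_mul_C, mul_assoc, pow_succ']
  | zero => simp
  | add x y _ _ hx hy => rw [map_add, map_add, hx, hy, C_add, add_mul]
  | smul r x _ hx =>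
    rw [map_smul, map_smul, hx, ← smul_mul_assoc]
    congr 1
    exact (Polynomial.smul_C r _)

/-! ### The retraction -/

/-- The shift derivation `e_k ↦ e_{k+1}`. -/
def shiftD : Module.End F2 (FreeAlgebra F2 ℕ) := der F2 (fun k => FreeAlgebra.ι F2 (k + 1))

/-- The action of `S` on `F₂⟨e₀, e₁, …⟩`. -/
def theta : S3 →ₐ[F2] Module.End F2 (FreeAlgebra F2 ℕ) :=
  FreeAlgebra.lift F2 ![shiftD, 0, LinearMap.mulLeft F2 (FreeAlgebra.ι F2 0)]

theorem theta_sZ (k : ℕ) : theta (sZ k) = LinearMap.mulLeft F2 (FreeAlgebra.ι F2 k) := by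
  induction k with
  | zero =>
    unfold theta sZ
    conv_lhs => rw [show sF = FreeAlgebra.ι F2 2 from rfl]
    rw [FreeAlgebra.lift_ι_apply]; rfl
  | succ k ih =>
    have hc : theta sc = shiftD := by
      unfold theta; conv_lhs => rw [show sc = FreeAlgebra.ι F2 0 from rfl]
      rw [FreeAlgebra.lift_ι_apply]; rfl
    have hs : sZ (k + 1) = sc * sZ k - sZ k * sc := rfl
    rw [hs, map_sub, map_mul, map_mul, ih, hc]
    ext a
    simp only [LinearMap.sub_apply, Module.End.mul_apply, LinearMap.mulLeft_apply]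
    unfold shiftD
    rw [der_mul, der_ι]
    abel

theorem theta_evalS (q : FreeAlgebra F2 ℕ) : theta (evalS q) = LinearMap.mulLeft F2 q := by
  have h : theta.comp evalS = Algebra.lmul F2 (FreeAlgebra F2 ℕ) := by
    apply FreeAlgebra.hom_ext
    funext k
    simp only [Function.comp_apply, AlgHom.comp_apply, evalS_ι]
    exact theta_sZ k
  exact DFunLike.congr_fun h q

theorem evalS_injective : Function.Injective evalS := by
  intro a b h
  have ha := theta_evalS a
  rw [h, theta_evalS b] at ha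
  have := DFunLike.congr_fun ha (1 : FreeAlgebra F2 ℕ)
  simpa using this.symm

/-- INJ: symbols of word degree `n` are detected modulo `Fil (n+1)`. -/
theorem evalZ_inj {n : ℕ} {q : FreeAlgebra F2 ℕ} (hq : q ∈ wtA F2 (fun _ : ℕ => 1) n)
    (h : evalZ q ∈ Fil (n + 1)) : q = 0 := by
  have h1 : row (evalZ q) 0 ∈ FS (n + 1) := rho_Fil h 0 0
  rw [row_evalZ] at h1
  have h2 := h1 n (Nat.lt_succ_self n)
  change (gS (evalS q)).coeff n = 0 at h2
  rw [gS_evalS hq, Polynomial.coeff_C_mul, Polynomial.coeff_X_pow_self, mul_one] at h2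
  exact evalS_injective (by rw [h2, map_zero])

end Crest.Agent.R010.C

end
private theorem rz_2394f2064e : type_of% @_root_.Crest.Agent.R010.C.sZ.eq_def := @_root_.Crest.Agent.R010.C.sZ.eq_def -- L110
private theorem rz_489fb09baf : type_of% @_root_.Crest.Agent.R010.C.sZ.eq_1 := @_root_.Crest.Agent.R010.C.sZ.eq_1 -- L110
end

-- ▼ part R010/CConv

/-!
Row 10 (S0011), module CONV: from an exact form of the upper bound to `UpperBound`.
-/

set_option autoImplicit false

noncomputable section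

namespace Crest.Agent.R010.CConv

open Crest.Agent.R010.Witt hiding Y
open Crest.Agent.R010.C

attribute [local instance 100] LieRing.ofAssociativeRing

/-! ### Lie elements -/

theorem mem_LieX_iff {R : Type*} [CommRing R] {X : Type*} {a : FreeAlgebra R X} :
    a ∈ LieX R X ↔ ∃ l : FreeLieAlgebra R X, asso R X l = a := by
  constructor
  · intro h
    have hle : LieX R X ≤ (asso R X).range := by
      unfold LieX
      rw [LieSubalgebra.lieSpan_le]
      rintro _ ⟨x, rfl⟩
      exact ⟨FreeLieAlgebra.of R x, asso_of x⟩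
    obtain ⟨l, hl⟩ := hle h
    exact ⟨l, hl⟩
  · rintro ⟨l, rfl⟩
    induction l using fla_induction with
    | hof x => rw [asso_of]; exact LieSubalgebra.subset_lieSpan ⟨x, rfl⟩
    | h0 => rw [map_zero]; exact zero_mem _
    | hadd a b ha hb => rw [map_add]; exact add_mem ha hb
    | hsmul r a ha => rw [map_smul]; exact (LieX R X).smul_mem r ha
    | hlie a b ha hb => rw [LieHom.map_lie]; exact (LieX R X).lie_mem ha hb

theorem asso_lie {R : Type*} [CommRing R] {X : Type*} (l m : FreeLieAlgebra R X) :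
    asso R X ⁅l, m⁆ = asso R X l * asso R X m - asso R X m * asso R X l := by
  rw [LieHom.map_lie, LieRing.of_associative_ring_bracket]

/-! ### Homogeneous elements -/

section wt
variable {R : Type*} [CommRing R] {X : Type*}

theorem word_mem_wtA (w : X → ℕ) (l : List X) :
    (l.map (FreeAlgebra.ι R)).prod ∈ wtA R w (l.map w).sum :=
  Submodule.subset_span ⟨l, rfl, rfl⟩

theorem wtA_induction {w : X → ℕ} {N : ℕ} {p : FreeAlgebra R X → Prop}
    (hm : ∀ l : List X, (l.map w).sum = N → p (l.map (FreeAlgebra.ι R)).prod) (h0 : p 0)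
    (ha : ∀ a b, p a → p b → p (a + b)) (hs : ∀ (r : R) a, p a → p (r • a))
    {a : FreeAlgebra R X} (h : a ∈ wtA R w N) : p a := by
  unfold wtA at h
  induction h using Submodule.span_induction with
  | mem x hx => obtain ⟨l, hl, rfl⟩ := hx; exact hm l hl
  | zero => exact h0
  | add x y _ _ hx hy => exact ha x y hx hy
  | smul r x _ hx => exact hs r x hx

theorem wtA_mul {w : X → ℕ} {M N : ℕ} {a b : FreeAlgebra R X} (ha : a ∈ wtA R w M)
    (hb : b ∈ wtA R w N) : a * b ∈ wtA R w (M + N) := by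
  refine wtA_induction (p := fun a => a * b ∈ wtA R w (M + N)) ?_ ?_ ?_ ?_ ha
  · intro l hl
    refine wtA_induction (p := fun b => (l.map (FreeAlgebra.ι R)).prod * b ∈ wtA R w (M + N))
      ?_ ?_ ?_ ?_ hb
    · intro l' hl'
      rw [← List.prod_append, ← List.map_append]
      have := word_mem_wtA (R := R) w (l ++ l')
      rwa [List.map_append, List.sum_append, hl, hl'] at this
    · simp
    · intro x y hx hy; rw [mul_add]; exact add_mem hx hy
    · intro r x hx; rw [mul_smul_comm]; exact Submodule.smul_mem _ _ hx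
  · simp
  · intro x y hx hy; rw [add_mul]; exact add_mem hx hy
  · intro r x hx; rw [smul_mul_assoc]; exact Submodule.smul_mem _ _ hx

theorem ι_mem_wtA (w : X → ℕ) (i : X) : FreeAlgebra.ι R i ∈ wtA R w (w i) := by
  have := word_mem_wtA (R := R) w [i]
  simpa using this

theorem asso_mem_wtA {w : X → ℕ} {n : ℕ} {l : FreeLieAlgebra R X} (h : l ∈ WS R w n) :
    asso R X l ∈ wtA R w n := by
  refine WS_induction (p := fun l => asso R X l ∈ wtA R w n) ?_ ?_ ?_ ?_ h
  · clear h l
    intro l h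
    induction h with
    | of x => rw [asso_of]; exact ι_mem_wtA w x
    | @lie p q a b _ _ h1 h2 =>
      rw [asso_lie]
      refine sub_mem (wtA_mul h1 h2) ?_
      rw [add_comm p q]
      exact wtA_mul h2 h1
  · rw [map_zero]; exact zero_mem _
  · intro x y hx hy; rw [map_add]; exact add_mem hx hy
  · intro r x hx; rw [map_smul]; exact Submodule.smul_mem _ _ hx

theorem gradHom_of_wtA {w : X → ℕ} {n : ℕ} {a : FreeAlgebra R X} (h : a ∈ wtA R w n) :
    gradHom R w a = Polynomial.monomial n a := by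
  refine wtA_induction (p := fun a => gradHom R w a = Polynomial.monomial n a) ?_ ?_ ?_ ?_ h
  · clear h
    intro l hl
    subst hl
    induction l with
    | nil => simp
    | cons i l ih =>
      rw [List.map_cons, List.prod_cons, map_mul, ih, gradHom, FreeAlgebra.lift_ι_apply,
        Polynomial.monomial_mul_monomial, List.map_cons, List.sum_cons]
  · simp
  · intro x y hx hy; rw [map_add, map_add, hx, hy]
  · intro r x hx; rw [map_smul, hx, Polynomial.smul_monomial]

theorem comp_of_wtA {w : X → ℕ} {n : ℕ} {a : FreeAlgebra R X} (h : a ∈ wtA R w n) :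
    comp w n a = a := by
  rw [comp, gradHom_of_wtA h, Polynomial.coeff_monomial, if_pos rfl]

theorem comp_of_wtA_ne {w : X → ℕ} {m n : ℕ} {a : FreeAlgebra R X} (h : a ∈ wtA R w n)
    (hne : n ≠ m) : comp w m a = 0 := by
  rw [comp, gradHom_of_wtA h, Polynomial.coeff_monomial, if_neg hne]

theorem comp_add (w : X → ℕ) (n : ℕ) (a b : FreeAlgebra R X) :
    comp w n (a + b) = comp w n a + comp w n b := by
  rw [comp, comp, comp, map_add, Polynomial.coeff_add]

theorem comp_sub (w : X → ℕ) (n : ℕ) (a b : FreeAlgebra R X) :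
    comp w n (a - b) = comp w n a - comp w n b := by
  rw [comp, comp, comp, map_sub, Polynomial.coeff_sub]

theorem comp_zero (w : X → ℕ) (n : ℕ) : comp w n (0 : FreeAlgebra R X) = 0 := by
  rw [comp, map_zero, Polynomial.coeff_zero]

/-- Homogeneous components for one weight preserve homogeneity for another weight. -/
theorem comp_mem_wtA (w w' : X → ℕ) (m : ℕ) {N : ℕ} {a : FreeAlgebra R X}
    (h : a ∈ wtA R w' N) : comp w m a ∈ wtA R w' N := by
  refine wtA_induction (p := fun a => comp w m a ∈ wtA R w' N) ?_ ?_ ?_ ?_ h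
  · intro l hl
    by_cases hm : (l.map w).sum = m
    · rw [comp_of_wtA (hm ▸ word_mem_wtA (R := R) w l)]
      exact hl ▸ word_mem_wtA w' l
    · rw [comp_of_wtA_ne (word_mem_wtA (R := R) w l) hm]
      exact zero_mem _
  · rw [comp_zero]; exact zero_mem _
  · intro x y hx hy; rw [comp_add]; exact add_mem hx hy
  · intro r x hx; rw [comp_smul]; exact Submodule.smul_mem _ _ hx

end wt

/-! ### `J0` is a homogeneous ideal -/

theorem coeff_mem_J0_mul_left {p q : Polynomial (Alg F2)} (hq : ∀ n, q.coeff n ∈ J0) (n : ℕ) :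
    (p * q).coeff n ∈ J0 := by
  rw [Polynomial.coeff_mul]
  exact sum_mem (fun x _ => J0_mul_left _ (hq _))

theorem coeff_mem_J0_mul_right {p q : Polynomial (Alg F2)} (hp : ∀ n, p.coeff n ∈ J0) (n : ℕ) :
    (p * q).coeff n ∈ J0 := by
  rw [Polynomial.coeff_mul]
  exact sum_mem (fun x _ => J0_mul_right _ (hp _))

theorem comp_J0 (m : ℕ) {a : Alg F2} (ha : a ∈ J0) :
    comp (fun _ : Fin 2 => 1) m a ∈ J0 := by
  unfold J0 at ha
  induction ha using Submodule.span_induction with
  | mem x hx =>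
    obtain ⟨p, q, rfl⟩ := hx
    rw [comp, map_mul, map_mul, map_pow]
    have hY : gradHom F2 (fun _ : Fin 2 => 1) (Y F2) = Polynomial.monomial 1 (Y F2) := by
      rw [gradHom, Y, FreeAlgebra.lift_ι_apply]
    apply coeff_mem_J0_mul_right
    intro n
    apply coeff_mem_J0_mul_left
    intro n
    rw [hY, pow_two, Polynomial.monomial_mul_monomial, Polynomial.coeff_monomial, ← pow_two]
    split_ifs
    · exact Y2_mem_J0
    · exact zero_mem _
  | zero => rw [comp_zero]; exact zero_mem _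
  | add x y _ _ hx hy => rw [comp_add]; exact add_mem hx hy
  | smul r x _ hx => rw [comp_smul]; exact Submodule.smul_mem _ _ hx

/-! ### Weights of `cc` and `Zc` -/

theorem X_mem_wt : X F2 ∈ wtA F2 (fun _ : Fin 2 => 1) 1 := ι_mem_wtA (fun _ : Fin 2 => 1) 0
theorem Y_mem_wt : Y F2 ∈ wtA F2 (fun _ : Fin 2 => 1) 1 := ι_mem_wtA (fun _ : Fin 2 => 1) 1

theorem wtA_mul' {R : Type*} [CommRing R] {X : Type*} {w : X → ℕ} {M N K : ℕ}
    {a b : FreeAlgebra R X} (ha : a ∈ wtA R w M) (hb : b ∈ wtA R w N) (h : M + N = K) :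
    a * b ∈ wtA R w K := h ▸ wtA_mul ha hb

theorem cc_mem_wt : cc ∈ wtA F2 (fun _ : Fin 2 => 1) 2 := by
  have h1 : X F2 * Y F2 ∈ wtA F2 (fun _ : Fin 2 => 1) 2 := wtA_mul' X_mem_wt Y_mem_wt rfl
  have h2 : Y F2 * X F2 ∈ wtA F2 (fun _ : Fin 2 => 1) 2 := wtA_mul' Y_mem_wt X_mem_wt rfl
  unfold cc
  exact Submodule.sub_mem _ h1 h2

theorem FF_mem_wt : FF ∈ wtA F2 (fun _ : Fin 2 => 1) 3 := by
  have h2 : X F2 ^ 2 ∈ wtA F2 (fun _ : Fin 2 => 1) 2 := by
    rw [pow_two]; exact wtA_mul' X_mem_wt X_mem_wt rfl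
  have h3 : Y F2 * X F2 ^ 2 ∈ wtA F2 (fun _ : Fin 2 => 1) 3 := wtA_mul' Y_mem_wt h2 rfl
  have h4 : X F2 ^ 2 * Y F2 ∈ wtA F2 (fun _ : Fin 2 => 1) 3 := wtA_mul' h2 Y_mem_wt rfl
  unfold FF
  exact Submodule.sub_mem _ h3 h4

theorem Zc_mem_wt (k : ℕ) : Zc k ∈ wtA F2 (fun _ : Fin 2 => 1) (2 * k + 3) := by
  induction k with
  | zero => exact FF_mem_wt
  | succ k ih =>
    have h1 : cc * Zc k ∈ wtA F2 (fun _ : Fin 2 => 1) (2 * (k + 1) + 3) :=
      wtA_mul' cc_mem_wt ih (by ring)
    have h2 : Zc k * cc ∈ wtA F2 (fun _ : Fin 2 => 1) (2 * (k + 1) + 3) :=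
      wtA_mul' ih cc_mem_wt (by ring)
    rw [Zc_succ]
    exact Submodule.sub_mem _ h1 h2

theorem evalZ_mem_wt {N : ℕ} {P : FreeAlgebra F2 ℕ} (hP : P ∈ wtA F2 (fun k : ℕ => 2 * k + 3) N) :
    evalZ P ∈ wtA F2 (fun _ : Fin 2 => 1) N := by
  refine wtA_induction (p := fun P => evalZ P ∈ wtA F2 (fun _ : Fin 2 => 1) N) ?_ ?_ ?_ ?_ hP
  · clear hP
    intro l hl
    subst hl
    induction l with
    | nil =>
      have := word_mem_wtA (R := F2) (fun _ : Fin 2 => 1) []
      simpa using this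
    | cons k l ih =>
      simp only [List.map_cons, List.prod_cons, List.sum_cons, map_mul, evalZ_ι]
      exact wtA_mul (Zc_mem_wt k) ih
  · rw [map_zero]; exact zero_mem _
  · intro x y hx hy; rw [map_add]; exact add_mem hx hy
  · intro r x hx; rw [map_smul]; exact Submodule.smul_mem _ _ hx

/-! ### Elimination of `c` -/

theorem cc_lie_evalZ (m : FreeLieAlgebra F2 ℕ) :
    ∃ m' : FreeLieAlgebra F2 ℕ,
      cc * evalZ (asso F2 ℕ m) - evalZ (asso F2 ℕ m) * cc = evalZ (asso F2 ℕ m') := by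
  induction m using fla_induction with
  | hof k =>
    refine ⟨FreeLieAlgebra.of F2 (k + 1), ?_⟩
    rw [asso_of, asso_of, evalZ_ι, evalZ_ι, Zc_succ]
  | h0 => exact ⟨0, by simp⟩
  | hadd a b ha hb =>
    obtain ⟨a', ha⟩ := ha
    obtain ⟨b', hb⟩ := hb
    refine ⟨a' + b', ?_⟩
    simp only [map_add]
    rw [← ha, ← hb]
    noncomm_ring
  | hsmul r a ha =>
    obtain ⟨a', ha⟩ := ha
    refine ⟨r • a', ?_⟩
    simp only [map_smul]
    rw [← ha, mul_smul_comm, smul_mul_assoc, smul_sub]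
  | hlie a b ha hb =>
    obtain ⟨a', ha⟩ := ha
    obtain ⟨b', hb⟩ := hb
    refine ⟨⁅a', b⁆ + ⁅a, b'⁆, ?_⟩
    simp only [map_add, asso_lie, map_sub, map_mul]
    rw [← ha, ← hb]
    noncomm_ring

/-- Every Lie polynomial in `cc, FF` is `a • cc + evalZ (Lie polynomial in the e_k)`. -/
theorem ev2_asso (l : FreeLieAlgebra F2 (Fin 2)) :
    ∃ (a : F2) (m : FreeLieAlgebra F2 ℕ),
      ev2 F2 cc FF (asso F2 (Fin 2) l) = a • cc + evalZ (asso F2 ℕ m) := by
  induction l using fla_induction with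
  | hof i =>
    fin_cases i
    · refine ⟨1, 0, ?_⟩
      rw [asso_of, ev2, FreeAlgebra.lift_ι_apply]
      simp
    · refine ⟨0, FreeLieAlgebra.of F2 0, ?_⟩
      rw [asso_of, asso_of, ev2, FreeAlgebra.lift_ι_apply, evalZ_ι]
      simp [Zc_zero]
  | h0 => exact ⟨0, 0, by simp⟩
  | hadd a b ha hb =>
    obtain ⟨r, m, h1⟩ := ha
    obtain ⟨s, n, h2⟩ := hb
    refine ⟨r + s, m + n, ?_⟩
    simp only [map_add]
    rw [h1, h2, add_smul]
    abel
  | hsmul t a ha =>
    obtain ⟨r, m, h1⟩ := ha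
    refine ⟨t * r, t • m, ?_⟩
    simp only [map_smul]
    rw [h1, smul_add, mul_smul]
  | hlie a b ha hb =>
    obtain ⟨r, m, h1⟩ := ha
    obtain ⟨s, n, h2⟩ := hb
    obtain ⟨m', hm'⟩ := cc_lie_evalZ m
    obtain ⟨n', hn'⟩ := cc_lie_evalZ n
    refine ⟨0, r • n' - s • m' + ⁅m, n⁆, ?_⟩
    simp only [asso_lie, map_add, map_sub, map_mul, map_smul]
    rw [h1, h2, ← hm', ← hn', zero_smul, zero_add]
    simp only [add_mul, mul_add, smul_mul_assoc, mul_smul_comm, smul_sub, smul_add]
    rw [smul_comm r s (cc * cc)]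
    abel

/-! ### The conversion -/

/-- The upper bound for a predicate `Pent` on `Alg F2`. -/
def UpperBoundFor (Pent : Alg F2 → Prop) : Prop :=
  ∀ (N : ℕ) (ψ : Alg F2), 3 ≤ N → ψ ∈ wtA F2 (fun _ : Fin 2 => 1) N → ψ ∈ LieX F2 (Fin 2) →
    Pent ψ → ψ ≠ 0 →
    ∃ (n : ℕ) (P : FreeAlgebra F2 ℕ), 1 ≤ n ∧ P ∈ LieX F2 ℕ ∧
      P ∈ wtA F2 (fun _ : ℕ => 1) n ∧ P ∈ wtA F2 (fun k : ℕ => 2 * k + 3) N ∧ P ≠ 0 ∧
      ψ - evalZ P ∈ Fil (n + 1)


/-- The lowest word degree part of a nonzero homogeneous Lie polynomial in the `e_k`. -/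
theorem exists_lowest {N : ℕ} {m : FreeLieAlgebra F2 ℕ} (hm : m ∈ WS F2 (fun k : ℕ => 2 * k + 3) N)
    (h0 : m ≠ 0) :
    ∃ (n : ℕ) (P : FreeAlgebra F2 ℕ), 1 ≤ n ∧ P ∈ LieX F2 ℕ ∧
      P ∈ wtA F2 (fun _ : ℕ => 1) n ∧ P ∈ wtA F2 (fun k : ℕ => 2 * k + 3) N ∧ P ≠ 0 ∧
      evalZ (asso F2 ℕ m) - evalZ P ∈ Fil (n + 1) := by
  classical
  obtain ⟨f, hf, hsum⟩ := exists_hom_sum (fun _ : ℕ => 1) m
  have hne : f.support.Nonempty := by
    rw [Finset.nonempty_iff_ne_empty]
    intro he
    rw [he, Finset.sum_empty] at hsum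
    exact h0 hsum.symm
  set n := f.support.min' hne with hn
  have hnmem : n ∈ f.support := Finset.min'_mem _ _
  have hfn : f n ≠ 0 := Finsupp.mem_support_iff.1 hnmem
  refine ⟨n, asso F2 ℕ (f n), ?_, mem_LieX_iff.2 ⟨_, rfl⟩, asso_mem_wtA (hf n), ?_, ?_, ?_⟩
  · by_contra hlt
    have hlt' : n < 1 := not_le.1 hlt
    have hbot : WS F2 (fun _ : ℕ => 1) n = ⊥ := WS_eq_bot (d := 1) (fun _ => le_rfl) hlt'
    have := hf n
    rw [hbot, Submodule.mem_bot] at this
    exact hfn this
  · have h1 := comp_asso_sum f hf n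
    rw [hsum] at h1
    rw [← h1]
    exact comp_mem_wtA _ _ _ (asso_mem_wtA hm)
  · intro h
    apply hfn
    apply witt_injective
    rw [h, map_zero]
  · rw [← hsum, ← Finset.add_sum_erase _ _ hnmem, map_add, map_add, add_sub_cancel_left, map_sum,
      map_sum]
    refine sum_mem (fun k hk => ?_)
    have hk' := Finset.mem_erase.1 hk
    have hle : n ≤ k := Finset.min'_le _ _ hk'.2
    have hlt : n + 1 ≤ k := lt_of_le_of_ne hle (Ne.symm hk'.1)
    exact Fil_antitone hlt (evalZ_mem_Fil (asso_mem_wtA (hf k)))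

/-- From the exact form of the upper bound to `UpperBoundFor`. -/
theorem upperBoundFor_of_exact (Pent : Alg F2 → Prop)
    (H : ∀ (N : ℕ) (ψ : Alg F2), 3 ≤ N → ψ ∈ wtA F2 (fun _ : Fin 2 => 1) N →
      ψ ∈ LieX F2 (Fin 2) → Pent ψ →
      (∃ Λ ∈ LieX F2 (Fin 2), ψ - ev2 F2 cc FF Λ ∈ J0) ∧ (ψ ∈ J0 → ψ = 0)) :
    UpperBoundFor Pent := by
  intro N ψ hN hψ hL hP hne
  obtain ⟨⟨Λ, hΛ, hJ⟩, hinj⟩ := H N ψ hN hψ hL hP
  obtain ⟨l, rfl⟩ := mem_LieX_iff.1 hΛ
  obtain ⟨a, m, hm⟩ := ev2_asso l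
  rw [hm] at hJ
  obtain ⟨f, hf, hsum⟩ := exists_hom_sum (fun k : ℕ => 2 * k + 3) m
  have hJN := comp_J0 N hJ
  have hev : comp (fun _ : Fin 2 => 1) N (evalZ (asso F2 ℕ m)) = evalZ (asso F2 ℕ (f N)) := by
    have hterm : ∀ n, comp (fun _ : Fin 2 => 1) N (evalZ (asso F2 ℕ (f n)))
        = if n = N then evalZ (asso F2 ℕ (f n)) else 0 := by
      intro n
      have hw := evalZ_mem_wt (asso_mem_wtA (hf n))
      split_ifs with h
      · subst h; exact comp_of_wtA hw
      · exact comp_of_wtA_ne hw h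
    have hadd : comp (fun _ : Fin 2 => 1) N (evalZ (asso F2 ℕ m))
        = ∑ n ∈ f.support, comp (fun _ : Fin 2 => 1) N (evalZ (asso F2 ℕ (f n))) := by
      rw [← hsum, map_sum, map_sum, comp, map_sum, Polynomial.finsetSum_coeff]
      rfl
    rw [hadd, Finset.sum_congr rfl (fun n _ => hterm n), Finset.sum_ite_eq']
    split_ifs with h
    · rfl
    · rw [Finsupp.notMem_support_iff.1 h, map_zero, map_zero]
  have hcc : comp (fun _ : Fin 2 => 1) N cc = 0 := comp_of_wtA_ne cc_mem_wt (by omega)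
  rw [comp_sub, comp_of_wtA hψ, comp_add, comp_smul, hcc, smul_zero, zero_add, hev] at hJN
  have hfN : f N ≠ 0 := by
    intro h
    rw [h, map_zero, map_zero, sub_zero] at hJN
    exact hne (hinj hJN)
  obtain ⟨n, P, h1, h2, h3, h4, h5, h6⟩ := exists_lowest (hf N) hfN
  refine ⟨n, P, h1, h2, h3, h4, h5, ?_⟩
  have e : ψ - evalZ P = (ψ - evalZ (asso F2 ℕ (f N)))
      + (evalZ (asso F2 ℕ (f N)) - evalZ P) := by abel
  rw [e]
  exact add_mem (J0_le_Fil _ hJN) h6


end Crest.Agent.R010.CConv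

end
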