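import Crest.Agent.R010.ECpent

/-!
Row 10: closure of `grtSpace` under the Ihara bracket (helper450).
-/

set_option autoImplicit false
set_option linter.unusedSimpArgs false
set_option linter.unusedVariables false
set_option linter.unusedTactic false

noncomputable section

namespace Crest.Agent.R010

open Crest.NumberTheoryR.GT

section square_zero
variable (M : Type*) [LieRing M] [LieAlgebra ℚ M]

/-- square-zero extension of a Lie algebra by its adjoint module (same construction as `DualGT`). -/
abbrev Du : Type _ := LieAlgebra.ofTwoCocycle (0 : LieModule.Cohomology.twoCocycle ℚ M M)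

variable {M}

/-- `(a, u)` -/
def duMk (a u : M) : Du M := LieAlgebra.ofProd 0 (a, u)

/-- first projection -/
def duFst : Du M →ₗ[ℚ] M where
  toFun v := ((LieAlgebra.ofProd 0).symm v).1
  map_add' v w := by simp
  map_smul' r v := by simp

/-- second projection -/
def duSnd : Du M →ₗ[ℚ] M where
  toFun v := ((LieAlgebra.ofProd 0).symm v).2
  map_add' v w := by simp
  map_smul' r v := by simp

@[simp] theorem duFst_mk (a u : M) : duFst (duMk a u) = a := rfl
@[simp] theorem duSnd_mk (a u : M) : duSnd (duMk a u) = u := rfl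

theorem du_ext {v w : Du M} (h1 : duFst v = duFst w) (h2 : duSnd v = duSnd w) : v = w := by
  apply (LieAlgebra.ofProd (0 : LieModule.Cohomology.twoCocycle ℚ M M)).symm.injective
  exact Prod.ext h1 h2

theorem duMk_add (a u b v : M) : duMk a u + duMk b v = duMk (a + b) (u + v) := rfl

theorem duMk_smul (r : ℚ) (a u : M) : r • duMk a u = duMk (r • a) (r • u) := rfl

theorem duMk_zero : duMk (0 : M) 0 = 0 := rfl

theorem duMk_lie (a u b v : M) : ⁅duMk a u, duMk b v⁆ = duMk ⁅a, b⁆ (⁅a, v⁆ - ⁅b, u⁆) := by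
  apply du_ext
  · simp [duMk, duFst, LieAlgebra.bracket_ofTwoCocycle]
  · simp [duMk, duSnd, LieAlgebra.bracket_ofTwoCocycle]

theorem duMk_sum {ι : Type*} (s : Finset ι) (a u : ι → M) :
    ∑ i ∈ s, duMk (a i) (u i) = duMk (∑ i ∈ s, a i) (∑ i ∈ s, u i) := by
  classical
  induction s using Finset.induction_on with
  | empty => simp [duMk_zero]
  | insert i s hi ih => rw [Finset.sum_insert hi, Finset.sum_insert hi, Finset.sum_insert hi, ih,
      duMk_add]

end square_zero

/-! ### the Ihara derivation -/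

/-- the Lie homomorphism `φ ↦ (φ, D_ψ φ)` -/
theorem dual_hom_fst (p f : GTLie) :
    duFst ((gtSubst (duMk gx 0) (duMk gy ⁅gy, p⁆) : GTLie →ₗ⁅ℚ⁆ Du GTLie) f) = f := by
  -- `duFst` is a Lie homomorphism
  let π : Du GTLie →ₗ⁅ℚ⁆ GTLie :=
    { duFst (M := GTLie) with
      map_lie' := by
        intro x y
        change duFst ⁅x, y⁆ = ⁅duFst x, duFst y⁆
        rw [LieAlgebra.bracket_ofTwoCocycle]
        rfl }
  have h : (π.comp (gtSubst (duMk gx 0) (duMk gy ⁅gy, p⁆)) : GTLie →ₗ⁅ℚ⁆ GTLie) = LieHom.id := by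
    apply gt_hom_ext
    · change duFst (gtSubst (duMk gx 0) (duMk gy ⁅gy, p⁆) gx) = gx
      rw [gtSubst_gx]; rfl
    · change duFst (gtSubst (duMk gx 0) (duMk gy ⁅gy, p⁆) gy) = gy
      rw [gtSubst_gy]; rfl
  have := congrArg (fun g : GTLie →ₗ⁅ℚ⁆ GTLie => g f) h
  exact this

theorem iharaDer_eq (p f : GTLie) :
    iharaDer p f = duSnd ((gtSubst (duMk gx 0) (duMk gy ⁅gy, p⁆) : GTLie →ₗ⁅ℚ⁆ Du GTLie) f) := rfl

theorem dual_hom_eq (p f : GTLie) :
    (gtSubst (duMk gx 0) (duMk gy ⁅gy, p⁆) : GTLie →ₗ⁅ℚ⁆ Du GTLie) f = duMk f (iharaDer p f) :=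
  du_ext (dual_hom_fst p f) rfl

@[simp] theorem iharaDer_gx (p : GTLie) : iharaDer p gx = 0 := by
  rw [iharaDer_eq, gtSubst_gx]; rfl

@[simp] theorem iharaDer_gy (p : GTLie) : iharaDer p gy = ⁅gy, p⁆ := by
  rw [iharaDer_eq, gtSubst_gy]; rfl

theorem iharaDer_lie (p f g : GTLie) :
    iharaDer p ⁅f, g⁆ = ⁅f, iharaDer p g⁆ - ⁅g, iharaDer p f⁆ := by
  have h := dual_hom_eq p ⁅f, g⁆
  rw [LieHom.map_lie, dual_hom_eq, dual_hom_eq, duMk_lie] at h
  exact (congrArg duSnd h).symm

theorem iharaDer_lie' (p f g : GTLie) :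
    iharaDer p ⁅f, g⁆ = ⁅iharaDer p f, g⁆ + ⁅f, iharaDer p g⁆ := by
  rw [iharaDer_lie, ← lie_skew g, sub_neg_eq_add, add_comm]

section transport
variable {M : Type*} [LieRing M] [LieAlgebra ℚ M]

/-- `f ↦ (f(a,b), (D_p f)(a,b) + [u, f(a,b)])` is the substitution of
`(a, [u,a])`, `(b, [u - p(a,b), b])`. -/
theorem du_subst (p : GTLie) (a b u : M) (f : GTLie) :
    gtSubst (duMk a ⁅u, a⁆) (duMk b ⁅u - gtSubst a b p, b⁆) f =
      duMk (gtSubst a b f) (gtSubst a b (iharaDer p f) + ⁅u, gtSubst a b f⁆) := by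
  let F : GTLie →ₗ⁅ℚ⁆ Du M :=
    { toFun := fun f => duMk (gtSubst a b f) (gtSubst a b (iharaDer p f) + ⁅u, gtSubst a b f⁆)
      map_add' := by
        intro f g
        rw [duMk_add]
        congr 1
        · simp
        · simp only [map_add, lie_add]; abel
      map_smul' := by
        intro r f
        rw [RingHom.id_apply, duMk_smul]
        congr 1
        · simp
        · simp only [map_smul, lie_smul, smul_add]
      map_lie' := by
        intro f g
        change duMk _ _ = ⁅duMk _ _, duMk _ _⁆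
        rw [duMk_lie]
        congr 1
        · simp
        · rw [iharaDer_lie, map_sub, LieHom.map_lie, LieHom.map_lie, LieHom.map_lie, lie_add,
            lie_add, leibniz_lie u]
          rw [← lie_skew (gtSubst a b g) ⁅u, gtSubst a b f⁆]
          abel }
  have hx : F gx = duMk a ⁅u, a⁆ := by
    change duMk _ _ = _
    rw [iharaDer_gx]; simp
  have hy : F gy = duMk b ⁅u - gtSubst a b p, b⁆ := by
    change duMk _ _ = _
    rw [iharaDer_gy, LieHom.map_lie, gtSubst_gy, sub_lie, ← lie_skew b]
    congr 1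
    abel
  have := gtSubst_unique F f
  rw [hx, hy] at this
  exact this.symm

end transport

/-! ### antisymmetry of the bracket -/

theorem swap_iharaDer {p : GTLie} (hp : antisymDefect p = 0) (f : GTLie) :
    gtSubst gy gx (iharaDer p f) = iharaDer p (gtSubst gy gx f) + ⁅p, gtSubst gy gx f⁆ := by
  -- both sides, as functions of `f`, give the same Lie homomorphism to `Du GTLie`
  have h1 := du_subst p gy gx (0 : GTLie) f
  simp only [zero_lie, add_zero, zero_sub] at h1
  have hp' : gtSubst gy gx p = -p := by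
    have := gtSubst_swap_neg hp gx gy
    rwa [show gtSubst gx gy p = p from by
      have := gtSubst_unique (LieHom.id : GTLie →ₗ⁅ℚ⁆ GTLie) p
      exact this.symm] at this
  rw [hp', neg_neg] at h1
  -- h1 : gtSubst (duMk gy 0) (duMk gx ⁅p, gx⁆) f = duMk (θ f) (θ (D f))
  let G : GTLie →ₗ⁅ℚ⁆ Du GTLie :=
    { toFun := fun f => duMk (gtSubst gy gx f)
        (iharaDer p (gtSubst gy gx f) + ⁅p, gtSubst gy gx f⁆)
      map_add' := by
        intro f g
        rw [duMk_add]
        congr 1
        · simp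
        · simp only [map_add, lie_add]; abel
      map_smul' := by
        intro r f
        rw [RingHom.id_apply, duMk_smul]
        congr 1
        · simp
        · simp only [map_smul, lie_smul, smul_add]
      map_lie' := by
        intro f g
        change duMk _ _ = ⁅duMk _ _, duMk _ _⁆
        rw [duMk_lie]
        congr 1
        · simp
        · rw [LieHom.map_lie, iharaDer_lie, lie_add, lie_add, leibniz_lie p]
          rw [← lie_skew (gtSubst gy gx g) ⁅p, gtSubst gy gx f⁆]
          abel }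
  have hx : G gx = duMk gy 0 := by
    change duMk _ _ = _
    rw [gtSubst_gx, iharaDer_gy]
    congr 1
    rw [← lie_skew gy p]; abel
  have hy : G gy = duMk gx ⁅p, gx⁆ := by
    change duMk _ _ = _
    rw [gtSubst_gy, iharaDer_gx, zero_add]
  have h2 := gtSubst_unique G f
  rw [hx, hy, h1] at h2
  exact (congrArg duSnd h2).symm

theorem antisym_ihara {p q : GTLie} (hp : antisymDefect p = 0) (hq : antisymDefect q = 0) :
    antisymDefect (iharaBracket p q) = 0 := by
  have hp' : gtSubst gy gx p = -p := by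
    have := gtSubst_swap_neg hp gx gy
    rwa [show gtSubst gx gy p = p from (gtSubst_unique (LieHom.id : GTLie →ₗ⁅ℚ⁆ GTLie) p).symm] at this
  have hq' : gtSubst gy gx q = -q := by
    have := gtSubst_swap_neg hq gx gy
    rwa [show gtSubst gx gy q = q from (gtSubst_unique (LieHom.id : GTLie →ₗ⁅ℚ⁆ GTLie) q).symm] at this
  change iharaBracket p q + gtSubst gy gx (iharaBracket p q) = 0
  unfold iharaBracket
  rw [map_add, map_sub, swap_iharaDer hp, swap_iharaDer hq, LieHom.map_lie, hp', hq']
  simp only [map_neg, lie_neg, neg_lie, neg_neg]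
  rw [← lie_skew p q]
  abel

/-! ### weights -/


theorem lie_mem_weight {m n : ℕ} {f g : GTLie}
    (hf : f ∈ weightSubspace (fun _ : Fin 2 => 1) m) (hg : g ∈ weightSubspace (fun _ : Fin 2 => 1) n) :
    ⁅f, g⁆ ∈ weightSubspace (fun _ : Fin 2 => 1) (m + n) := by
  refine Submodule.span_induction (p := fun f _ => ⁅f, g⁆ ∈ weightSubspace (fun _ : Fin 2 => 1) (m + n))
    ?_ ?_ ?_ ?_ hf
  · intro f hf
    refine Submodule.span_induction
      (p := fun g _ => ⁅f, g⁆ ∈ weightSubspace (fun _ : Fin 2 => 1) (m + n)) ?_ ?_ ?_ ?_ hg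
    · intro g hg
      exact Submodule.subset_span (IsBracketMonomial.lie hf hg)
    · simp
    · intro x y _ _ hx hy; rw [lie_add]; exact Submodule.add_mem _ hx hy
    · intro c x _ hx; rw [lie_smul]; exact Submodule.smul_mem _ _ hx
  · simp
  · intro x y _ _ hx hy; rw [add_lie]; exact Submodule.add_mem _ hx hy
  · intro c x _ hx; rw [smul_lie]; exact Submodule.smul_mem _ _ hx

theorem iharaDer_mem_weight {m n : ℕ} {p f : GTLie}
    (hp : p ∈ weightSubspace (fun _ : Fin 2 => 1) m)
    (hf : f ∈ weightSubspace (fun _ : Fin 2 => 1) n) :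
    iharaDer p f ∈ weightSubspace (fun _ : Fin 2 => 1) (m + n) := by
  refine Submodule.span_induction
    (p := fun f _ => iharaDer p f ∈ weightSubspace (fun _ : Fin 2 => 1) (m + n)) ?_ ?_ ?_ ?_ hf
  · intro f hf
    change IsBracketMonomial _ n f at hf
    clear * - hp hf
    induction hf with
    | of i =>
      fin_cases i
      · change iharaDer p gx ∈ _
        rw [iharaDer_gx]; exact Submodule.zero_mem _
      · change iharaDer p gy ∈ _
        rw [iharaDer_gy]
        have : gy ∈ weightSubspace (fun _ : Fin 2 => 1) 1 :=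
          Submodule.subset_span (IsBracketMonomial.of (w := fun _ : Fin 2 => 1) 1)
        have h := lie_mem_weight this hp
        rwa [add_comm] at h
    | @lie a b f g hf hg ihf ihg =>
      rw [iharaDer_lie']
      have hf' : f ∈ weightSubspace (fun _ : Fin 2 => 1) a := Submodule.subset_span hf
      have hg' : g ∈ weightSubspace (fun _ : Fin 2 => 1) b := Submodule.subset_span hg
      have h1 := lie_mem_weight ihf hg'
      have h2 := lie_mem_weight hf' ihg
      rw [show m + a + b = m + (a + b) by ring] at h1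
      rw [show a + (m + b) = m + (a + b) by ring] at h2
      exact Submodule.add_mem _ h1 h2
  · simp
  · intro x y _ _ hx hy; rw [map_add]; exact Submodule.add_mem _ hx hy
  · intro c x _ hx; rw [map_smul]; exact Submodule.smul_mem _ _ hx

theorem iharaBracket_mem_weight {m n : ℕ} {p q : GTLie}
    (hp : p ∈ weightSubspace (fun _ : Fin 2 => 1) m)
    (hq : q ∈ weightSubspace (fun _ : Fin 2 => 1) n) :
    iharaBracket p q ∈ weightSubspace (fun _ : Fin 2 => 1) (m + n) := by
  unfold iharaBracket
  have h1 := iharaDer_mem_weight hp hq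
  have h2 := iharaDer_mem_weight hq hp
  rw [add_comm n m] at h2
  exact Submodule.add_mem _ (Submodule.sub_mem _ h1 h2) (lie_mem_weight hp hq)

theorem iharaDer_add (p p' f : GTLie) : iharaDer (p + p') f = iharaDer p f + iharaDer p' f := by
  let F : GTLie →ₗ⁅ℚ⁆ Du GTLie :=
    { toFun := fun f => duMk f (iharaDer p f + iharaDer p' f)
      map_add' := by
        intro f g
        rw [duMk_add]
        congr 1
        simp only [map_add]; abel
      map_smul' := by
        intro r f
        rw [RingHom.id_apply, duMk_smul]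
        congr 1
        simp only [map_smul, smul_add]
      map_lie' := by
        intro f g
        change duMk _ _ = ⁅duMk _ _, duMk _ _⁆
        rw [duMk_lie]
        congr 1
        rw [iharaDer_lie, iharaDer_lie, lie_add, lie_add]
        abel }
  have hx : F gx = duMk gx 0 := by
    change duMk _ _ = _
    simp
  have hy : F gy = duMk gy ⁅gy, p + p'⁆ := by
    change duMk _ _ = _
    simp
  have := gtSubst_unique F f
  rw [hx, hy, dual_hom_eq] at this
  exact (congrArg duSnd this).symm

theorem iharaDer_smul (r : ℚ) (p f : GTLie) : iharaDer (r • p) f = r • iharaDer p f := by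
  let F : GTLie →ₗ⁅ℚ⁆ Du GTLie :=
    { toFun := fun f => duMk f (r • iharaDer p f)
      map_add' := by
        intro f g
        rw [duMk_add]
        congr 1
        simp only [map_add, smul_add]
      map_smul' := by
        intro r' f
        rw [RingHom.id_apply, duMk_smul]
        congr 1
        simp only [map_smul]
        rw [smul_comm]
      map_lie' := by
        intro f g
        change duMk _ _ = ⁅duMk _ _, duMk _ _⁆
        rw [duMk_lie]
        congr 1
        rw [iharaDer_lie, lie_smul, lie_smul, smul_sub] }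
  have hx : F gx = duMk gx 0 := by
    change duMk _ _ = _
    simp
  have hy : F gy = duMk gy ⁅gy, r • p⁆ := by
    change duMk _ _ = _
    simp
  have := gtSubst_unique F f
  rw [hx, hy, dual_hom_eq] at this
  exact (congrArg duSnd this).symm

theorem iharaBracket_add_left (p p' q : GTLie) :
    iharaBracket (p + p') q = iharaBracket p q + iharaBracket p' q := by
  unfold iharaBracket
  rw [iharaDer_add, map_add, add_lie]; abel

theorem iharaBracket_add_right (p q q' : GTLie) :
    iharaBracket p (q + q') = iharaBracket p q + iharaBracket p q' := by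
  unfold iharaBracket
  rw [iharaDer_add, map_add, lie_add]; abel

theorem iharaBracket_smul_left (r : ℚ) (p q : GTLie) :
    iharaBracket (r • p) q = r • iharaBracket p q := by
  unfold iharaBracket
  rw [iharaDer_smul, map_smul, smul_lie, smul_add, smul_sub]

theorem iharaBracket_smul_right (r : ℚ) (p q : GTLie) :
    iharaBracket p (r • q) = r • iharaBracket p q := by
  unfold iharaBracket
  rw [iharaDer_smul, map_smul, lie_smul, smul_add, smul_sub]

/-! ### the pentagon of the bracket -/

theorem zero_left_bracket (q : GTLie) : iharaBracket 0 q = 0 := by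
  have := iharaBracket_smul_left 0 0 q
  simpa using this

theorem zero_right_bracket (q : GTLie) : iharaBracket q 0 = 0 := by
  have := iharaBracket_smul_right 0 q 0
  simpa using this

section conf
variable {M : Type} [LieRing M] [LieAlgebra ℚ M]

/-- key computation: the deformed configuration and the five-term sum of `D_p q`. -/
theorem sum_iharaDer (hEB2 : EB2) {m n : ℕ} (hm : 3 ≤ m) (hn : 3 ≤ n) {p q : GTLie}
    (hp : p ∈ grtW m) (hq : q ∈ grtW n) {R : Fin 5 → M} (hR : Conf5 R) (u : Fin 5 → M)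
    (hu : ∀ i, u (i + 1) = u i - gtSubst (R (i - 1)) (R (i + 1)) p) :
    ∑ i, gtSubst (R (i - 1)) (R (i + 1)) (iharaDer p q) +
      ∑ i, ⁅u i, gtSubst (R (i - 1)) (R (i + 1)) q⁆ = 0 := by
  obtain ⟨h5, hδ⟩ := hEB2 m p hm hp M R hR
  obtain ⟨hδ1, hδ2⟩ := hδ u hu
  -- the deformed configuration
  set R' : Fin 5 → Du M := fun j => duMk (R j) ⁅u j, R j⁆ with hR'
  have hcomm : ∀ i, ⁅gtSubst (R (i - 1)) (R (i + 1)) p, R i⁆ = 0 := by
    intro i
    rw [← lie_skew, neg_eq_zero]
    apply commute_gtSubst
    · rw [← lie_skew, neg_eq_zero]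
      have := hR.1 (i - 1)
      rwa [sub_add_cancel] at this
    · exact hR.1 i
  have hconf : Conf5 R' := by
    constructor
    · intro i
      simp only [hR']
      rw [duMk_lie, hR.1 i]
      have h := hδ1 i
      rw [← duMk_zero]
      congr 1
      rw [← lie_skew (R (i + 1)) ⁅u i, R i⁆, sub_neg_eq_add, add_comm]
      exact h
    · simp only [hR', duMk_lie]
      rw [duMk_sum, hR.2, ← duMk_zero]
      congr 1
      rw [← hδ2]
      apply Finset.sum_congr rfl
      intro i _
      rw [← lie_skew (R (i + 2)) ⁅u i, R i⁆, sub_neg_eq_add, add_comm]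
  have h5q := (hEB2 n q hn hq (Du M) R' hconf).1
  have hterm : ∀ i, gtSubst (R' (i - 1)) (R' (i + 1)) q =
      duMk (gtSubst (R (i - 1)) (R (i + 1)) q)
        (gtSubst (R (i - 1)) (R (i + 1)) (iharaDer p q) +
          ⁅u i, gtSubst (R (i - 1)) (R (i + 1)) q⁆) := by
    intro i
    rw [← du_subst]
    simp only [hR']
    congr 2
    · have h := hu (i - 1)
      rw [sub_add_cancel] at h
      rw [h, sub_lie]
      have h2 := hcomm (i - 1)
      rw [sub_add_cancel] at h2
      rw [h2, sub_zero]
    · rw [hu i]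
  simp only [hterm] at h5q
  rw [duMk_sum] at h5q
  have := congrArg duSnd h5q
  rw [duSnd_mk, Finset.sum_add_distrib] at this
  exact this

theorem sum_iharaBracket (hEB2 : EB2) {m n : ℕ} (hm : 3 ≤ m) (hn : 3 ≤ n) {p q : GTLie}
    (hp : p ∈ grtW m) (hq : q ∈ grtW n) {R : Fin 5 → M} (hR : Conf5 R) :
    ∑ i, gtSubst (R (i - 1)) (R (i + 1)) (iharaBracket p q) = 0 := by
  set P : Fin 5 → M := fun i => gtSubst (R (i - 1)) (R (i + 1)) p with hP
  set Q : Fin 5 → M := fun i => gtSubst (R (i - 1)) (R (i + 1)) q with hQ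
  have hPs : ∑ i, P i = 0 := (hEB2 m p hm hp M R hR).1
  have hQs : ∑ i, Q i = 0 := (hEB2 n q hn hq M R hR).1
  let cum : (Fin 5 → M) → Fin 5 → M := fun P =>
    ![-(P 1 + P 2 + P 3 + P 4), 0, -P 1, -(P 1 + P 2), -(P 1 + P 2 + P 3)]
  have hcum : ∀ P : Fin 5 → M, ∑ i, P i = 0 → ∀ i, cum P (i + 1) = cum P i - P i := by
    intro P hP i
    rw [Fin.sum_univ_five] at hP
    fin_cases i
    · change (0 : M) = -(P 1 + P 2 + P 3 + P 4) - P 0
      rw [← neg_eq_zero.2 hP]; abel
    · change -P 1 = 0 - P 1
      abel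
    · change -(P 1 + P 2) = -P 1 - P 2
      abel
    · change -(P 1 + P 2 + P 3) = -(P 1 + P 2) - P 3
      abel
    · change -(P 1 + P 2 + P 3 + P 4) = -(P 1 + P 2 + P 3) - P 4
      abel
  set u := cum P with hu
  set v := cum Q with hv
  have hu' := hcum P hPs
  have hv' := hcum Q hQs
  have h1 := sum_iharaDer hEB2 hm hn hp hq hR u hu'
  have h2 := sum_iharaDer hEB2 hn hm hq hp hR v hv'
  have e : ∀ i, gtSubst (R (i - 1)) (R (i + 1)) (iharaBracket p q) =
      gtSubst (R (i - 1)) (R (i + 1)) (iharaDer p q) -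
      gtSubst (R (i - 1)) (R (i + 1)) (iharaDer q p) + ⁅P i, Q i⁆ := by
    intro i
    unfold iharaBracket
    rw [map_add, map_sub, LieHom.map_lie]
  simp only [e]
  rw [Finset.sum_add_distrib, Finset.sum_sub_distrib]
  have h1' : ∑ i, gtSubst (R (i - 1)) (R (i + 1)) (iharaDer p q) = - ∑ i, ⁅u i, Q i⁆ :=
    eq_neg_of_add_eq_zero_left h1
  have h2' : ∑ i, gtSubst (R (i - 1)) (R (i + 1)) (iharaDer q p) = - ∑ i, ⁅v i, P i⁆ :=
    eq_neg_of_add_eq_zero_left h2
  rw [h1', h2']
  have hPu : ∀ i, P i = u i - u (i + 1) := by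
    intro i
    have h : u (i + 1) = u i - P i := hu' i
    rw [h]; abel
  have hQv : ∀ i, Q i = v i - v (i + 1) := by
    intro i
    have h : v (i + 1) = v i - Q i := hv' i
    rw [h]; abel
  have hshift : ∑ i, ⁅u (i + 1), v (i + 1)⁆ = ∑ i, ⁅u i, v i⁆ :=
    Equiv.sum_comp (Equiv.addRight (1 : Fin 5)) (fun i => ⁅u i, v i⁆)
  have hfin : -∑ i, ⁅u i, Q i⁆ - -∑ i, ⁅v i, P i⁆ + ∑ i, ⁅P i, Q i⁆ =
      ∑ i, ⁅u (i + 1), v (i + 1)⁆ - ∑ i, ⁅u i, v i⁆ := by
    rw [← Finset.sum_neg_distrib, ← Finset.sum_neg_distrib, ← Finset.sum_sub_distrib,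
      ← Finset.sum_add_distrib, ← Finset.sum_sub_distrib]
    apply Finset.sum_congr rfl
    intro i _
    rw [hPu i, hQv i]
    simp only [lie_sub, sub_lie]
    rw [← lie_skew (v i) (u i), ← lie_skew (v i) (u (i + 1))]
    abel
  rw [hfin, hshift, sub_self]

end conf

/-- (EC) closure of `grtSpace` under the Ihara bracket -/
theorem EC_of (hS4 : S4) (hEB1 : EB1) (hEB2 : EB2) : EC := by
  have key : ∀ (m n : ℕ) (p q : GTLie), 3 ≤ m → 3 ≤ n → p ∈ grtW m → q ∈ grtW n →
      iharaBracket p q ∈ grtSpace := by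
    intro m n p q hm hn hp hq
    have hw : iharaBracket p q ∈ weightSubspace (fun _ : Fin 2 => 1) (m + n) :=
      iharaBracket_mem_weight hp.2 hq.2
    have ha : antisymDefect (iharaBracket p q) = 0 :=
      antisym_ihara (LinearMap.mem_ker.1 hp.1.1.1) (LinearMap.mem_ker.1 hq.1.1.1)
    have hpent : pentagonDefect (iharaBracket p q) = 0 := by
      rw [pentagonDefect_eq (n := m + n) (by omega) hw ha]
      exact sum_iharaBracket hEB2 hm hn hp hq conf5_RB
    have h3 : threeTermDefect (iharaBracket p q) = 0 :=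
      hEB1 (m + n) _ (by omega) hw ha hpent
    exact ⟨⟨LinearMap.mem_ker.2 ha, LinearMap.mem_ker.2 h3⟩, LinearMap.mem_ker.2 hpent⟩
  intro p hp q hq
  obtain ⟨s, P, hP, rfl⟩ := hS4 p hp
  obtain ⟨t, Q, hQ, rfl⟩ := hS4 q hq
  have hl : ∀ (s : Finset ℕ) (f : ℕ → GTLie) (q : GTLie),
      iharaBracket (∑ i ∈ s, f i) q = ∑ i ∈ s, iharaBracket (f i) q := by
    intro s f q
    induction s using Finset.induction_on with
    | empty => simp [zero_left_bracket]
    | insert i s hi ih =>
      rw [Finset.sum_insert hi, Finset.sum_insert hi, iharaBracket_add_left, ih]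
  have hr : ∀ (s : Finset ℕ) (f : ℕ → GTLie) (q : GTLie),
      iharaBracket q (∑ i ∈ s, f i) = ∑ i ∈ s, iharaBracket q (f i) := by
    intro s f q
    induction s using Finset.induction_on with
    | empty => simp [zero_right_bracket]
    | insert i s hi ih =>
      rw [Finset.sum_insert hi, Finset.sum_insert hi, iharaBracket_add_right, ih]
  rw [hl]
  apply Submodule.sum_mem
  intro i hi
  rw [hr]
  apply Submodule.sum_mem
  intro j hj
  exact key i j (P i) (Q j) (hP i hi).1 (hQ j hj).1 (hP i hi).2 (hQ j hj).2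

end Crest.Agent.R010

end
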