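import Crest.Agent.R010.EDefs

/-!
Row 10: the frozen pentagon in `braidLie4` is the five-term sum of the standard
five-configuration `RB` (helper450).
-/

set_option autoImplicit false
set_option linter.unusedSimpArgs false
set_option linter.unusedTactic false
set_option linter.unreachableTactic false
set_option linter.unusedVariables false

noncomputable section

namespace Crest.Agent.R010

open Crest.NumberTheoryR.GT

section general
variable {M : Type*} [LieRing M] [LieAlgebra ℚ M]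

@[simp] theorem gtSubst_gx (a b : M) : gtSubst a b gx = a := by
  simp [gtSubst, gx]

@[simp] theorem gtSubst_gy (a b : M) : gtSubst a b gy = b := by
  simp [gtSubst, gy]



/-- Lie homomorphisms out of `GTLie` are determined by `gx`, `gy`. -/
theorem gt_hom_ext {f g : GTLie →ₗ⁅ℚ⁆ M} (hx : f gx = g gx) (hy : f gy = g gy) : f = g := by
  apply FreeLieAlgebra.hom_ext
  intro i
  fin_cases i
  · exact hx
  · exact hy

theorem gtSubst_unique (f : GTLie →ₗ⁅ℚ⁆ M) (p : GTLie) : f p = gtSubst (f gx) (f gy) p := by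
  have : f = gtSubst (f gx) (f gy) := gt_hom_ext (by simp) (by simp)
  rw [← this]

/-- composition of a substitution with a Lie homomorphism -/
theorem map_gtSubst {M' : Type*} [LieRing M'] [LieAlgebra ℚ M'] (g : M →ₗ⁅ℚ⁆ M') (a b : M)
    (p : GTLie) : g (gtSubst a b p) = gtSubst (g a) (g b) p := by
  have : (g.comp (gtSubst a b) : GTLie →ₗ⁅ℚ⁆ M') = gtSubst (g a) (g b) :=
    gt_hom_ext (by simp) (by simp)
  rw [← this]; rfl

/-- an element commuting with `a`, `b` commutes with every `p(a,b)`. -/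
theorem commute_gtSubst {a b z : M} (ha : ⁅z, a⁆ = 0) (hb : ⁅z, b⁆ = 0) (p : GTLie) :
    ⁅z, gtSubst a b p⁆ = 0 := by
  -- the centralizer of `z` is a Lie subalgebra
  let K : LieSubalgebra ℚ M :=
    { carrier := {m | ⁅z, m⁆ = 0}
      add_mem' := by
        intro x y hx hy
        change ⁅z, x⁆ = 0 at hx
        change ⁅z, y⁆ = 0 at hy
        change ⁅z, x + y⁆ = 0
        rw [lie_add, hx, hy, add_zero]
      zero_mem' := by
        change ⁅z, (0 : M)⁆ = 0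
        simp
      smul_mem' := by
        intro c x hx
        change ⁅z, x⁆ = 0 at hx
        change ⁅z, c • x⁆ = 0
        rw [lie_smul, hx, smul_zero]
      lie_mem' := by
        intro x y hx hy
        change ⁅z, x⁆ = 0 at hx
        change ⁅z, y⁆ = 0 at hy
        change ⁅z, ⁅x, y⁆⁆ = 0
        rw [leibniz_lie, hx, hy]; simp }
  have h : gtSubst a b p = (K.incl (gtSubst (⟨a, ha⟩ : K) ⟨b, hb⟩ p)) := by
    rw [map_gtSubst]; rfl
  rw [h]
  exact (gtSubst (⟨a, ha⟩ : K) ⟨b, hb⟩ p).2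

/-- weight `≥ 2` elements do not see commuting summands. -/
theorem gtSubst_add_central {a b z w : M} (hza : ⁅z, a⁆ = 0) (hzb : ⁅z, b⁆ = 0)
    (hwa : ⁅w, a⁆ = 0) (hwb : ⁅w, b⁆ = 0) (hzw : ⁅z, w⁆ = 0) {n : ℕ} (hn : 2 ≤ n)
    {p : GTLie} (hp : p ∈ weightSubspace (fun _ : Fin 2 => 1) n) :
    gtSubst (a + z) (b + w) p = gtSubst a b p := by
  have key : ∀ (m : ℕ) (q : GTLie), IsBracketMonomial (fun _ : Fin 2 => 1) m q →
      1 ≤ m ∧ (∃ r s : ℚ, gtSubst (a + z) (b + w) q = gtSubst a b q + (r • z + s • w)) ∧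
      (2 ≤ m → gtSubst (a + z) (b + w) q = gtSubst a b q) := by
    intro m q hq
    induction hq with
    | of i =>
      refine ⟨le_refl 1, ?_, fun h => absurd h (by norm_num)⟩
      fin_cases i
      · exact ⟨1, 0, by
          change gtSubst (a + z) (b + w) gx = gtSubst a b gx + _
          simp⟩
      · exact ⟨0, 1, by
          change gtSubst (a + z) (b + w) gy = gtSubst a b gy + _
          simp⟩
    | @lie m n f g hf hg ihf ihg =>
      obtain ⟨hm, ⟨r, s, h1⟩, -⟩ := ihf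
      obtain ⟨hn, ⟨r', s', h2⟩, -⟩ := ihg
      have e : gtSubst (a + z) (b + w) ⁅f, g⁆ = gtSubst a b ⁅f, g⁆ := by
        rw [LieHom.map_lie, h1, h2, LieHom.map_lie]
        have hwz : ⁅w, z⁆ = 0 := by rw [← lie_skew, hzw, neg_zero]
        have c1 : ∀ q : GTLie, ⁅z, gtSubst a b q⁆ = 0 := commute_gtSubst hza hzb
        have c2 : ∀ q : GTLie, ⁅w, gtSubst a b q⁆ = 0 := commute_gtSubst hwa hwb
        have c3 : ∀ q : GTLie, ⁅gtSubst a b q, z⁆ = 0 := fun q => by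
          rw [← lie_skew, c1, neg_zero]
        have c4 : ∀ q : GTLie, ⁅gtSubst a b q, w⁆ = 0 := fun q => by
          rw [← lie_skew, c2, neg_zero]
        simp [c1, c2, c3, c4, hzw, hwz]
      exact ⟨by omega, ⟨0, 0, by rw [e]; simp⟩, fun _ => e⟩
  refine Submodule.span_induction (p := fun q _ => gtSubst (a + z) (b + w) q = gtSubst a b q)
    ?_ ?_ ?_ ?_ hp
  · intro q hq
    exact (key n q hq).2.2 hn
  · simp
  · intro x y _ _ hx hy; rw [map_add, map_add, hx, hy]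
  · intro c x _ hx; rw [map_smul, map_smul, hx]

theorem gtSubst_swap_neg {p : GTLie} (h : antisymDefect p = 0) (a b : M) :
    gtSubst b a p = - gtSubst a b p := by
  have h1 : gtSubst a b (gtSubst gy gx p) = gtSubst b a p := by
    rw [map_gtSubst]; simp
  have h2 : p + gtSubst gy gx p = 0 := h
  have h3 : gtSubst a b (p + gtSubst gy gx p) = 0 := by rw [h2]; simp
  rw [map_add, h1] at h3
  exact eq_neg_of_add_eq_zero_right h3

end general

/-! ### the standard five-configuration of `braidLie4` -/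

theorem tB_comm {i j k l : Fin 4} (h1 : i ≠ j) (h2 : i ≠ k) (h3 : i ≠ l) (h4 : j ≠ k)
    (h5 : j ≠ l) (h6 : k ≠ l) : ⁅tB i j, tB k l⁆ = 0 := by
  have : (⁅tFree i j, tFree k l⁆ : FreeBraid4) ∈ braidIdeal4 :=
    LieSubmodule.subset_lieSpan (Or.inl ⟨i, j, k, l, h1, h2, h3, h4, h5, h6, rfl⟩)
  have h := (LieSubmodule.Quotient.mk_eq_zero' (N := braidIdeal4)).2 this
  exact h

theorem tB_tri {i j k : Fin 4} (h1 : i ≠ j) (h2 : i ≠ k) (h3 : j ≠ k) :
    ⁅tB i j, tB i k + tB j k⁆ = 0 := by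
  have : (⁅tFree i j, tFree i k + tFree j k⁆ : FreeBraid4) ∈ braidIdeal4 :=
    LieSubmodule.subset_lieSpan (Or.inr ⟨i, j, k, h1, h2, h3, rfl⟩)
  exact (LieSubmodule.Quotient.mk_eq_zero' (N := braidIdeal4)).2 this

theorem tB_symm (i j : Fin 4) : tB i j = tB j i := by
  unfold tB tFree
  congr 1
  rcases lt_trichotomy i j with h | h | h
  · rw [dif_pos h, dif_neg (not_lt.2 h.le), dif_pos h]
  · subst h; rfl
  · rw [dif_neg (not_lt.2 h.le), dif_pos h, dif_pos h]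

/-- the standard five-configuration of `braidLie4`. -/
def RB : Fin 5 → braidLie4 :=
  ![-(tB 0 3 + tB 1 3 + tB 2 3), tB 0 1, tB 2 3, -(tB 0 1 + tB 0 2 + tB 0 3), tB 1 2]

theorem tB_tri1 {i j k : Fin 4} (h1 : i ≠ j) (h2 : i ≠ k) (h3 : j ≠ k) :
    ⁅tB i j, tB i k⁆ = - ⁅tB i j, tB j k⁆ := by
  have h := tB_tri h1 h2 h3
  rw [lie_add] at h; exact eq_neg_of_add_eq_zero_left h

theorem tB_tri2 {i j k : Fin 4} (h1 : i ≠ j) (h2 : i ≠ k) (h3 : j ≠ k) :
    ⁅tB i k, tB j k⁆ = - ⁅tB i j, tB j k⁆ := by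
  have h := tB_tri h3 h1.symm h2.symm
  rw [lie_add, tB_symm j i, tB_symm k i] at h
  rw [← lie_skew (tB i k), ← lie_skew (tB i j), neg_neg]
  exact (eq_neg_of_add_eq_zero_left h).symm

/-! normal forms of all brackets of two generators -/
theorem n01_23 : ⁅tB 0 1, tB 2 3⁆ = 0 := tB_comm (by decide) (by decide) (by decide) (by decide) (by decide) (by decide)
theorem n02_13 : ⁅tB 0 2, tB 1 3⁆ = 0 := tB_comm (by decide) (by decide) (by decide) (by decide) (by decide) (by decide)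
theorem n03_12 : ⁅tB 0 3, tB 1 2⁆ = 0 := tB_comm (by decide) (by decide) (by decide) (by decide) (by decide) (by decide)
theorem n01_02 : ⁅tB 0 1, tB 0 2⁆ = -⁅tB 0 1, tB 1 2⁆ := tB_tri1 (by decide) (by decide) (by decide)
theorem n02_12 : ⁅tB 0 2, tB 1 2⁆ = -⁅tB 0 1, tB 1 2⁆ := tB_tri2 (by decide) (by decide) (by decide)
theorem n01_03 : ⁅tB 0 1, tB 0 3⁆ = -⁅tB 0 1, tB 1 3⁆ := tB_tri1 (by decide) (by decide) (by decide)
theorem n03_13 : ⁅tB 0 3, tB 1 3⁆ = -⁅tB 0 1, tB 1 3⁆ := tB_tri2 (by decide) (by decide) (by decide)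
theorem n02_03 : ⁅tB 0 2, tB 0 3⁆ = -⁅tB 0 2, tB 2 3⁆ := tB_tri1 (by decide) (by decide) (by decide)
theorem n03_23 : ⁅tB 0 3, tB 2 3⁆ = -⁅tB 0 2, tB 2 3⁆ := tB_tri2 (by decide) (by decide) (by decide)
theorem n12_13 : ⁅tB 1 2, tB 1 3⁆ = -⁅tB 1 2, tB 2 3⁆ := tB_tri1 (by decide) (by decide) (by decide)
theorem n13_23 : ⁅tB 1 3, tB 2 3⁆ = -⁅tB 1 2, tB 2 3⁆ := tB_tri2 (by decide) (by decide) (by decide)
theorem s02_01 : ⁅tB 0 2, tB 0 1⁆ = -⁅tB 0 1, tB 0 2⁆ := (lie_skew _ _).symm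
theorem s03_01 : ⁅tB 0 3, tB 0 1⁆ = -⁅tB 0 1, tB 0 3⁆ := (lie_skew _ _).symm
theorem s12_01 : ⁅tB 1 2, tB 0 1⁆ = -⁅tB 0 1, tB 1 2⁆ := (lie_skew _ _).symm
theorem s13_01 : ⁅tB 1 3, tB 0 1⁆ = -⁅tB 0 1, tB 1 3⁆ := (lie_skew _ _).symm
theorem s23_01 : ⁅tB 2 3, tB 0 1⁆ = -⁅tB 0 1, tB 2 3⁆ := (lie_skew _ _).symm
theorem s03_02 : ⁅tB 0 3, tB 0 2⁆ = -⁅tB 0 2, tB 0 3⁆ := (lie_skew _ _).symm
theorem s12_02 : ⁅tB 1 2, tB 0 2⁆ = -⁅tB 0 2, tB 1 2⁆ := (lie_skew _ _).symm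
theorem s13_02 : ⁅tB 1 3, tB 0 2⁆ = -⁅tB 0 2, tB 1 3⁆ := (lie_skew _ _).symm
theorem s23_02 : ⁅tB 2 3, tB 0 2⁆ = -⁅tB 0 2, tB 2 3⁆ := (lie_skew _ _).symm
theorem s12_03 : ⁅tB 1 2, tB 0 3⁆ = -⁅tB 0 3, tB 1 2⁆ := (lie_skew _ _).symm
theorem s13_03 : ⁅tB 1 3, tB 0 3⁆ = -⁅tB 0 3, tB 1 3⁆ := (lie_skew _ _).symm
theorem s23_03 : ⁅tB 2 3, tB 0 3⁆ = -⁅tB 0 3, tB 2 3⁆ := (lie_skew _ _).symm
theorem s13_12 : ⁅tB 1 3, tB 1 2⁆ = -⁅tB 1 2, tB 1 3⁆ := (lie_skew _ _).symm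
theorem s23_12 : ⁅tB 2 3, tB 1 2⁆ = -⁅tB 1 2, tB 2 3⁆ := (lie_skew _ _).symm
theorem s23_13 : ⁅tB 2 3, tB 1 3⁆ = -⁅tB 1 3, tB 2 3⁆ := (lie_skew _ _).symm

/-- use as `simp only [lie_add, add_lie, lie_neg, neg_lie, lie_self, braid_nf]`-like set -/
theorem RB0 : RB 0 = -(tB 0 3 + tB 1 3 + tB 2 3) := rfl
theorem RB1 : RB 1 = tB 0 1 := rfl
theorem RB2 : RB 2 = tB 2 3 := rfl
theorem RB3 : RB 3 = -(tB 0 1 + tB 0 2 + tB 0 3) := rfl
theorem RB4 : RB 4 = tB 1 2 := rfl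

theorem conf5_RB : Conf5 RB := by
  constructor
  · intro i
    fin_cases i
    · change ⁅RB 0, RB 1⁆ = 0
      rw [RB0, RB1]
      simp only [lie_add, add_lie, lie_neg, neg_lie, lie_self, n01_23, n02_13, n03_12, n01_02, n02_12, n01_03, n03_13, n02_03, n03_23, n12_13, n13_23, s02_01, s03_01, s12_01, s13_01, s23_01, s03_02, s12_02, s13_02, s23_02, s12_03, s13_03, s23_03, s13_12, s23_12, s23_13]
      abel
    · change ⁅RB 1, RB 2⁆ = 0
      rw [RB1, RB2]; exact n01_23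
    · change ⁅RB 2, RB 3⁆ = 0
      rw [RB2, RB3]
      simp only [lie_add, add_lie, lie_neg, neg_lie, lie_self, n01_23, n02_13, n03_12, n01_02, n02_12, n01_03, n03_13, n02_03, n03_23, n12_13, n13_23, s02_01, s03_01, s12_01, s13_01, s23_01, s03_02, s12_02, s13_02, s23_02, s12_03, s13_03, s23_03, s13_12, s23_12, s23_13]
      abel
    · change ⁅RB 3, RB 4⁆ = 0
      rw [RB3, RB4]
      simp only [lie_add, add_lie, lie_neg, neg_lie, lie_self, n01_23, n02_13, n03_12, n01_02, n02_12, n01_03, n03_13, n02_03, n03_23, n12_13, n13_23, s02_01, s03_01, s12_01, s13_01, s23_01, s03_02, s12_02, s13_02, s23_02, s12_03, s13_03, s23_03, s13_12, s23_12, s23_13]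
      abel
    · change ⁅RB 4, RB 0⁆ = 0
      rw [RB4, RB0]
      simp only [lie_add, add_lie, lie_neg, neg_lie, lie_self, n01_23, n02_13, n03_12, n01_02, n02_12, n01_03, n03_13, n02_03, n03_23, n12_13, n13_23, s02_01, s03_01, s12_01, s13_01, s23_01, s03_02, s12_02, s13_02, s23_02, s12_03, s13_03, s23_03, s13_12, s23_12, s23_13]
      abel
  · rw [Fin.sum_univ_five]
    change ⁅RB 0, RB 2⁆ + ⁅RB 1, RB 3⁆ + ⁅RB 2, RB 4⁆ + ⁅RB 3, RB 0⁆ + ⁅RB 4, RB 1⁆ = 0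
    rw [RB0, RB1, RB2, RB3, RB4]
    simp only [lie_add, add_lie, lie_neg, neg_lie, lie_self, n01_23, n02_13, n03_12, n01_02, n02_12, n01_03, n03_13, n02_03, n03_23, n12_13, n13_23, s02_01, s03_01, s12_01, s13_01, s23_01, s03_02, s12_02, s13_02, s23_02, s12_03, s13_03, s23_03, s13_12, s23_12, s23_13]
    abel

/-- the frozen pentagon defect is the five-term sum over `RB` -/
theorem pentagonDefect_eq {n : ℕ} (hn : 2 ≤ n) {p : GTLie}
    (hp : p ∈ weightSubspace (fun _ : Fin 2 => 1) n) (ha : antisymDefect p = 0) :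
    pentagonDefect p = ∑ i, gtSubst (RB (i - 1)) (RB (i + 1)) p := by
  rw [Fin.sum_univ_five]
  change gtSubst (tB 0 1) (tB 1 2 + tB 1 3) p + gtSubst (tB 0 2 + tB 1 2) (tB 2 3) p -
    gtSubst (tB 1 2) (tB 2 3) p - gtSubst (tB 0 1 + tB 0 2) (tB 1 3 + tB 2 3) p -
    gtSubst (tB 0 1) (tB 1 2) p = gtSubst (RB 4) (RB 1) p + gtSubst (RB 0) (RB 2) p +
    gtSubst (RB 1) (RB 3) p + gtSubst (RB 2) (RB 4) p + gtSubst (RB 3) (RB 0) p
  have h1 : gtSubst (tB 0 1) (tB 1 2 + tB 1 3) p = gtSubst (RB 1) (RB 3) p := by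
    have e1 : tB 0 1 = RB 1 + 0 := by rw [RB1, add_zero]
    have e2 : tB 1 2 + tB 1 3 = RB 3 + (tB 0 1 + tB 0 2 + tB 0 3 + tB 1 2 + tB 1 3) := by
      rw [RB3]; abel
    rw [e2]
    conv_lhs => rw [e1]
    apply gtSubst_add_central (hn := hn) (hp := hp) <;>
    simp only [RB1, RB3, zero_lie, lie_zero, lie_add, add_lie, lie_neg, neg_lie, lie_self, n01_23, n02_13, n03_12, n01_02, n02_12, n01_03, n03_13, n02_03, n03_23, n12_13, n13_23, s02_01, s03_01, s12_01, s13_01, s23_01, s03_02, s12_02, s13_02, s23_02, s12_03, s13_03, s23_03, s13_12, s23_12, s23_13] <;> abel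
  have h2 : gtSubst (tB 0 2 + tB 1 2) (tB 2 3) p = gtSubst (RB 0) (RB 2) p := by
    have e1 : tB 2 3 = RB 2 + 0 := by rw [RB2, add_zero]
    have e2 : tB 0 2 + tB 1 2 = RB 0 + (tB 0 2 + tB 0 3 + tB 1 2 + tB 1 3 + tB 2 3) := by
      rw [RB0]; abel
    rw [e2]
    conv_lhs => rw [e1]
    apply gtSubst_add_central (hn := hn) (hp := hp) <;>
    simp only [RB0, RB2, zero_lie, lie_zero, lie_add, add_lie, lie_neg, neg_lie, lie_self, n01_23, n02_13, n03_12, n01_02, n02_12, n01_03, n03_13, n02_03, n03_23, n12_13, n13_23, s02_01, s03_01, s12_01, s13_01, s23_01, s03_02, s12_02, s13_02, s23_02, s12_03, s13_03, s23_03, s13_12, s23_12, s23_13] <;> abel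
  have h3 : gtSubst (tB 0 1 + tB 0 2) (tB 1 3 + tB 2 3) p = gtSubst (RB 0) (RB 3) p := by
    have e1 : tB 0 1 + tB 0 2 = RB 0 + (tB 0 1 + tB 0 2 + tB 0 3 + tB 1 3 + tB 2 3) := by
      rw [RB0]; abel
    have e2 : tB 1 3 + tB 2 3 = RB 3 + (tB 0 1 + tB 0 2 + tB 0 3 + tB 1 3 + tB 2 3) := by
      rw [RB3]; abel
    rw [e1, e2]
    apply gtSubst_add_central (hn := hn) (hp := hp) <;>
    simp only [RB0, RB3, zero_lie, lie_zero, lie_add, add_lie, lie_neg, neg_lie, lie_self, n01_23, n02_13, n03_12, n01_02, n02_12, n01_03, n03_13, n02_03, n03_23, n12_13, n13_23, s02_01, s03_01, s12_01, s13_01, s23_01, s03_02, s12_02, s13_02, s23_02, s12_03, s13_03, s23_03, s13_12, s23_12, s23_13] <;> abel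
  have h4 : gtSubst (tB 1 2) (tB 2 3) p = - gtSubst (RB 2) (RB 4) p := by
    rw [RB2, RB4]; exact gtSubst_swap_neg ha _ _
  have h5 : gtSubst (tB 0 1) (tB 1 2) p = - gtSubst (RB 4) (RB 1) p := by
    rw [RB1, RB4]; exact gtSubst_swap_neg ha _ _
  have h6 : gtSubst (RB 0) (RB 3) p = - gtSubst (RB 3) (RB 0) p := gtSubst_swap_neg ha _ _
  rw [h1, h2, h3, h4, h5, h6]
  abel

end Crest.Agent.R010

end
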