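import Crest.Agent.R010.EE1
import Crest.Agent.R010.EDefs
import Crest.Agent.R010.ES3

-- ▼ part R010/EEfin
section

/-!
Row 10: `EE_of : EA → ED → EE1 → EE` (helper450).
-/

set_option autoImplicit false
set_option linter.unusedSimpArgs false
set_option linter.unusedVariables false

noncomputable section

namespace Crest.Agent.R010

attribute [local instance 100] LieRing.ofAssociativeRing

namespace EEfin

open Crest.NumberTheoryR.GT

/-- `P(-x,-y)` -/
def neg (P : FreeAlgebra ℝ (Fin 2)) : FreeAlgebra ℝ (Fin 2) :=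
  ev (-FreeAlgebra.ι ℝ 0) (-FreeAlgebra.ι ℝ 1) P

theorem ev_neg {B : Type} [Ring B] [Algebra ℝ B] (a b : B) (P : FreeAlgebra ℝ (Fin 2)) :
    ev a b (neg P) = ev (-a) (-b) P := by
  have h : (ev a b).comp (ev (-FreeAlgebra.ι ℝ 0) (-FreeAlgebra.ι ℝ 1)) =
      (ev (-a) (-b) : FreeAlgebra ℝ (Fin 2) →ₐ[ℝ] B) := by
    apply FreeAlgebra.hom_ext
    funext i
    fin_cases i <;> simp [ev]
  exact congrArg (fun f : FreeAlgebra ℝ (Fin 2) →ₐ[ℝ] B => f P) h

theorem cf_neg (w : List (Fin 2)) (P : FreeAlgebra ℝ (Fin 2)) :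
    cf w (neg P) = (-1) ^ w.length * cf w P := by
  classical
  induction P using fa_induction with
  | hadd f g hf hg =>
    have : neg (f + g) = neg f + neg g := by simp [neg]
    rw [this, map_add, map_add, hf, hg]; ring
  | hwd r v =>
    have h1 : neg (r • wd ℝ v) = (r * (-1) ^ v.length) • wd ℝ v := by
      have h2 : ∀ v : List (Fin 2), neg (wd ℝ v) = ((-1 : ℝ) ^ v.length) • wd ℝ v := by
        intro v
        induction v with
        | nil => simp [neg]
        | cons i v ih =>
          rw [wd_cons]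
          have : neg (FreeAlgebra.ι ℝ i * wd ℝ v) = neg (FreeAlgebra.ι ℝ i) * neg (wd ℝ v) := by
            simp [neg]
          rw [this, ih]
          have h3 : neg (FreeAlgebra.ι ℝ i) = -FreeAlgebra.ι ℝ i := by
            fin_cases i <;> simp [neg, ev]
          rw [h3, List.length_cons, pow_succ]
          simp [mul_smul]
      have : neg (r • wd ℝ v) = r • neg (wd ℝ v) := by simp [neg]
      rw [this, h2, smul_smul]
    rw [h1, map_smul, map_smul, cf_wd, smul_eq_mul, smul_eq_mul]
    by_cases hv : v = w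
    · subst hv; rw [if_pos rfl]; ring
    · rw [if_neg hv]; ring

theorem prod_map_neg {ι B : Type} [Ring B] (x : ι → B) (l : List ι) :
    (l.map (fun i => -x i)).prod = (-1) ^ l.length * (l.map x).prod := by
  induction l with
  | nil => simp
  | cons i l ih =>
    rw [List.map_cons, List.prod_cons, ih, List.map_cons, List.prod_cons, List.length_cons,
      pow_succ']
    rcases neg_one_pow_eq_or B l.length with h | h <;> rw [h] <;> noncomm_ring

theorem nilp_neg {N : ℕ} {ι B : Type} [Ring B] {x : ι → B} (h : Nilp N x) :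
    Nilp N (fun i => -x i) := by
  intro l hl
  rw [prod_map_neg, h l hl, mul_zero]

theorem isAssoc_neg {N : ℕ} {P : FreeAlgebra ℝ (Fin 2)} (hP : IsAssoc N P) :
    IsAssoc N (neg P) := by
  refine ⟨?_, ?_, ?_, ?_⟩
  · intro B _ _ R hR hN
    simp only [ev_neg]
    have hR' : Conf5 (fun i => -R i) := by
      constructor
      · intro i
        have := hR.1 i
        simpa using this
      · have := hR.2
        simpa using this
    exact hP.pent B (fun i => -R i) hR' (nilp_neg hN)
  · intro B _ _ a b a' b' hN h1 h2 h3 h4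
    simp only [ev_neg]
    rw [neg_add, neg_add]
    have hN' : Nilp N ![-a, -b, -a', -b'] := by
      have := nilp_neg hN
      have e : (fun i => -(![a, b, a', b'] : Fin 4 → B) i) = ![-a, -b, -a', -b'] := by
        funext i; fin_cases i <;> rfl
      rwa [e] at this
    exact hP.mult B (-a) (-b) (-a') (-b') hN' (h1.neg_left.neg_right) (h2.neg_left.neg_right)
      (h3.neg_left.neg_right) (h4.neg_left.neg_right)
  · intro B _ _ a hN
    rw [ev_neg, neg_zero]
    apply hP.left
    have := nilp_neg hN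
    have e : (fun i => -(![a] : Fin 1 → B) i) = ![-a] := by
      funext i; fin_cases i; rfl
    rwa [e] at this
  · intro B _ _ b hN
    rw [ev_neg, neg_zero]
    apply hP.right
    have := nilp_neg hN
    have e : (fun i => -(![b] : Fin 1 → B) i) = ![-b] := by
      funext i; fin_cases i; rfl
    rwa [e] at this

theorem wdsN_one : wdsN 1 = {[0], [1]} := by
  ext w
  rw [mem_wdsN, List.length_eq_one_iff]
  constructor
  · rintro ⟨i, rfl⟩
    fin_cases i <;> simp
  · intro h
    simp only [Finset.mem_insert, Finset.mem_singleton] at h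
    rcases h with rfl | rfl
    · exact ⟨0, rfl⟩
    · exact ⟨1, rfl⟩

theorem cf_len_one {N : ℕ} (hN : 1 ≤ N) {P : FreeAlgebra ℝ (Fin 2)} (hP : IsAssoc N P)
    (w : List (Fin 2)) (hw : w.length = 1) : cf w P = 0 := by
  have h0 := EE.assoc_left (W := ℝ) hP 1 1 hN
  have h1 := EE.assoc_right (W := ℝ) hP 1 1 hN
  rw [EE.coeff_pser, wdsN_one, Finset.sum_pair (by decide), PowerSeries.coeff_one,
    if_neg one_ne_zero] at h0 h1
  simp [wv] at h0 h1
  obtain ⟨i, rfl⟩ := List.length_eq_one_iff.1 hw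
  fin_cases i
  · exact h0
  · exact h1

theorem dep1_length {n : ℕ} (hn : 1 ≤ n) : (dep1 n).length = n := by
  simp [dep1]; omega

end EEfin

open EEfin Crest.NumberTheoryR.GT in
/-- **(EE)** from (EA), (ED), (EE1). -/
theorem EE_of (hEA : EA) (hED : ED) (hEE1 : EE1) : EE := by
  intro k
  set N := 2 * k + 3 with hNdef
  obtain ⟨P, hP, hPc⟩ := hEA N
  have hQ : IsAssoc N (neg P) := isAssoc_neg hP
  have hagree : ∀ w : List (Fin 2), w.length < 3 → cf w P = cf w (neg P) := by
    intro w hw
    rw [cf_neg]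
    rcases Nat.lt_or_ge w.length 1 with h | h
    · have : w.length = 0 := by omega
      rw [this]; simp
    · rcases Nat.lt_or_ge w.length 2 with h2 | h2
      · have : w.length = 1 := by omega
        rw [cf_len_one (by omega) hP w this, mul_zero]
      · have : w.length = 2 := by omega
        rw [this]; simp
  have main : ∀ n, 3 ≤ n → n ≤ N → ∃ P' : FreeAlgebra ℝ (Fin 2), IsAssoc N P' ∧
      (∀ w : List (Fin 2), w.length < n → cf w P' = cf w (neg P)) ∧
      ∀ m, n ≤ m → m ≤ N → cf (dep1 m) P' = cf (dep1 m) P := by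
    intro n hn
    induction n, hn using Nat.le_induction with
    | base => intro _; exact ⟨P, hP, hagree, fun _ _ _ => rfl⟩
    | succ n hn ih =>
      intro hnN
      obtain ⟨P₁, hP₁, ha, hd⟩ := ih (by omega)
      obtain ⟨ψ, hψ, hψc⟩ := hEE1 N n P₁ (neg P) hn (by omega) hP₁ hQ ha
      obtain ⟨P₂, hP₂, h1, h2, h3⟩ := hED N n P₁ ψ hn (by omega) hP₁ hψ
      refine ⟨P₂, hP₂, ?_, ?_⟩
      · intro w hw
        rcases Nat.lt_or_ge w.length n with h | h
        · rw [h1 w h, ha w h]
        · have hwn : w.length = n := by omega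
          rw [h2 w hwn, hψc w hwn]; ring
      · intro m hm hmN
        rw [h3 m (by omega) hmN, hd m (by omega) hmN]
  obtain ⟨P', hP', ha, hd⟩ := main N (by omega) le_rfl
  obtain ⟨ψ, hψ, hψc⟩ := hEE1 N N P' (neg P) (by omega) le_rfl hP' hQ ha
  have hlen : (dep1 N).length = N := dep1_length (by omega)
  have hne : cf (dep1 N) ψ ≠ 0 := by
    rw [hψc _ hlen, hd N le_rfl le_rfl, cf_neg, hlen]
    have hodd : Odd N := ⟨k + 1, by omega⟩
    rw [hodd.neg_one_pow]
    have := hPc N (by omega) le_rfl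
    intro h
    apply this
    linarith
  by_contra hcon
  push Not at hcon
  apply hne
  refine Submodule.span_induction (p := fun ψ _ => cf (dep1 N) ψ = 0) ?_ ?_ ?_ ?_ hψ
  · rintro _ ⟨p, hp, rfl⟩
    change cf (dep1 N) (toReal (iota p)) = 0
    rw [EE.cf_toReal, hcon p hp, Rat.cast_zero]
  · exact map_zero _
  · intro x y _ _ hx hy; rw [map_add, hx, hy, add_zero]
  · intro c x _ hx; rw [map_smul, hx, smul_zero]

end Crest.Agent.R010

end
end

-- ▼ part R010/ED1
section

/-! Row 10, module E-D, part 1 (helper249): truncated exponentials of operators on a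
noncommutative algebra. -/

set_option autoImplicit false
set_option linter.unusedSectionVars false
open Finset

namespace Crest.Agent.R010.EDx

variable {K : Type*} [Field K] [CharZero K]
variable {E : Type*} [Ring E] [Algebra K E]
variable {E' : Type*} [Ring E'] [Algebra K E']

/-- Leibniz rule for divided powers -/
theorem divpow_mul (T T₁ T₂ : E →ₗ[K] E)
    (h : ∀ x y, T (x * y) = T₁ x * y + x * T₂ y) (j : ℕ) (x y : E) :
    ((j.factorial : K)⁻¹ • T ^ j) (x * y) =
      ∑ p ∈ antidiagonal j, ((p.1.factorial : K)⁻¹ • T₁ ^ p.1) x * ((p.2.factorial : K)⁻¹ • T₂ ^ p.2) y := by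
  have hp : ∀ (j : ℕ) (x y : E), (T ^ j) (x * y) =
      ∑ p ∈ antidiagonal j, (j.choose p.1 : K) • ((T₁ ^ p.1) x * (T₂ ^ p.2) y) := by
    intro j
    induction j with
    | zero => intro x y; simp
    | succ j ih =>
      intro x y
      rw [pow_succ, Module.End.mul_apply, h, map_add, ih, ih]
      have e1 : ∀ p ∈ antidiagonal j, (j.choose p.1 : K) • ((T₁ ^ p.1) (T₁ x) * (T₂ ^ p.2) y) =
          (j.choose p.1 : K) • ((T₁ ^ (p.1 + 1)) x * (T₂ ^ p.2) y) := by
        intro p _; rw [pow_succ (n := p.1), Module.End.mul_apply]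
      have e2 : ∀ p ∈ antidiagonal j, (j.choose p.1 : K) • ((T₁ ^ p.1) x * (T₂ ^ p.2) (T₂ y)) =
          (j.choose p.1 : K) • ((T₁ ^ p.1) x * (T₂ ^ (p.2 + 1)) y) := by
        intro p _; rw [pow_succ (n := p.2), Module.End.mul_apply]
      rw [Finset.sum_congr rfl e1, Finset.sum_congr rfl e2]
      have key := Finset.sum_antidiagonal_choose_succ_nsmul
        (fun a b => ((T₁ ^ a) x * (T₂ ^ b) y)) j
      simp only [← Nat.cast_smul_eq_nsmul K] at key
      rw [key, add_comm]
      congr 1
      apply Finset.sum_congr rfl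
      intro p hp
      have : j.choose p.1 = j.choose p.2 := by
        have := HasAntidiagonal.mem_antidiagonal.mp hp
        subst this
        rw [Nat.choose_symm_add]
      rw [this]
  rw [LinearMap.smul_apply, hp, Finset.smul_sum]
  apply Finset.sum_congr rfl
  intro p hpm
  have hpj := HasAntidiagonal.mem_antidiagonal.mp hpm
  simp only [LinearMap.smul_apply, smul_mul_smul_comm]
  rw [smul_smul]
  congr 1
  subst hpj
  have h1 : ((p.1 + p.2).choose p.1 : K) * (p.1.factorial : K) * (p.2.factorial : K) =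
      ((p.1 + p.2).factorial : K) := by
    rw [Nat.choose_symm_add]
    exact_mod_cast Nat.add_choose_mul_factorial_mul_factorial p.1 p.2
  have h2 : ((p.1 + p.2).factorial : K) ≠ 0 := by exact_mod_cast Nat.factorial_ne_zero _
  have h3 : (p.1.factorial : K) ≠ 0 := by exact_mod_cast Nat.factorial_ne_zero _
  have h4 : (p.2.factorial : K) ≠ 0 := by exact_mod_cast Nat.factorial_ne_zero _
  field_simp
  linear_combination h1

/-- truncated exponential of an operator -/
noncomputable def expN (T : E →ₗ[K] E) (J : ℕ) (x : E) : E :=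
  ∑ j ∈ range (J + 1), ((j.factorial : K)⁻¹ • T ^ j) x

theorem expN_mul (T T₁ T₂ : E →ₗ[K] E)
    (h : ∀ x y, T (x * y) = T₁ x * y + x * T₂ y) (N : ℕ) (h₁ : T₁ ^ (N + 1) = 0)
    (h₂ : T₂ ^ (N + 1) = 0) (x y : E) :
    expN T (2 * N) (x * y) = expN T₁ (2 * N) x * expN T₂ (2 * N) y := by
  unfold expN
  rw [Finset.sum_mul_sum, ← Finset.sum_product']
  simp only [divpow_mul T T₁ T₂ h]
  rw [← Finset.sum_filter_add_sum_filter_not (range (2 * N + 1) ×ˢ range (2 * N + 1))
    (fun p => p.1 + p.2 ≤ 2 * N)]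
  have hz : ∑ p ∈ (range (2 * N + 1) ×ˢ range (2 * N + 1)).filter (fun p => ¬ p.1 + p.2 ≤ 2 * N),
      ((p.1.factorial : K)⁻¹ • T₁ ^ p.1) x * ((p.2.factorial : K)⁻¹ • T₂ ^ p.2) y = 0 := by
    apply Finset.sum_eq_zero
    intro p hp
    have hp2 := (Finset.mem_filter.mp hp).2
    rcases Nat.lt_or_ge N p.1 with h3 | h3
    · have : T₁ ^ p.1 = 0 := pow_eq_zero_of_le (by omega) h₁
      simp [this]
    · have : T₂ ^ p.2 = 0 := pow_eq_zero_of_le (by omega) h₂
      simp [this]
  rw [hz, add_zero]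
  rw [← Finset.sum_fiberwise_of_maps_to (s := (range (2 * N + 1) ×ˢ range (2 * N + 1)).filter
    (fun p => p.1 + p.2 ≤ 2 * N)) (t := range (2 * N + 1)) (g := fun p => p.1 + p.2)]
  · apply Finset.sum_congr rfl
    intro j hj
    have hj2 := Finset.mem_range.mp hj
    apply Finset.sum_congr _ (fun _ _ => rfl)
    ext p
    simp only [HasAntidiagonal.mem_antidiagonal, Finset.mem_filter, Finset.mem_product,
      Finset.mem_range]
    omega
  · intro p hp
    have hp2 := (Finset.mem_filter.mp hp).2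
    exact Finset.mem_range.mpr (by omega)

theorem expN_transfer (d : E →ₗ[K] E') (T : E →ₗ[K] E) (T' : E' →ₗ[K] E')
    (h : ∀ x, d (T x) = T' (d x)) (J : ℕ) (x : E) :
    d (expN T J x) = expN T' J (d x) := by
  have hp : ∀ (j : ℕ) (x : E), d ((T ^ j) x) = (T' ^ j) (d x) := by
    intro j
    induction j with
    | zero => intro x; simp
    | succ j ih => intro x; rw [pow_succ', pow_succ', Module.End.mul_apply, Module.End.mul_apply, h, ih]
  unfold expN
  rw [map_sum]
  apply Finset.sum_congr rfl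
  intro j _
  rw [LinearMap.smul_apply, LinearMap.smul_apply, map_smul, hp]

theorem expN_of_ker (T : E →ₗ[K] E) (J : ℕ) (x : E) (hx : T x = 0) : expN T J x = x := by
  unfold expN
  rw [Finset.sum_range_succ']
  have : ∀ j ∈ range J, (((j + 1).factorial : K)⁻¹ • T ^ (j + 1)) x = 0 := by
    intro j _
    rw [LinearMap.smul_apply, pow_succ, Module.End.mul_apply, hx, map_zero, smul_zero]
  rw [Finset.sum_eq_zero this]
  simp

/-- if a linear functional satisfies `ℓ (T x) = c * ε x` with `ε (T x) = 0` then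
`ℓ (exp T x) = ℓ x + c * ε x` -/
theorem expN_functional (T : E →ₗ[K] E) (J : ℕ) (hJ : 1 ≤ J) (ℓ ε : E →ₗ[K] K) (c : K)
    (h1 : ∀ x, ℓ (T x) = c * ε x) (h2 : ∀ x, ε (T x) = 0) (x : E) :
    ℓ (expN T J x) = ℓ x + c * ε x := by
  obtain ⟨J, rfl⟩ : ∃ J', J = J' + 1 := ⟨J - 1, by omega⟩
  unfold expN
  rw [Finset.sum_range_succ', Finset.sum_range_succ']
  simp only [map_add, map_sum]
  have : ∀ j ∈ range J, ℓ ((((j + 1 + 1).factorial : K)⁻¹ • T ^ (j + 1 + 1)) x) = 0 := by
    intro j _
    rw [LinearMap.smul_apply, pow_succ', Module.End.mul_apply, map_smul, h1, pow_succ',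
      Module.End.mul_apply, h2, mul_zero, smul_zero]
  rw [Finset.sum_eq_zero this]
  simp [h1, add_comm]

end Crest.Agent.R010.EDx
end

-- ▼ part R010/ED2
section

/-! Row 10, module E-D, part 2 (helper249): words and their coefficients in free algebras. -/

set_option autoImplicit false
set_option linter.unusedSectionVars false
open Finset

namespace Crest.Agent.R010.EDx

section words

variable {K : Type*} [CommRing K] {X : Type*}

/-- the word `l` as an element of the free algebra -/
noncomputable def wd (K : Type*) [CommRing K] {X : Type*} (l : List X) : FreeAlgebra K X :=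
  (l.map (FreeAlgebra.ι K)).prod

@[simp] theorem wd_nil : wd K ([] : List X) = 1 := by simp [wd]
theorem wd_cons (a : X) (l : List X) : wd K (a :: l) = FreeAlgebra.ι K a * wd K l := by simp [wd]
theorem wd_append (l l' : List X) : wd K (l ++ l') = wd K l * wd K l' := by simp [wd]
theorem wd_singleton (a : X) : wd K [a] = FreeAlgebra.ι K a := by simp [wd]

theorem equiv_wd (l : List X) : FreeAlgebra.equivMonoidAlgebraFreeMonoid (wd K l) =
    MonoidAlgebra.single (FreeMonoid.ofList l) (1 : K) := by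
  induction l with
  | nil => simp [MonoidAlgebra.one_def]
  | cons a l ih =>
    rw [wd_cons, map_mul, ih]
    have : FreeAlgebra.equivMonoidAlgebraFreeMonoid (FreeAlgebra.ι K a) =
        MonoidAlgebra.single (FreeMonoid.of a) (1 : K) := by
      simp [FreeAlgebra.equivMonoidAlgebraFreeMonoid, MonoidAlgebra.of]
    rw [this, MonoidAlgebra.single_mul_single, one_mul]
    rfl

theorem cf_wd [DecidableEq X] (w l : List X) : cf w (wd K l) = if l = w then 1 else 0 := by
  have : cf w (wd K l) = (FreeAlgebra.equivMonoidAlgebraFreeMonoid (wd K l)).coeff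
    (FreeMonoid.ofList w) := rfl
  rw [this, equiv_wd, MonoidAlgebra.coeff_single]
  classical
  rw [Finsupp.single_apply]
  by_cases h : l = w
  · rw [if_pos (by rw [h]), if_pos h]
  · rw [if_neg (fun h' => h (FreeMonoid.ofList.injective h')), if_neg h]

theorem span_wd : Submodule.span K (Set.range (wd K : List X → FreeAlgebra K X)) = ⊤ := by
  rw [eq_top_iff]
  intro x _
  induction x using FreeAlgebra.induction with
  | grade0 r =>
    rw [Algebra.algebraMap_eq_smul_one]
    exact Submodule.smul_mem _ _ (Submodule.subset_span ⟨[], wd_nil⟩)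
  | grade1 a => exact Submodule.subset_span ⟨[a], wd_singleton a⟩
  | mul a b ha hb =>
    have h : a * b ∈ Submodule.span K (Set.range (wd K : List X → FreeAlgebra K X)) *
        Submodule.span K (Set.range (wd K : List X → FreeAlgebra K X)) :=
      Submodule.mul_mem_mul (ha trivial) (hb trivial)
    rw [Submodule.span_mul_span] at h
    refine Submodule.span_mono ?_ h
    rintro _ ⟨_, ⟨l, rfl⟩, _, ⟨l', rfl⟩, rfl⟩
    exact ⟨l ++ l', wd_append l l'⟩
  | add a b ha hb => exact Submodule.add_mem _ (ha trivial) (hb trivial)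

theorem wd_induction {P : FreeAlgebra K X → Prop} (h0 : P 0) (ha : ∀ x y, P x → P y → P (x + y))
    (hs : ∀ (r : K) x, P x → P (r • x)) (hw : ∀ l, P (wd K l)) (x : FreeAlgebra K X) : P x := by
  have hx : x ∈ Submodule.span K (Set.range (wd K : List X → FreeAlgebra K X)) := by
    rw [span_wd]; trivial
  induction hx using Submodule.span_induction with
  | mem x h => obtain ⟨l, rfl⟩ := h; exact hw l
  | zero => exact h0
  | add x y _ _ hx hy => exact ha x y hx hy
  | smul r x _ hx => exact hs r x hx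

/-- two linear maps that agree on words are equal -/
theorem wd_ext {M : Type*} [AddCommMonoid M] [Module K M] (f g : FreeAlgebra K X →ₗ[K] M)
    (h : ∀ l, f (wd K l) = g (wd K l)) (x : FreeAlgebra K X) : f x = g x := by
  induction x using wd_induction with
  | h0 => simp
  | ha x y hx hy => rw [map_add, map_add, hx, hy]
  | hs r x hx => rw [map_smul, map_smul, hx]
  | hw l => exact h l

/-- deconcatenation -/
theorem cf_mul (w : List X) (x y : FreeAlgebra K X) :
    cf w (x * y) = ∑ i ∈ range (w.length + 1), cf (w.take i) x * cf (w.drop i) y := by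
  classical
  induction x using wd_induction with
  | h0 => simp
  | ha x x' hx hx' => simp only [add_mul, map_add, hx, hx', Finset.sum_add_distrib]
  | hs r x hx => simp only [smul_mul_assoc, map_smul, hx, smul_eq_mul, Finset.mul_sum, mul_assoc]
  | hw l =>
    induction y using wd_induction with
    | h0 => simp
    | ha y y' hy hy' => simp only [mul_add, map_add, hy, hy', Finset.sum_add_distrib]
    | hs r y hy =>
      simp only [mul_smul_comm, map_smul, hy, smul_eq_mul, Finset.mul_sum]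
      apply Finset.sum_congr rfl
      intro i _; ring
    | hw l' =>
      rw [← wd_append]
      simp only [cf_wd]
      by_cases h : l ++ l' = w
      · subst h
        rw [if_pos rfl, Finset.sum_eq_single l.length]
        · simp
        · intro i hi hne
          have : l ≠ (l ++ l').take i := by
            intro h
            have := congrArg List.length h
            rw [List.length_take, List.length_append] at this
            have hi2 := Finset.mem_range.mp hi
            rw [List.length_append] at hi2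
            omega
          rw [if_neg this, zero_mul]
        · intro h
          exact absurd (Finset.mem_range.mpr (by rw [List.length_append]; omega)) h
      · rw [if_neg h]
        symm
        apply Finset.sum_eq_zero
        intro i _
        by_cases h1 : l = w.take i
        · have h2 : l' ≠ w.drop i := by
            intro h2
            apply h
            rw [h1, h2, List.take_append_drop]
          rw [if_neg h2, mul_zero]
        · rw [if_neg h1, zero_mul]



theorem cf_ι [DecidableEq X] (w : List X) (a : X) :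
    cf w (FreeAlgebra.ι K a) = if [a] = w then 1 else 0 := by
  rw [← wd_singleton, cf_wd]

theorem homog_mul {m n : ℕ} {x y : FreeAlgebra K X} (hx : Homog m x) (hy : Homog n y) :
    Homog (m + n) (x * y) := by
  intro w hw
  rw [cf_mul]
  apply Finset.sum_eq_zero
  intro i hi
  by_cases h : (w.take i).length = m
  · have h2 : (w.drop i).length ≠ n := by
      intro h2
      apply hw
      rw [← List.take_append_drop i w, List.length_append, h, h2]
    rw [hy _ h2, mul_zero]
  · rw [hx _ h, zero_mul]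

theorem homog_sub {m : ℕ} {x y : FreeAlgebra K X} (hx : Homog m x) (hy : Homog m y) :
    Homog m (x - y) := by
  intro w hw
  rw [map_sub, hx w hw, hy w hw, sub_zero]

theorem homog_add {m : ℕ} {x y : FreeAlgebra K X} (hx : Homog m x) (hy : Homog m y) :
    Homog m (x + y) := by
  intro w hw
  rw [map_add, hx w hw, hy w hw, add_zero]

theorem homog_smul {m : ℕ} {x : FreeAlgebra K X} (r : K) (hx : Homog m x) :
    Homog m (r • x) := by
  intro w hw
  rw [map_smul, hx w hw, smul_zero]

theorem homog_zero {m : ℕ} : Homog m (0 : FreeAlgebra K X) := by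
  intro w hw
  rw [map_zero]

theorem homog_ι (a : X) : Homog 1 (FreeAlgebra.ι K a) := by
  classical
  intro w hw
  rw [cf_ι, if_neg]
  rintro rfl
  simp at hw

end words

end Crest.Agent.R010.EDx
end

-- ▼ part R010/ED3
section

/-! Row 10, module E-D, part 3 (helper249): derivations of free algebras along homomorphisms,
the operators `sig δ v w = δ - L_v + R_w`, and the operator `s_ψ = D_ψ + L_ψ`. -/

set_option autoImplicit false
set_option linter.unusedSectionVars false
open Finset

namespace Crest.Agent.R010.EDx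

variable {K : Type*} [Field K] [CharZero K]
variable {E : Type*} [Ring E] [Algebra K E]
variable {E' : Type*} [Ring E'] [Algebra K E']
variable {ι : Type*}

/-- the algebra homomorphism into the dual numbers defining a derivation -/
noncomputable def derF (X X' : ι → E) : FreeAlgebra K ι →ₐ[K] TrivSqZeroExt E E :=
  FreeAlgebra.lift K (fun i => TrivSqZeroExt.inl (X i) + TrivSqZeroExt.inr (X' i))

theorem derF_fst (X X' : ι → E) (x : FreeAlgebra K ι) :
    (derF (K := K) X X' x).fst = FreeAlgebra.lift K X x := by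
  have : (TrivSqZeroExt.fstHom K E E).comp (derF (K := K) X X') = FreeAlgebra.lift K X := by
    ext i
    simp [derF]
  exact DFunLike.congr_fun this x

/-- the derivation along `lift X` with `ι i ↦ X' i` -/
noncomputable def derL (X X' : ι → E) : FreeAlgebra K ι →ₗ[K] E :=
  (TrivSqZeroExt.sndHom E E).restrictScalars K ∘ₗ (derF (K := K) X X').toLinearMap

theorem derF_snd (X X' : ι → E) (x : FreeAlgebra K ι) :
    (derF (K := K) X X' x).snd = derL X X' x := rfl

theorem derL_mul (X X' : ι → E) (x y : FreeAlgebra K ι) :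
    derL X X' (x * y) = FreeAlgebra.lift K X x * derL X X' y + derL X X' x * FreeAlgebra.lift K X y := by
  simp [derL, TrivSqZeroExt.snd_mul, derF_fst]

theorem derL_ι (X X' : ι → E) (i : ι) : derL (K := K) X X' (FreeAlgebra.ι K i) = X' i := by
  simp [derL, derF]

theorem derL_one (X X' : ι → E) : derL (K := K) X X' 1 = 0 := by
  simp [derL, derF]

/-- two derivations along the same homomorphism agreeing on generators are equal -/
theorem der_ext (d : FreeAlgebra K ι →ₐ[K] E) (D D' : FreeAlgebra K ι →ₗ[K] E)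
    (h : ∀ x y, D (x * y) = d x * D y + D x * d y)
    (h' : ∀ x y, D' (x * y) = d x * D' y + D' x * d y)
    (hg : ∀ i, D (FreeAlgebra.ι K i) = D' (FreeAlgebra.ι K i)) (x : FreeAlgebra K ι) :
    D x = D' x := by
  have h1 : D 1 = 0 := by
    have := h 1 1
    rw [mul_one, map_one d, one_mul, mul_one] at this
    simpa using this
  have h1' : D' 1 = 0 := by
    have := h' 1 1
    rw [mul_one, map_one d, one_mul, mul_one] at this
    simpa using this
  induction x using FreeAlgebra.induction with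
  | grade0 r =>
    rw [Algebra.algebraMap_eq_smul_one, map_smul, map_smul, h1, h1']
  | grade1 i => exact hg i
  | mul a b ha hb => rw [h, h', ha, hb]
  | add a b ha hb => rw [map_add, map_add, ha, hb]

/-- derivations of an algebra -/
def IsDer (δ : E →ₗ[K] E) : Prop := ∀ x y, δ (x * y) = δ x * y + x * δ y

theorem IsDer.one {δ : E →ₗ[K] E} (h : IsDer δ) : δ 1 = 0 := by
  have := h 1 1
  rw [mul_one, one_mul, mul_one] at this
  simpa using this

/-- `σ_{v,w} = δ - L_v + R_w` -/
noncomputable def sig (δ : E →ₗ[K] E) (v w : E) : E →ₗ[K] E :=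
  δ - LinearMap.mulLeft K v + LinearMap.mulRight K w

theorem sig_apply (δ : E →ₗ[K] E) (v w x : E) : sig δ v w x = δ x - v * x + x * w := by
  simp [sig]

theorem sig_mul {δ : E →ₗ[K] E} (h : IsDer δ) (v z w x y : E) :
    sig δ v w (x * y) = sig δ v z x * y + x * sig δ z w y := by
  simp only [sig_apply, h x y]
  noncomm_ring

theorem sig_one {δ : E →ₗ[K] E} (h : IsDer δ) (v : E) : sig δ v v 1 = 0 := by
  rw [sig_apply, h.one]; noncomm_ring

theorem expN_sig_mul {δ : E →ₗ[K] E} (h : IsDer δ) (N : ℕ) (v z w : E)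
    (h₁ : (sig δ v z) ^ (N + 1) = 0) (h₂ : (sig δ z w) ^ (N + 1) = 0) (x y : E) :
    expN (sig δ v w) (2 * N) (x * y) =
      expN (sig δ v z) (2 * N) x * expN (sig δ z w) (2 * N) y :=
  expN_mul _ _ _ (sig_mul h v z w) N h₁ h₂ x y

/-! ### The free algebra on two letters -/

@[simp] theorem ev_ι_zero (X Y : E) : ev (K := K) X Y (FreeAlgebra.ι K 0) = X := by simp [ev]
@[simp] theorem ev_ι_one (X Y : E) : ev (K := K) X Y (FreeAlgebra.ι K 1) = Y := by simp [ev]

theorem ev_comp (X Y : E) (g : E →ₐ[K] E') (x : FreeAlgebra K (Fin 2)) :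
    g (ev X Y x) = ev (g X) (g Y) x := by
  have : g.comp (ev (K := K) X Y) = ev (g X) (g Y) := by
    ext i; fin_cases i <;> simp
  exact DFunLike.congr_fun this x

/-- `D_ψ : A ↦ 0, B ↦ [B, ψ]` -/
noncomputable def Dpsi (ψ : FreeAlgebra K (Fin 2)) :
    FreeAlgebra K (Fin 2) →ₗ[K] FreeAlgebra K (Fin 2) :=
  derL (FreeAlgebra.ι K)
    (fun i => if i = 0 then 0 else FreeAlgebra.ι K 1 * ψ - ψ * FreeAlgebra.ι K 1)

theorem lift_ι_self (x : FreeAlgebra K ι) : FreeAlgebra.lift K (FreeAlgebra.ι K) x = x := by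
  have : FreeAlgebra.lift K (FreeAlgebra.ι K) = AlgHom.id K (FreeAlgebra K ι) := by
    ext i; simp
  rw [this]; rfl

theorem Dpsi_isDer (ψ : FreeAlgebra K (Fin 2)) : IsDer (Dpsi ψ) := by
  intro x y
  unfold Dpsi
  rw [derL_mul, lift_ι_self, lift_ι_self, add_comm]

theorem Dpsi_zero (ψ : FreeAlgebra K (Fin 2)) : Dpsi ψ (FreeAlgebra.ι K 0) = 0 := by
  simp [Dpsi, derL_ι]

theorem Dpsi_one (ψ : FreeAlgebra K (Fin 2)) : Dpsi ψ (FreeAlgebra.ι K 1) =
    FreeAlgebra.ι K 1 * ψ - ψ * FreeAlgebra.ι K 1 := by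
  simp [Dpsi, derL_ι]

/-- `s_ψ = D_ψ + L_ψ` -/
noncomputable def sOp (ψ : FreeAlgebra K (Fin 2)) :
    FreeAlgebra K (Fin 2) →ₗ[K] FreeAlgebra K (Fin 2) := Dpsi ψ + LinearMap.mulLeft K ψ

theorem sOp_apply (ψ x : FreeAlgebra K (Fin 2)) : sOp ψ x = Dpsi ψ x + ψ * x := by
  simp [sOp]

/-- intertwining: if `δ a = [u, a]` and `δ b = [u - ψ(a,b), b]` then
`d ∘ s_ψ = σ_{u - ψ(a,b), u} ∘ d` where `d = ev a b` -/
theorem ev_sOp {δ : E →ₗ[K] E} (h : IsDer δ) (a b u : E) (ψ : FreeAlgebra K (Fin 2))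
    (ha : δ a = u * a - a * u)
    (hb : δ b = (u - ev a b ψ) * b - b * (u - ev a b ψ)) (x : FreeAlgebra K (Fin 2)) :
    ev a b (sOp ψ x) = sig δ (u - ev a b ψ) u (ev a b x) := by
  have key : ev a b (Dpsi ψ x) = δ (ev a b x) - (u * ev a b x - ev a b x * u) := by
    have := der_ext (ev (K := K) a b) ((ev (K := K) a b).toLinearMap ∘ₗ Dpsi ψ)
      ((δ - LinearMap.mulLeft K u + LinearMap.mulRight K u) ∘ₗ (ev (K := K) a b).toLinearMap)
      ?_ ?_ ?_ x
    · simp only [LinearMap.comp_apply, AlgHom.toLinearMap_apply, LinearMap.add_apply,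
        LinearMap.sub_apply, LinearMap.mulLeft_apply, LinearMap.mulRight_apply] at this
      rw [this]; noncomm_ring
    · intro x y
      simp only [LinearMap.comp_apply, AlgHom.toLinearMap_apply]
      rw [Dpsi_isDer ψ x y, map_add, map_mul, map_mul, add_comm]
    · intro x y
      simp only [LinearMap.comp_apply, AlgHom.toLinearMap_apply, LinearMap.add_apply,
        LinearMap.sub_apply, LinearMap.mulLeft_apply, LinearMap.mulRight_apply, map_mul]
      rw [h (ev a b x) (ev a b y)]
      noncomm_ring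
    · intro i
      simp only [LinearMap.comp_apply, AlgHom.toLinearMap_apply, LinearMap.add_apply,
        LinearMap.sub_apply, LinearMap.mulLeft_apply, LinearMap.mulRight_apply]
      fin_cases i
      · simp only [Fin.zero_eta, Fin.isValue, Dpsi_zero, ev_ι_zero, map_zero, ha]
        noncomm_ring
      · simp only [Fin.mk_one, Fin.isValue, Dpsi_one, ev_ι_one, map_sub, map_mul, hb]
        noncomm_ring
  rw [sOp_apply, map_add, map_mul, key, sig_apply]
  noncomm_ring

end Crest.Agent.R010.EDx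
end

-- ▼ part R010/ED4
section

/-! Row 10, module E-D, part 4 (helper249): nilpotent algebras given by generators and relations,
their word-length filtration, derivations and nilpotency of `sig δ v w`. -/

set_option autoImplicit false
set_option linter.unusedSectionVars false
open Finset

namespace Crest.Agent.R010.EDx

section fil

variable {K : Type*} [Field K] [CharZero K] {ι : Type*} {U : Type*} [Ring U] [Algebra K U]

/-- filtration by word length -/
def Fil (K : Type*) [Field K] {ι : Type*} {U : Type*} [Ring U] [Algebra K U] (G : ι → U) (m : ℕ) :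
    Submodule K U :=
  Submodule.span K {x | ∃ l : List ι, m ≤ l.length ∧ x = (l.map G).prod}

variable {G : ι → U}

theorem word_mem_Fil (l : List ι) : (l.map G).prod ∈ Fil K G l.length :=
  Submodule.subset_span ⟨l, le_refl _, rfl⟩

theorem gen_mem_Fil (i : ι) : G i ∈ Fil K G 1 := by
  have := word_mem_Fil (K := K) (G := G) [i]
  simpa using this

theorem Fil_mono {m m' : ℕ} (h : m ≤ m') : Fil K G m' ≤ Fil K G m := by
  apply Submodule.span_mono
  rintro _ ⟨l, hl, rfl⟩
  exact ⟨l, le_trans h hl, rfl⟩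

theorem Fil_mul {a b : ℕ} {x y : U} (hx : x ∈ Fil K G a) (hy : y ∈ Fil K G b) :
    x * y ∈ Fil K G (a + b) := by
  have h : x * y ∈ Fil K G a * Fil K G b := Submodule.mul_mem_mul hx hy
  unfold Fil at h
  rw [Submodule.span_mul_span] at h
  refine Submodule.span_mono ?_ h
  rintro _ ⟨_, ⟨l, hl, rfl⟩, _, ⟨l', hl', rfl⟩, rfl⟩
  refine ⟨l ++ l', ?_, ?_⟩
  · rw [List.length_append]; omega
  · simp


theorem nilp_word {N : ℕ} (h : Nilp N G) (l : List ι) (hl : N + 1 ≤ l.length) :
    (l.map G).prod = 0 := by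
  rw [← List.take_append_drop (N + 1) l, List.map_append, List.prod_append,
    h (l.take (N + 1)) (by rw [List.length_take]; omega), zero_mul]

theorem Fil_bot {N : ℕ} (h : Nilp N G) : Fil K G (N + 1) = ⊥ := by
  unfold Fil
  rw [Submodule.span_eq_bot]
  rintro _ ⟨l, hl, rfl⟩
  exact nilp_word h l hl

theorem Fil_bot' {N m : ℕ} (h : Nilp N G) (hm : N + 1 ≤ m) : Fil K G m = ⊥ := by
  rw [eq_bot_iff, ← Fil_bot (K := K) h]
  exact Fil_mono hm

theorem IsDer.word_mem {δ : U →ₗ[K] U} (hδ : IsDer δ) (hG : ∀ i, δ (G i) ∈ Fil K G 2)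
    (l : List ι) : δ ((l.map G).prod) ∈ Fil K G (l.length + 1) := by
  induction l with
  | nil => simp [hδ.one]
  | cons a l ih =>
    rw [List.map_cons, List.prod_cons, hδ, List.length_cons]
    apply Submodule.add_mem
    · have := Fil_mul (hG a) (word_mem_Fil (K := K) (G := G) l)
      rwa [show 2 + l.length = l.length + 1 + 1 by ring] at this
    · have := Fil_mul (gen_mem_Fil (K := K) (G := G) a) ih
      rwa [show 1 + (l.length + 1) = l.length + 1 + 1 by ring] at this

theorem IsDer.mem_Fil {δ : U →ₗ[K] U} (hδ : IsDer δ) (hG : ∀ i, δ (G i) ∈ Fil K G 2)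
    {m : ℕ} {x : U} (hx : x ∈ Fil K G m) : δ x ∈ Fil K G (m + 1) := by
  unfold Fil at hx
  induction hx using Submodule.span_induction with
  | mem x h =>
    obtain ⟨l, hl, rfl⟩ := h
    exact Fil_mono (by omega) (hδ.word_mem hG l)
  | zero => simp
  | add x y _ _ hx hy => rw [map_add]; exact Submodule.add_mem _ hx hy
  | smul r x _ hx => rw [map_smul]; exact Submodule.smul_mem _ _ hx

theorem sig_mem_Fil {δ : U →ₗ[K] U} (hδ : IsDer δ) (hG : ∀ i, δ (G i) ∈ Fil K G 2)
    {v w : U} (hv : v ∈ Fil K G 1) (hw : w ∈ Fil K G 1)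
    {m : ℕ} {x : U} (hx : x ∈ Fil K G m) : sig δ v w x ∈ Fil K G (m + 1) := by
  rw [sig_apply]
  apply Submodule.add_mem
  · apply Submodule.sub_mem _ (hδ.mem_Fil hG hx)
    have := Fil_mul hv hx
    rwa [add_comm] at this
  · exact Fil_mul hx hw

theorem sig_nilp {N : ℕ} (h : Nilp N G) (hgen : Fil K G 0 = ⊤) {δ : U →ₗ[K] U} (hδ : IsDer δ)
    (hG : ∀ i, δ (G i) ∈ Fil K G 2) {v w : U} (hv : v ∈ Fil K G 1) (hw : w ∈ Fil K G 1) :
    (sig δ v w) ^ (N + 1) = 0 := by
  have key : ∀ (j : ℕ) (x : U), ((sig δ v w) ^ j) x ∈ Fil K G j := by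
    intro j
    induction j with
    | zero => intro x; rw [hgen]; trivial
    | succ j ih => intro x; rw [pow_succ', Module.End.mul_apply]; exact sig_mem_Fil hδ hG hv hw (ih x)
  ext x
  have := key (N + 1) x
  rw [Fil_bot h] at this
  simpa using this

end fil

section quot

variable {K : Type} [Field K] [CharZero K] {ι : Type}

/-- relations `r` together with the vanishing of all words of length `N+1` -/
inductive NRel (N : ℕ) (r : FreeAlgebra K ι → FreeAlgebra K ι → Prop) :
    FreeAlgebra K ι → FreeAlgebra K ι → Prop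
  | base {x y : FreeAlgebra K ι} : r x y → NRel N r x y
  | nil (l : List ι) : l.length = N + 1 → NRel N r (wd K l) 0

/-- the nilpotent algebra with relations `r` -/
def QN (N : ℕ) (r : FreeAlgebra K ι → FreeAlgebra K ι → Prop) : Type := RingQuot (NRel N r)

variable (N : ℕ) (r : FreeAlgebra K ι → FreeAlgebra K ι → Prop)

noncomputable instance : Ring (QN N r) := inferInstanceAs (Ring (RingQuot (NRel N r)))
noncomputable instance : Algebra K (QN N r) := inferInstanceAs (Algebra K (RingQuot (NRel N r)))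

/-- the quotient map -/
noncomputable def qmk : FreeAlgebra K ι →ₐ[K] QN N r := RingQuot.mkAlgHom K (NRel N r)

/-- the generators -/
noncomputable def qgen (i : ι) : QN N r := qmk N r (FreeAlgebra.ι K i)

theorem qmk_surj : Function.Surjective (qmk N r) := RingQuot.mkAlgHom_surjective K (NRel N r)

theorem qmk_rel {x y : FreeAlgebra K ι} (h : NRel N r x y) : qmk N r x = qmk N r y :=
  RingQuot.mkAlgHom_rel K h

theorem lift_qgen (x : FreeAlgebra K ι) : FreeAlgebra.lift K (qgen N r) x = qmk N r x := by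
  have : FreeAlgebra.lift K (qgen N r) = qmk N r := by
    ext i; simp [qgen]
  rw [this]

theorem qmk_wd (l : List ι) : qmk N r (wd K l) = (l.map (qgen N r)).prod := by
  induction l with
  | nil => simp
  | cons a l ih => rw [wd_cons, map_mul, ih, List.map_cons, List.prod_cons]; rfl

theorem qgen_nilp : Nilp N (qgen N r) := by
  intro l hl
  rw [← qmk_wd, qmk_rel N r (NRel.nil l hl), map_zero]

theorem qgen_Fil : Fil K (qgen N r) 0 = ⊤ := by
  rw [eq_top_iff]
  intro x _
  obtain ⟨y, rfl⟩ := qmk_surj N r x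
  induction y using wd_induction with
  | h0 => simp
  | ha x y hx hy => rw [map_add]; exact Submodule.add_mem _ (hx trivial) (hy trivial)
  | hs r x hx => rw [map_smul]; exact Submodule.smul_mem _ _ (hx trivial)
  | hw l =>
    rw [qmk_wd]
    exact Fil_mono (Nat.zero_le _) (word_mem_Fil l)

theorem exists_qlift {B : Type} [Ring B] [Algebra K B] (f : ι → B)
    (hr : ∀ x y, r x y → FreeAlgebra.lift K f x = FreeAlgebra.lift K f y) (hN : Nilp N f) :
    ∃ g : QN N r →ₐ[K] B, ∀ i, g (qgen N r i) = f i := by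
  have hwd : ∀ l : List ι, FreeAlgebra.lift K f (wd K l) = (l.map f).prod := by
    intro l
    induction l with
    | nil => simp
    | cons a l ih => rw [wd_cons, map_mul, ih, List.map_cons, List.prod_cons]; simp
  have h : ∀ ⦃x y : FreeAlgebra K ι⦄, NRel N r x y →
      FreeAlgebra.lift K f x = FreeAlgebra.lift K f y := by
    intro x y hxy
    cases hxy with
    | base h => exact hr _ _ h
    | nil l hl => rw [hwd, hN l hl, map_zero]
  refine ⟨RingQuot.liftAlgHom K ⟨FreeAlgebra.lift K f, h⟩, fun i => ?_⟩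
  have := RingQuot.liftAlgHom_mkAlgHom_apply K (FreeAlgebra.lift K f) h (FreeAlgebra.ι K i)
  rw [FreeAlgebra.lift_ι_apply] at this
  exact this

theorem exists_qder (Y : ι → QN N r) (hY : ∀ i, Y i ∈ Fil K (qgen N r) 2)
    (hr : ∀ x y, r x y → derL (K := K) (qgen N r) Y x = derL (qgen N r) Y y) :
    ∃ δ : QN N r →ₗ[K] QN N r, IsDer δ ∧ (∀ i, δ (qgen N r i) = Y i) := by
  have hword : ∀ l : List ι, derL (K := K) (qgen N r) Y (wd K l) ∈
      Fil K (qgen N r) (l.length + 1) := by
    intro l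
    induction l with
    | nil => simp [derL_one]
    | cons a l ih =>
      rw [wd_cons, derL_mul, derL_ι, lift_qgen, lift_qgen, qmk_wd, List.length_cons]
      apply Submodule.add_mem
      · have := Fil_mul (gen_mem_Fil (K := K) (G := qgen N r) a) ih
        rwa [show 1 + (l.length + 1) = l.length + 1 + 1 by ring] at this
      · have := Fil_mul (hY a) (word_mem_Fil (K := K) (G := qgen N r) l)
        rwa [show 2 + l.length = l.length + 1 + 1 by ring] at this
  have h : ∀ ⦃x y : FreeAlgebra K ι⦄, NRel N r x y →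
      derF (K := K) (qgen N r) Y x = derF (K := K) (qgen N r) Y y := by
    intro x y hxy
    apply TrivSqZeroExt.ext
    · rw [derF_fst, derF_fst, lift_qgen, lift_qgen]
      exact qmk_rel N r hxy
    · rw [derF_snd, derF_snd]
      cases hxy with
      | base h => exact hr _ _ h
      | nil l hl =>
        have := hword l
        rw [hl, Fil_bot' (qgen_nilp N r) (by omega)] at this
        rw [map_zero]
        simpa using this
  let F : QN N r →ₐ[K] TrivSqZeroExt (QN N r) (QN N r) :=
    RingQuot.liftAlgHom K ⟨derF (K := K) (qgen N r) Y, h⟩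
  have hF : ∀ x, F (qmk N r x) = derF (K := K) (qgen N r) Y x := fun x =>
    RingQuot.liftAlgHom_mkAlgHom_apply K (derF (K := K) (qgen N r) Y) h x
  have hfst : ∀ z, (F z).fst = z := by
    intro z
    obtain ⟨x, rfl⟩ := qmk_surj N r z
    rw [hF, derF_fst, lift_qgen]
  refine ⟨(TrivSqZeroExt.sndHom (QN N r) (QN N r)).restrictScalars K ∘ₗ F.toLinearMap, ?_, ?_⟩
  · intro x y
    have : (F (x * y)).snd = x * (F y).snd + (F x).snd * y := by
      rw [map_mul, TrivSqZeroExt.snd_mul, hfst, hfst]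
      simp
    rw [add_comm] at this
    exact this
  · intro i
    have : (F (qgen N r i)).snd = Y i := by
      unfold qgen
      rw [hF, derF_snd]
      exact derL_ι _ _ i
    exact this

end quot

end Crest.Agent.R010.EDx
end

-- ▼ part R010/ED5
section

/-! Row 10, module E-D, part 5 (helper249): properties of the elements of `grtR n`. -/

set_option autoImplicit false
set_option linter.unusedSectionVars false
set_option linter.style.haveILetI false
open Finset Crest.NumberTheoryR.GT

namespace Crest.Agent.R010.EDx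

attribute [local instance 100] LieRing.ofAssociativeRing

/-- rational structure on a real algebra -/
noncomputable abbrev ratAlg (U : Type*) [Ring U] [Algebra ℝ U] : Algebra ℚ U :=
  Algebra.compHom U (algebraMap ℚ ℝ)

theorem ev_toReal {U : Type*} [Ring U] [Algebra ℝ U] (a b : U) (p : GTLie) :
    letI := ratAlg U
    ev (K := ℝ) a b (toReal (iota p)) = gtSubst a b p := by
  letI := ratAlg U
  haveI : IsScalarTower ℚ ℝ U := IsScalarTower.of_algebraMap_eq' rfl
  have : ((ev (K := ℝ) a b).restrictScalars ℚ).comp toReal = ev (K := ℚ) a b := by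
    ext i
    simp [toReal, ev]
  rw [← DynB.ev_iota, ← this]
  rfl

theorem grtR_induction {n : ℕ} {C : FreeAlgebra ℝ (Fin 2) → Prop} (h0 : C 0)
    (hadd : ∀ x y, C x → C y → C (x + y)) (hsmul : ∀ (r : ℝ) x, C x → C (r • x))
    (hp : ∀ p ∈ grtW n, C (toReal (iota p))) {ψ : FreeAlgebra ℝ (Fin 2)} (hψ : ψ ∈ grtR n) :
    C ψ := by
  unfold grtR at hψ
  induction hψ using Submodule.span_induction with
  | mem x h => obtain ⟨p, h1, rfl⟩ := h; exact hp p h1
  | zero => exact h0
  | add x y _ _ hx hy => exact hadd x y hx hy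
  | smul r x _ hx => exact hsmul r x hx

theorem grtR_add {U : Type*} [Ring U] [Algebra ℝ U] {n : ℕ} {ψ : FreeAlgebra ℝ (Fin 2)}
    (hψ : ψ ∈ grtR n) {a b a' b' : U} (h1 : Commute a a') (h2 : Commute a b') (h3 : Commute b a')
    (h4 : Commute b b') : ev (a + a') (b + b') ψ = ev a b ψ + ev a' b' ψ := by
  refine grtR_induction (C := fun ψ => ev (a + a') (b + b') ψ = ev a b ψ + ev a' b' ψ)
    ?_ ?_ ?_ ?_ hψ
  · simp
  · intro x y hx hy
    rw [map_add, map_add, map_add, hx, hy]; abel
  · intro r x hx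
    rw [map_smul, map_smul, map_smul, hx, smul_add]
  · intro p hp
    letI := ratAlg U
    rw [ev_toReal, ev_toReal, ev_toReal]
    have hc : ∀ {x y : U}, Commute x y → ⁅x, y⁆ = 0 := by
      intro x y h
      rw [Ring.lie_def, h.eq, sub_self]
    exact gtSubst_add_of_comm hp.2 (hc h1) (hc h2) (hc h3) (hc h4)

theorem grtR_abelian {U : Type*} [Ring U] [Algebra ℝ U] {n : ℕ} (hn : 2 ≤ n)
    {ψ : FreeAlgebra ℝ (Fin 2)} (hψ : ψ ∈ grtR n) {a b : U} (h : Commute a b) : ev a b ψ = 0 := by
  refine grtR_induction (C := fun ψ => ev a b ψ = 0) ?_ ?_ ?_ ?_ hψ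
  · simp
  · intro x y hx hy
    rw [map_add, hx, hy, add_zero]
  · intro r x hx
    rw [map_smul, hx, smul_zero]
  · intro p hp
    letI := ratAlg U
    rw [ev_toReal]
    exact gtSubst_abelian hn hp.2 (by rw [Ring.lie_def, h.eq, sub_self])

/-- elements commuting with `a, b` commute with `ψ(a,b)` -/
theorem ev_commute {K : Type*} [CommRing K] {U : Type*} [Ring U] [Algebra K U] {a b z : U}
    (ha : Commute z a) (hb : Commute z b) (x : FreeAlgebra K (Fin 2)) : Commute z (ev a b x) := by
  induction x using FreeAlgebra.induction with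
  | grade0 r => rw [AlgHom.commutes]; exact (Algebra.commutes r z).symm
  | grade1 i => fin_cases i <;> simpa [ev]
  | mul x y hx hy => rw [map_mul]; exact hx.mul_right hy
  | add x y hx hy => rw [map_add]; exact hx.add_right hy

theorem iota_homog {n : ℕ} {p : GTLie} (hp : p ∈ weightSubspace (fun _ : Fin 2 => 1) n) :
    Homog n (toReal (iota p)) := by
  refine weight_induction (C := fun p => Homog n (toReal (iota p))) ?_ ?_ ?_ ?_ hp
  · intro x hx
    clear hp
    induction hx with
    | of i =>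
      have : toReal (iota (FreeLieAlgebra.of ℚ i)) = FreeAlgebra.ι ℝ i := by
        simp [toReal, iota]
      rw [this]
      exact homog_ι i
    | @lie m n x y hx hy h1 h2 =>
      rw [LieHom.map_lie, Ring.lie_def, map_sub, map_mul, map_mul]
      apply homog_sub (homog_mul h1 h2)
      rw [add_comm]
      exact homog_mul h2 h1
  · rw [map_zero, map_zero]; exact homog_zero
  · intro x y hx hy
    rw [map_add, map_add]; exact homog_add hx hy
  · intro r x hx
    rw [map_smul, map_smul]
    have : r • toReal (iota x) = (r : ℝ) • toReal (iota x) := by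
      rw [← algebraMap_smul ℝ r (toReal (iota x))]
      rfl
    rw [this]
    exact homog_smul _ hx

theorem grtR_homog {n : ℕ} {ψ : FreeAlgebra ℝ (Fin 2)} (hψ : ψ ∈ grtR n) : Homog n ψ := by
  refine grtR_induction (C := fun ψ => Homog n ψ) homog_zero (fun _ _ => homog_add)
    (fun r _ => homog_smul r) ?_ hψ
  intro p hp
  exact iota_homog hp.2

theorem grtR_Fil {ι U : Type*} [Ring U] [Algebra ℝ U] {G : ι → U} {n : ℕ}
    {ψ : FreeAlgebra ℝ (Fin 2)} (hψ : ψ ∈ grtR n) {a b : U} (ha : a ∈ Fil ℝ G 1)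
    (hb : b ∈ Fil ℝ G 1) : ev a b ψ ∈ Fil ℝ G n := by
  refine grtR_induction (C := fun ψ => ev a b ψ ∈ Fil ℝ G n) ?_ ?_ ?_ ?_ hψ
  · rw [map_zero]; exact Submodule.zero_mem _
  · intro x y hx hy
    rw [map_add]; exact Submodule.add_mem _ hx hy
  · intro r x hx
    rw [map_smul]; exact Submodule.smul_mem _ _ hx
  · intro p hp
    refine weight_induction (C := fun p => ev a b (toReal (iota p)) ∈ Fil ℝ G n) ?_ ?_ ?_ ?_ hp.2
    · intro x hx
      clear hp hψ
      induction hx with
      | of i =>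
        have : toReal (iota (FreeLieAlgebra.of ℚ i)) = FreeAlgebra.ι ℝ i := by
          simp [toReal, iota]
        rw [this]
        fin_cases i <;> simpa
      | @lie m n x y hx hy h1 h2 =>
        rw [LieHom.map_lie, Ring.lie_def, map_sub, map_mul, map_mul, map_sub, map_mul, map_mul]
        apply Submodule.sub_mem _ (Fil_mul h1 h2)
        rw [add_comm]
        exact Fil_mul h2 h1
    · rw [map_zero, map_zero, map_zero]; exact Submodule.zero_mem _
    · intro x y hx hy
      rw [map_add, map_add, map_add]; exact Submodule.add_mem _ hx hy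
    · intro r x hx
      rw [map_smul, map_smul]
      have : r • toReal (iota x) = (r : ℝ) • toReal (iota x) := by
        rw [← algebraMap_smul ℝ r (toReal (iota x))]
        rfl
      rw [this, map_smul]
      exact Submodule.smul_mem _ _ hx

/-- the pair number `i` of a five-configuration, inserted in `ψ` -/
noncomputable def qq {U : Type*} [Ring U] [Algebra ℝ U] (R : Fin 5 → U)
    (ψ : FreeAlgebra ℝ (Fin 2)) (i : Fin 5) : U := ev (R (i - 1)) (R (i + 1)) ψ

/-- the sequence `u` -/
noncomputable def uu {U : Type*} [Ring U] [Algebra ℝ U] (R : Fin 5 → U)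
    (ψ : FreeAlgebra ℝ (Fin 2)) : Fin 5 → U :=
  ![-qq R ψ 1 - qq R ψ 2 - qq R ψ 3 - qq R ψ 4, 0, -qq R ψ 1, -qq R ψ 1 - qq R ψ 2,
    -qq R ψ 1 - qq R ψ 2 - qq R ψ 3]

theorem qq_add {U : Type*} [Ring U] [Algebra ℝ U] (R : Fin 5 → U) (ψ φ : FreeAlgebra ℝ (Fin 2))
    (i : Fin 5) : qq R (ψ + φ) i = qq R ψ i + qq R φ i := by simp [qq]

theorem qq_smul {U : Type*} [Ring U] [Algebra ℝ U] (R : Fin 5 → U) (r : ℝ)
    (ψ : FreeAlgebra ℝ (Fin 2)) (i : Fin 5) : qq R (r • ψ) i = r • qq R ψ i := by simp [qq]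

theorem uu_add {U : Type*} [Ring U] [Algebra ℝ U] (R : Fin 5 → U) (ψ φ : FreeAlgebra ℝ (Fin 2))
    (i : Fin 5) : uu R (ψ + φ) i = uu R ψ i + uu R φ i := by
  fin_cases i <;> simp [uu, qq_add] <;> abel

theorem uu_smul {U : Type*} [Ring U] [Algebra ℝ U] (R : Fin 5 → U) (r : ℝ)
    (ψ : FreeAlgebra ℝ (Fin 2)) (i : Fin 5) : uu R (r • ψ) i = r • uu R ψ i := by
  fin_cases i <;> simp [uu, qq_smul, smul_sub]

theorem uu_succ {U : Type*} [Ring U] [Algebra ℝ U] (R : Fin 5 → U) (ψ : FreeAlgebra ℝ (Fin 2))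
    (h : ∑ i, qq R ψ i = 0) (i : Fin 5) : uu R ψ (i + 1) = uu R ψ i - qq R ψ i := by
  rw [Fin.sum_univ_five] at h
  fin_cases i
  · have h' : -qq R ψ 1 - qq R ψ 2 - qq R ψ 3 - qq R ψ 4 - qq R ψ 0 =
        -(qq R ψ 0 + qq R ψ 1 + qq R ψ 2 + qq R ψ 3 + qq R ψ 4) := by abel
    have h2 : -qq R ψ 1 - qq R ψ 2 - qq R ψ 3 - qq R ψ 4 - qq R ψ 0 = 0 := by rw [h', h, neg_zero]
    simpa [uu] using h2.symm
  · simp [uu]
  · simp [uu]
  · simp [uu]
  · simp [uu]

/-- the three linear conditions provided by `EB2` -/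
def TT {U : Type*} [Ring U] [Algebra ℝ U] (R : Fin 5 → U) (ψ : FreeAlgebra ℝ (Fin 2)) : Prop :=
  (∑ i, qq R ψ i = 0) ∧
  (∀ i, ⁅⁅uu R ψ i, R i⁆, R (i + 1)⁆ + ⁅R i, ⁅uu R ψ (i + 1), R (i + 1)⁆⁆ = 0) ∧
    ∑ i, (⁅⁅uu R ψ i, R i⁆, R (i + 2)⁆ + ⁅R i, ⁅uu R ψ (i + 2), R (i + 2)⁆⁆) = 0

theorem grtR_TT (hEB2 : EB2) {U : Type} [Ring U] [Algebra ℝ U] {n : ℕ} (hn : 3 ≤ n)
    {ψ : FreeAlgebra ℝ (Fin 2)} (hψ : ψ ∈ grtR n) (R : Fin 5 → U) (hR : Conf5 R) : TT R ψ := by
  refine grtR_induction (C := fun ψ => TT R ψ) ?_ ?_ ?_ ?_ hψ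
  · have h0 : ∀ i, qq R 0 i = 0 := by intro i; simp [qq]
    have h1 : ∀ i, uu R 0 i = 0 := by
      intro i
      have := uu_smul R (0 : ℝ) 0 i
      rwa [zero_smul, zero_smul] at this
    refine ⟨by simp [h0], ?_, ?_⟩
    · intro i; simp [h1]
    · simp [h1]
  · rintro x y ⟨hx1, hx2, hx3⟩ ⟨hy1, hy2, hy3⟩
    refine ⟨?_, ?_, ?_⟩
    · simp only [qq_add, Finset.sum_add_distrib, hx1, hy1, add_zero]
    · intro i
      have := congrArg₂ (· + ·) (hx2 i) (hy2 i)
      simp only [add_zero] at this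
      rw [← this]
      simp only [uu_add, add_lie, lie_add]
      abel
    · have := congrArg₂ (· + ·) hx3 hy3
      simp only [add_zero] at this
      rw [← this, ← Finset.sum_add_distrib]
      apply Finset.sum_congr rfl
      intro i _
      simp only [uu_add, add_lie, lie_add]
      abel
  · rintro r x ⟨hx1, hx2, hx3⟩
    refine ⟨?_, ?_, ?_⟩
    · simp only [qq_smul, ← Finset.smul_sum, hx1, smul_zero]
    · intro i
      have := congrArg (fun z => r • z) (hx2 i)
      simp only [smul_zero] at this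
      rw [← this]
      simp only [uu_smul, Ring.lie_def, smul_mul_assoc, mul_smul_comm, smul_add, smul_sub,
        sub_mul, mul_sub]
    · have := congrArg (fun z => r • z) hx3
      simp only [smul_zero] at this
      rw [← this, Finset.smul_sum]
      apply Finset.sum_congr rfl
      intro i _
      simp only [uu_smul, Ring.lie_def, smul_mul_assoc, mul_smul_comm, smul_add, smul_sub,
        sub_mul, mul_sub]
  · intro p hp
    letI := ratAlg U
    obtain ⟨h1, h2⟩ := hEB2 n p hn hp U R hR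
    have hq : ∀ i, qq R (toReal (iota p)) i = gtSubst (R (i - 1)) (R (i + 1)) p := by
      intro i
      unfold qq
      rw [ev_toReal]
    have hs : ∑ i, qq R (toReal (iota p)) i = 0 := by
      simp only [hq]; exact h1
    obtain ⟨h3, h4⟩ := h2 (uu R (toReal (iota p))) (by
      intro i
      rw [uu_succ R _ hs i, hq])
    exact ⟨hs, h3, h4⟩

end Crest.Agent.R010.EDx
end

-- ▼ part R010/ED6
section

/-! Row 10, module E-D, part 6 (helper249): the action of `exp s_ψ` on truncated associators. -/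

set_option autoImplicit false
set_option linter.unusedSectionVars false
set_option linter.style.haveILetI false
open Finset Crest.NumberTheoryR.GT

namespace Crest.Agent.R010.EDx

attribute [local instance 100] LieRing.ofAssociativeRing

/-! ### coefficients of `s_ψ` -/

/-- a set of words closed under `take` and `drop` -/
def TDClosed (W : List (Fin 2) → Prop) : Prop := ∀ w, W w → ∀ i, W (w.take i) ∧ W (w.drop i)

theorem cf_Dpsi_zero {W : List (Fin 2) → Prop} (hW : TDClosed W) {ψ : FreeAlgebra ℝ (Fin 2)}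
    (h : ∀ w, W w → cf w (FreeAlgebra.ι ℝ 1 * ψ - ψ * FreeAlgebra.ι ℝ 1) = 0)
    (x : FreeAlgebra ℝ (Fin 2)) : ∀ w, W w → cf w (Dpsi ψ x) = 0 := by
  induction x using FreeAlgebra.induction with
  | grade0 r =>
    intro w _
    rw [Algebra.algebraMap_eq_smul_one, map_smul, (Dpsi_isDer ψ).one, smul_zero, map_zero]
  | grade1 i =>
    intro w hw
    fin_cases i
    · simp [Dpsi_zero]
    · have := h w hw
      simpa [Dpsi_one] using this
  | mul a b ha hb =>
    intro w hw
    rw [Dpsi_isDer ψ a b, map_add, cf_mul, cf_mul]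
    rw [Finset.sum_eq_zero, Finset.sum_eq_zero, add_zero]
    · intro i _
      rw [hb _ (hW w hw i).2, mul_zero]
    · intro i _
      rw [ha _ (hW w hw i).1, zero_mul]
  | add a b ha hb =>
    intro w hw
    rw [map_add, map_add, ha w hw, hb w hw, add_zero]

theorem cf_sOp {W : List (Fin 2) → Prop} (hW : TDClosed W) {ψ : FreeAlgebra ℝ (Fin 2)}
    (h : ∀ w, W w → cf w (FreeAlgebra.ι ℝ 1 * ψ - ψ * FreeAlgebra.ι ℝ 1) = 0) (w : List (Fin 2))
    (hw : W w) (h2 : ∀ i, i < w.length → cf (w.take i) ψ = 0) (x : FreeAlgebra ℝ (Fin 2)) :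
    cf w (sOp ψ x) = cf w ψ * cf ([] : List (Fin 2)) x := by
  rw [sOp_apply, map_add, cf_Dpsi_zero hW h x w hw, zero_add, cf_mul,
    Finset.sum_range_succ, Finset.sum_eq_zero, zero_add, List.take_length, List.drop_length]
  intro i hi
  rw [h2 i (Finset.mem_range.mp hi), zero_mul]

theorem cf_comm_zero {ψ : FreeAlgebra ℝ (Fin 2)} (w : List (Fin 2))
    (h1 : ∀ v, w = 1 :: v → cf v ψ = 0) (h2 : ∀ v, w = v ++ [1] → cf v ψ = 0) :
    cf w (FreeAlgebra.ι ℝ 1 * ψ - ψ * FreeAlgebra.ι ℝ 1) = 0 := by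
  rw [map_sub, cf_mul, cf_mul, Finset.sum_eq_zero, Finset.sum_eq_zero, sub_zero]
  · intro i hi
    rw [cf_ι]
    split_ifs with h
    · rw [h2 (w.take i), zero_mul]
      rw [h, List.take_append_drop]
    · rw [mul_zero]
  · intro i hi
    rw [cf_ι]
    split_ifs with h
    · rw [h1 (w.drop i), mul_zero]
      have := List.take_append_drop i w
      rw [← h] at this
      simpa using this.symm
    · rw [zero_mul]

theorem coeff_ev_X (k : ℕ) (x : FreeAlgebra ℝ (Fin 2)) :
    (ev (B := Polynomial ℝ) Polynomial.X 0 x).coeff k = cf (List.replicate k (0 : Fin 2)) x := by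
  refine wd_ext (Polynomial.lcoeff ℝ k ∘ₗ (ev (K := ℝ) (B := Polynomial ℝ) Polynomial.X 0).toLinearMap)
    (cf (List.replicate k (0 : Fin 2))) ?_ x
  intro l
  simp only [LinearMap.comp_apply, AlgHom.toLinearMap_apply, Polynomial.lcoeff_apply, cf_wd]
  induction l generalizing k with
  | nil =>
    rw [wd_nil, map_one, Polynomial.coeff_one]
    cases k with
    | zero => simp
    | succ k => simp [List.replicate_succ]
  | cons a l ih =>
    rw [wd_cons, map_mul]
    fin_cases a
    · simp only [Fin.zero_eta, Fin.isValue, ev_ι_zero]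
      cases k with
      | zero => simp
      | succ k => rw [Polynomial.coeff_X_mul, ih, List.replicate_succ]; simp
    · simp only [Fin.mk_one, Fin.isValue, ev_ι_one, zero_mul, Polynomial.coeff_zero]
      cases k with
      | zero => simp
      | succ k => simp [List.replicate_succ]

/-- `A^k` does not occur in `ψ` -/
theorem grtR_pure {n : ℕ} (hn : 2 ≤ n) {ψ : FreeAlgebra ℝ (Fin 2)} (hψ : ψ ∈ grtR n)
    (w : List (Fin 2)) (hw : ∀ a ∈ w, a = 0) : cf w ψ = 0 := by
  rw [List.eq_replicate_of_mem hw, ← coeff_ev_X,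
    grtR_abelian hn hψ (Commute.zero_right _), Polynomial.coeff_zero]

/-- coefficients of `s_ψ x` for short words -/
theorem cf_sOp_short {n : ℕ} {ψ : FreeAlgebra ℝ (Fin 2)} (hψ : ψ ∈ grtR n)
    (w : List (Fin 2)) (hw : w.length ≤ n) (x : FreeAlgebra ℝ (Fin 2)) :
    cf w (sOp ψ x) = cf w ψ * cf ([] : List (Fin 2)) x := by
  refine cf_sOp (W := fun w => w.length ≤ n) ?_ ?_ w hw ?_ x
  · intro w hw i
    have h1 := List.length_take_le i w
    have h2 : (w.drop i).length ≤ w.length := by rw [List.length_drop]; omega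
    exact ⟨le_trans (by rw [List.length_take]; exact Nat.min_le_right _ _) hw, le_trans h2 hw⟩
  · intro w hw
    apply cf_comm_zero
    · rintro v rfl
      apply grtR_homog hψ
      rw [List.length_cons] at hw; omega
    · rintro v rfl
      apply grtR_homog hψ
      rw [List.length_append, List.length_singleton] at hw; omega
  · intro i hi
    apply grtR_homog hψ
    rw [List.length_take]; omega

/-- coefficients of `s_ψ x` for the depth one words -/
theorem cf_sOp_dep1 {n : ℕ} (hn : 2 ≤ n) {ψ : FreeAlgebra ℝ (Fin 2)} (hψ : ψ ∈ grtR n)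
    (m : ℕ) (x : FreeAlgebra ℝ (Fin 2)) :
    cf (dep1 m) (sOp ψ x) = cf (dep1 m) ψ * cf ([] : List (Fin 2)) x := by
  refine cf_sOp (W := fun w => w.count 1 ≤ 1) ?_ ?_ (dep1 m) ?_ ?_ x
  · intro w hw i
    constructor
    · exact le_trans (List.Sublist.count_le 1 (List.take_sublist i w)) hw
    · exact le_trans (List.Sublist.count_le 1 (List.drop_sublist i w)) hw
  · intro w hw
    have aux : ∀ v : List (Fin 2), v.count 1 = 0 → cf v ψ = 0 := by
      intro v hv
      apply grtR_pure hn hψ
      intro a ha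
      have h1 : (1 : Fin 2) ∉ v := List.count_eq_zero.mp hv
      fin_cases a
      · rfl
      · exact absurd ha h1
    apply cf_comm_zero
    · rintro v rfl
      apply aux
      rw [List.count_cons_self] at hw; omega
    · rintro v rfl
      apply aux
      rw [List.count_append, List.count_singleton_self] at hw; omega
  · have h0 : List.count (1 : Fin 2) (List.replicate (m - 1) 0) = 0 := by
      rw [List.count_eq_zero]
      intro h
      exact absurd (List.eq_of_mem_replicate h) (by decide)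
    show List.count (1 : Fin 2) (List.replicate (m - 1) 0 ++ [1]) ≤ 1
    rw [List.count_append, h0, List.count_singleton_self]
  · intro i hi
    apply grtR_pure hn hψ
    intro a ha
    have h1 : i ≤ (List.replicate (m - 1) (0 : Fin 2)).length := by
      rw [dep1, List.length_append, List.length_singleton] at hi
      omega
    rw [dep1, List.take_append_of_le_length h1] at ha
    exact List.eq_of_mem_replicate (List.mem_of_mem_take ha)

end Crest.Agent.R010.EDx
end

-- ▼ part R010/ED7

/-! Row 10, module E-D, part 7 (helper249): the action of `exp s_ψ` on truncated associators: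
the theorem `ED_of : EB2 → ED`. -/

set_option autoImplicit false
set_option linter.unusedSectionVars false
set_option linter.style.haveILetI false
open Finset Crest.NumberTheoryR.GT

namespace Crest.Agent.R010.EDx

attribute [local instance 100] LieRing.ofAssociativeRing

theorem ev_zero_zero (x : FreeAlgebra ℝ (Fin 2)) :
    ev (B := ℝ) 0 0 x = cf ([] : List (Fin 2)) x := by
  refine wd_ext (ev (K := ℝ) (B := ℝ) 0 0).toLinearMap (cf ([] : List (Fin 2))) ?_ x
  intro l
  simp only [AlgHom.toLinearMap_apply, cf_wd]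
  cases l with
  | nil => simp
  | cons a l =>
    rw [wd_cons, map_mul]
    fin_cases a <;> simp

theorem IsAssoc.cf_nil {N : ℕ} {P : FreeAlgebra ℝ (Fin 2)} (h : IsAssoc N P) :
    cf ([] : List (Fin 2)) P = 1 := by
  rw [← ev_zero_zero]
  apply h.left ℝ 0
  intro l hl
  cases l with
  | nil => simp at hl
  | cons a l => simp

/-! ### the pentagon -/

/-- relations of a five-configuration -/
inductive r5 : FreeAlgebra ℝ (Fin 5) → FreeAlgebra ℝ (Fin 5) → Prop
  | comm (i : Fin 5) : r5 (FreeAlgebra.ι ℝ i * FreeAlgebra.ι ℝ (i + 1))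
      (FreeAlgebra.ι ℝ (i + 1) * FreeAlgebra.ι ℝ i)
  | omega : r5 (∑ i, FreeAlgebra.ι ℝ i * FreeAlgebra.ι ℝ (i + 2))
      (∑ i, FreeAlgebra.ι ℝ (i + 2) * FreeAlgebra.ι ℝ i)

theorem conf5_qgen (N : ℕ) : Conf5 (qgen N r5) := by
  constructor
  · intro i
    rw [Ring.lie_def, sub_eq_zero]
    have := qmk_rel N r5 (NRel.base (r5.comm i))
    simpa [qgen, map_mul] using this
  · simp only [Ring.lie_def]
    rw [Finset.sum_sub_distrib, sub_eq_zero]
    have := qmk_rel N r5 (NRel.base r5.omega)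
    simpa [qgen, map_mul, map_sum] using this

theorem pent_act (hEB2 : EB2) {N n : ℕ} (hn : 3 ≤ n) {P ψ : FreeAlgebra ℝ (Fin 2)}
    (hP : IsAssoc N P) (hψ : ψ ∈ grtR n) (B : Type) [Ring B] [Algebra ℝ B] (R : Fin 5 → B)
    (hR : Conf5 R) (hN : Nilp N R) :
    ev (R 4) (R 1) (expN (sOp ψ) (2 * N) P) * ev (R 3) (R 0) (expN (sOp ψ) (2 * N) P) *
      ev (R 2) (R 4) (expN (sOp ψ) (2 * N) P) * ev (R 1) (R 3) (expN (sOp ψ) (2 * N) P) *
      ev (R 0) (R 2) (expN (sOp ψ) (2 * N) P) = 1 := by
  -- the universal algebra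
  obtain ⟨g, hg⟩ := exists_qlift N r5 R (by
    intro x y hxy
    cases hxy with
    | comm i =>
      have := hR.1 i
      rw [Ring.lie_def, sub_eq_zero] at this
      simpa using this
    | omega =>
      have := hR.2
      simp only [Ring.lie_def] at this
      rw [Finset.sum_sub_distrib, sub_eq_zero] at this
      simpa using this) hN
  set Q := qgen N r5 with hQ
  set u := uu Q ψ with hu
  obtain ⟨hT1, hT2, hT3⟩ := grtR_TT hEB2 hn hψ Q (conf5_qgen N)
  have hus : ∀ i, u (i + 1) = u i - qq Q ψ i := uu_succ Q ψ hT1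
  have hq2 : ∀ i, qq Q ψ i ∈ Fil ℝ Q 2 := fun i =>
    Fil_mono (by omega) (grtR_Fil hψ (gen_mem_Fil _) (gen_mem_Fil _))
  have hu2 : ∀ i, u i ∈ Fil ℝ Q 2 := by
    intro i
    rw [hu]
    fin_cases i <;> simp only [uu] <;> simp
    · exact Submodule.sub_mem _ (Submodule.sub_mem _ (Submodule.sub_mem _
        (Submodule.neg_mem _ (hq2 1)) (hq2 2)) (hq2 3)) (hq2 4)
    · exact hq2 1
    · exact Submodule.sub_mem _ (Submodule.neg_mem _ (hq2 1)) (hq2 2)
    · exact Submodule.sub_mem _ (Submodule.sub_mem _ (Submodule.neg_mem _ (hq2 1)) (hq2 2)) (hq2 3)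
  have hu1 : ∀ i, u i ∈ Fil ℝ Q 1 := fun i => Fil_mono (by omega) (hu2 i)
  obtain ⟨δ, hδ, hδg⟩ := exists_qder N r5 (fun i => u i * Q i - Q i * u i) (by
    intro i
    have h1 := Fil_mul (hu2 i) (gen_mem_Fil (K := ℝ) (G := Q) i)
    have h2 := Fil_mul (gen_mem_Fil (K := ℝ) (G := Q) i) (hu2 i)
    exact Submodule.sub_mem _ (Fil_mono (by omega) h1) (Fil_mono (by omega) h2)) (by
    intro x y hxy
    cases hxy with
    | comm i =>
      rw [derL_mul, derL_mul]
      simp only [derL_ι, FreeAlgebra.lift_ι_apply]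
      have := hT2 i
      simp only [Ring.lie_def] at this
      rw [← sub_eq_zero, ← this]
      noncomm_ring
    | omega =>
      rw [map_sum, map_sum, ← sub_eq_zero, ← Finset.sum_sub_distrib, ← hT3]
      apply Finset.sum_congr rfl
      intro i _
      rw [derL_mul, derL_mul]
      simp only [derL_ι, FreeAlgebra.lift_ι_apply, Ring.lie_def]
      noncomm_ring)
  have hδ2 : ∀ i, δ (Q i) ∈ Fil ℝ Q 2 := by
    intro i
    rw [hδg]
    have h1 := Fil_mul (hu2 i) (gen_mem_Fil (K := ℝ) (G := Q) i)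
    have h2 := Fil_mul (gen_mem_Fil (K := ℝ) (G := Q) i) (hu2 i)
    exact Submodule.sub_mem _ (Fil_mono (by omega) h1) (Fil_mono (by omega) h2)
  have hnil : ∀ i j, (sig δ (u i) (u j)) ^ (N + 1) = 0 := fun i j =>
    sig_nilp (qgen_nilp N r5) (qgen_Fil N r5) hδ hδ2 (hu1 i) (hu1 j)
  -- intertwining
  have hint : ∀ i : Fin 5, ∀ x, ev (Q (i - 1)) (Q (i + 1)) (sOp ψ x) =
      sig δ (u (i + 1)) (u i) (ev (Q (i - 1)) (Q (i + 1)) x) := by
    intro i x
    rw [hus i]
    apply ev_sOp hδ
    · rw [hδg]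
      have h1 : u i = u (i - 1) - qq Q ψ (i - 1) := by
        have := hus (i - 1)
        rwa [sub_add_cancel] at this
      have h2 : Commute (Q (i - 1)) (qq Q ψ (i - 1)) := by
        apply ev_commute
        · have := (conf5_qgen N).1 (i - 1 - 1)
          rw [Ring.lie_def, sub_eq_zero, sub_add_cancel] at this
          exact this.symm
        · have := (conf5_qgen N).1 (i - 1)
          rw [Ring.lie_def, sub_eq_zero] at this
          exact this
      rw [h1, sub_mul, mul_sub, h2.eq]
      noncomm_ring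
    · rw [hδg, hus i]
      rfl
  have hexp : ∀ i : Fin 5, ev (Q (i - 1)) (Q (i + 1)) (expN (sOp ψ) (2 * N) P) =
      expN (sig δ (u (i + 1)) (u i)) (2 * N) (ev (Q (i - 1)) (Q (i + 1)) P) := fun i =>
    expN_transfer (ev (Q (i - 1)) (Q (i + 1))).toLinearMap (sOp ψ) _ (hint i) (2 * N) P
  have main : ev (Q 4) (Q 1) (expN (sOp ψ) (2 * N) P) * ev (Q 3) (Q 0) (expN (sOp ψ) (2 * N) P) *
      ev (Q 2) (Q 4) (expN (sOp ψ) (2 * N) P) * ev (Q 1) (Q 3) (expN (sOp ψ) (2 * N) P) *
      ev (Q 0) (Q 2) (expN (sOp ψ) (2 * N) P) = 1 := by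
    have h0 := hexp 0
    have h1 := hexp 1
    have h2 := hexp 2
    have h3 := hexp 3
    have h4 := hexp 4
    have e1 : (0 : Fin 5) - 1 = 4 := rfl
    have e2 : (0 : Fin 5) + 1 = 1 := rfl
    have e3 : (1 : Fin 5) - 1 = 0 := rfl
    have e4 : (1 : Fin 5) + 1 = 2 := rfl
    have e5 : (2 : Fin 5) - 1 = 1 := rfl
    have e6 : (2 : Fin 5) + 1 = 3 := rfl
    have e7 : (3 : Fin 5) - 1 = 2 := rfl
    have e8 : (3 : Fin 5) + 1 = 4 := rfl
    have e9 : (4 : Fin 5) - 1 = 3 := rfl
    have e10 : (4 : Fin 5) + 1 = 0 := rfl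
    rw [e1, e2] at h0
    rw [e3, e4] at h1
    rw [e5, e6] at h2
    rw [e7, e8] at h3
    rw [e9, e10] at h4
    rw [h0, h1, h2, h3, h4]
    rw [← expN_sig_mul hδ N _ _ _ (hnil _ _) (hnil _ _),
      ← expN_sig_mul hδ N _ _ _ (hnil _ _) (hnil _ _),
      ← expN_sig_mul hδ N _ _ _ (hnil _ _) (hnil _ _),
      ← expN_sig_mul hδ N _ _ _ (hnil _ _) (hnil _ _),
      hP.pent (QN N r5) Q (conf5_qgen N) (qgen_nilp N r5)]
    exact expN_of_ker _ _ _ (sig_one hδ _)
  have := congrArg g main
  simp only [map_mul, map_one, ev_comp, hg] at this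
  exact this

/-! ### group-likeness -/

/-- relations of two commuting pairs -/
inductive r4 : FreeAlgebra ℝ (Fin 4) → FreeAlgebra ℝ (Fin 4) → Prop
  | c02 : r4 (FreeAlgebra.ι ℝ 0 * FreeAlgebra.ι ℝ 2) (FreeAlgebra.ι ℝ 2 * FreeAlgebra.ι ℝ 0)
  | c03 : r4 (FreeAlgebra.ι ℝ 0 * FreeAlgebra.ι ℝ 3) (FreeAlgebra.ι ℝ 3 * FreeAlgebra.ι ℝ 0)
  | c12 : r4 (FreeAlgebra.ι ℝ 1 * FreeAlgebra.ι ℝ 2) (FreeAlgebra.ι ℝ 2 * FreeAlgebra.ι ℝ 1)
  | c13 : r4 (FreeAlgebra.ι ℝ 1 * FreeAlgebra.ι ℝ 3) (FreeAlgebra.ι ℝ 3 * FreeAlgebra.ι ℝ 1)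

theorem mult_act {N n : ℕ} (hn : 3 ≤ n) {P ψ : FreeAlgebra ℝ (Fin 2)}
    (hP : IsAssoc N P) (hψ : ψ ∈ grtR n) (B : Type) [Ring B] [Algebra ℝ B] (a b a' b' : B)
    (hN : Nilp N ![a, b, a', b']) (h1 : Commute a a') (h2 : Commute a b') (h3 : Commute b a')
    (h4 : Commute b b') :
    ev (a + a') (b + b') (expN (sOp ψ) (2 * N) P) =
      ev a b (expN (sOp ψ) (2 * N) P) * ev a' b' (expN (sOp ψ) (2 * N) P) := by
  obtain ⟨g, hg⟩ := exists_qlift N r4 ![a, b, a', b'] (by
    intro x y hxy
    cases hxy with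
    | c02 => simpa using h1.eq
    | c03 => simpa using h2.eq
    | c12 => simpa using h3.eq
    | c13 => simpa using h4.eq) hN
  set Q := qgen N r4 with hQ
  have q02 : Commute (Q 0) (Q 2) := by
    have := qmk_rel N r4 (NRel.base r4.c02)
    rw [map_mul, map_mul] at this
    exact this
  have q03 : Commute (Q 0) (Q 3) := by
    have := qmk_rel N r4 (NRel.base r4.c03)
    rw [map_mul, map_mul] at this
    exact this
  have q12 : Commute (Q 1) (Q 2) := by
    have := qmk_rel N r4 (NRel.base r4.c12)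
    rw [map_mul, map_mul] at this
    exact this
  have q13 : Commute (Q 1) (Q 3) := by
    have := qmk_rel N r4 (NRel.base r4.c13)
    rw [map_mul, map_mul] at this
    exact this
  set ψ1 := ev (Q 0) (Q 1) ψ with hψ1
  set ψ2 := ev (Q 2) (Q 3) ψ with hψ2
  have f1 : ψ1 ∈ Fil ℝ Q 2 := Fil_mono (by omega) (grtR_Fil hψ (gen_mem_Fil _) (gen_mem_Fil _))
  have f2 : ψ2 ∈ Fil ℝ Q 2 := Fil_mono (by omega) (grtR_Fil hψ (gen_mem_Fil _) (gen_mem_Fil _))
  have c0 : Commute (Q 0) ψ2 := ev_commute q02 q03 ψ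
  have c1 : Commute (Q 1) ψ2 := ev_commute q12 q13 ψ
  have c2 : Commute (Q 2) ψ1 := ev_commute q02.symm q12.symm ψ
  have c3 : Commute (Q 3) ψ1 := ev_commute q03.symm q13.symm ψ
  obtain ⟨Y, hY⟩ : ∃ Y : Fin 4 → QN N r4, Y = ![0, Q 1 * ψ1 - ψ1 * Q 1, 0, Q 3 * ψ2 - ψ2 * Q 3] :=
    ⟨_, rfl⟩
  have Y0 : Y 0 = 0 := by rw [hY]; rfl
  have Y1 : Y 1 = Q 1 * ψ1 - ψ1 * Q 1 := by rw [hY]; rfl
  have Y2 : Y 2 = 0 := by rw [hY]; rfl
  have Y3 : Y 3 = Q 3 * ψ2 - ψ2 * Q 3 := by rw [hY]; rfl
  have hYF : ∀ i, Y i ∈ Fil ℝ Q 2 := by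
    intro i
    fin_cases i
    · show Y 0 ∈ _
      rw [Y0]; exact Submodule.zero_mem _
    · show Y 1 ∈ _
      rw [Y1]
      exact Submodule.sub_mem _ (Fil_mono (by omega) (Fil_mul (gen_mem_Fil (K := ℝ) (G := Q) 1) f1))
        (Fil_mono (by omega) (Fil_mul f1 (gen_mem_Fil (K := ℝ) (G := Q) 1)))
    · show Y 2 ∈ _
      rw [Y2]; exact Submodule.zero_mem _
    · show Y 3 ∈ _
      rw [Y3]
      exact Submodule.sub_mem _ (Fil_mono (by omega) (Fil_mul (gen_mem_Fil (K := ℝ) (G := Q) 3) f2))
        (Fil_mono (by omega) (Fil_mul f2 (gen_mem_Fil (K := ℝ) (G := Q) 3)))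
  have k03 : Commute (Q 0) (Y 3) := by
    rw [Y3]; exact (q03.mul_right c0).sub_right (c0.mul_right q03)
  have k13 : Commute (Q 1) (Y 3) := by
    rw [Y3]; exact (q13.mul_right c1).sub_right (c1.mul_right q13)
  have k21 : Commute (Q 2) (Y 1) := by
    rw [Y1]; exact (q12.symm.mul_right c2).sub_right (c2.mul_right q12.symm)
  have k31 : Commute (Q 3) (Y 1) := by
    rw [Y1]; exact (q13.symm.mul_right c3).sub_right (c3.mul_right q13.symm)
  obtain ⟨δ, hδ, hδg⟩ := exists_qder N r4 Y hYF (by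
    intro x y hxy
    cases hxy with
    | c02 =>
      rw [derL_mul, derL_mul]
      simp only [derL_ι, FreeAlgebra.lift_ι_apply, Y0, Y2, mul_zero, zero_mul]
    | c03 =>
      rw [derL_mul, derL_mul]
      simp only [derL_ι, FreeAlgebra.lift_ι_apply, Y0, mul_zero, zero_mul, add_zero, zero_add]
      exact k03.eq
    | c12 =>
      rw [derL_mul, derL_mul]
      simp only [derL_ι, FreeAlgebra.lift_ι_apply, Y2, mul_zero, zero_mul, add_zero, zero_add]
      exact k21.eq.symm
    | c13 =>
      rw [derL_mul, derL_mul]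
      simp only [derL_ι, FreeAlgebra.lift_ι_apply]
      rw [add_comm]
      exact congrArg₂ (· + ·) k31.eq.symm k13.eq)
  have hδ2 : ∀ i, δ (Q i) ∈ Fil ℝ Q 2 := fun i => by rw [hδg]; exact hYF i
  have g1 : ψ1 ∈ Fil ℝ Q 1 := Fil_mono (by omega) f1
  have g2 : ψ2 ∈ Fil ℝ Q 1 := Fil_mono (by omega) f2
  have hnil : ∀ v w, v ∈ Fil ℝ Q 1 → w ∈ Fil ℝ Q 1 → (sig δ v w) ^ (N + 1) = 0 := fun v w hv hw =>
    sig_nilp (qgen_nilp N r4) (qgen_Fil N r4) hδ hδ2 hv hw
  have i1 : ∀ x, ev (Q 0) (Q 1) (sOp ψ x) = sig δ (-ψ2 - ψ1) (-ψ2) (ev (Q 0) (Q 1) x) := by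
    intro x
    apply ev_sOp hδ
    · rw [hδg, Y0, neg_mul, mul_neg, c0.eq]; abel
    · rw [hδg, Y1, ← hψ1, sub_mul, mul_sub, neg_mul, mul_neg, c1.eq]; abel
  have i2 : ∀ x, ev (Q 2) (Q 3) (sOp ψ x) = sig δ (-ψ2) 0 (ev (Q 2) (Q 3) x) := by
    intro x
    have := ev_sOp hδ (Q 2) (Q 3) 0 ψ (by rw [hδg, Y2]; simp)
      (by rw [hδg, Y3, ← hψ2]; noncomm_ring) x
    rw [this, zero_sub]
  have hadd : ev (Q 0 + Q 2) (Q 1 + Q 3) ψ = ψ1 + ψ2 := grtR_add hψ q02 q03 q12 q13
  have i3 : ∀ x, ev (Q 0 + Q 2) (Q 1 + Q 3) (sOp ψ x) =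
      sig δ (-ψ2 - ψ1) 0 (ev (Q 0 + Q 2) (Q 1 + Q 3) x) := by
    intro x
    have := ev_sOp hδ (Q 0 + Q 2) (Q 1 + Q 3) 0 ψ (by rw [map_add, hδg, hδg, Y2, Y0]; simp)
      (by
        rw [map_add, hδg, hδg, Y3, Y1, hadd]
        simp only [zero_sub, neg_mul, mul_neg, add_mul, mul_add, c1.eq, c3.eq]
        abel) x
    rw [this, hadd]
    congr 2
    abel
  have e1 := expN_transfer (ev (Q 0) (Q 1)).toLinearMap (sOp ψ) _ i1 (2 * N) P
  have e2 := expN_transfer (ev (Q 2) (Q 3)).toLinearMap (sOp ψ) _ i2 (2 * N) P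
  have e3 := expN_transfer (ev (Q 0 + Q 2) (Q 1 + Q 3)).toLinearMap (sOp ψ) _ i3 (2 * N) P
  simp only [AlgHom.toLinearMap_apply] at e1 e2 e3
  have main : ev (Q 0 + Q 2) (Q 1 + Q 3) (expN (sOp ψ) (2 * N) P) =
      ev (Q 0) (Q 1) (expN (sOp ψ) (2 * N) P) * ev (Q 2) (Q 3) (expN (sOp ψ) (2 * N) P) := by
    rw [e1, e2, e3, ← expN_sig_mul hδ N _ _ _
      (hnil _ _ (Submodule.sub_mem _ (Submodule.neg_mem _ g2) g1) (Submodule.neg_mem _ g2))
      (hnil _ _ (Submodule.neg_mem _ g2) (Submodule.zero_mem _)),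
      hP.mult (QN N r4) (Q 0) (Q 1) (Q 2) (Q 3) (by
        have : ![Q 0, Q 1, Q 2, Q 3] = Q := by
          ext i; fin_cases i <;> rfl
        rw [this]
        exact qgen_nilp N r4) q02 q03 q12 q13]
  have := congrArg g main
  rw [map_mul, ev_comp, ev_comp, ev_comp, map_add, map_add, hg, hg, hg, hg] at this
  exact this

/-! ### normalisation -/

theorem comm_act {N n : ℕ} (hn : 3 ≤ n) {P ψ : FreeAlgebra ℝ (Fin 2)}
    (hψ : ψ ∈ grtR n) {B : Type} [Ring B] [Algebra ℝ B] {a b : B} (hab : Commute a b) :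
    ev a b (expN (sOp ψ) (2 * N) P) = ev a b P := by
  have h0 : ev a b ψ = 0 := grtR_abelian (by omega) hψ hab
  have h : ∀ x, ev a b (sOp ψ x) = sig (0 : B →ₗ[ℝ] B) 0 0 (ev a b x) := by
    intro x
    have := ev_sOp (δ := (0 : B →ₗ[ℝ] B)) (by intro x y; simp) a b 0 ψ (by simp)
      (by rw [h0]; simp) x
    rw [this, h0, sub_zero]
  have e := expN_transfer (ev a b).toLinearMap (sOp ψ) _ h (2 * N) P
  simp only [AlgHom.toLinearMap_apply] at e
  rw [e]
  apply expN_of_ker
  rw [sig_apply]; simp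

end Crest.Agent.R010.EDx

namespace Crest.Agent.R010

open EDx

theorem ED_of (hEB2 : EB2) : ED := by
  intro N n P ψ hn hnN hP hψ
  have hJ : 1 ≤ 2 * N := by omega
  have hnil0 : cf ([] : List (Fin 2)) ψ = 0 := grtR_homog hψ [] (by simp; omega)
  have hε : ∀ x, cf ([] : List (Fin 2)) (sOp ψ x) = 0 := by
    intro x
    rw [cf_sOp_short hψ [] (by simp), hnil0, zero_mul]
  refine ⟨expN (sOp ψ) (2 * N) P, ⟨?_, ?_, ?_, ?_⟩, ?_, ?_, ?_⟩
  · intro B _ _ R hR hN
    exact pent_act hEB2 hn hP hψ B R hR hN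
  · intro B _ _ a b a' b' hN h1 h2 h3 h4
    exact mult_act hn hP hψ B a b a' b' hN h1 h2 h3 h4
  · intro B _ _ a hN
    rw [comm_act hn hψ (Commute.zero_right a)]
    exact hP.left B a hN
  · intro B _ _ b hN
    rw [comm_act hn hψ (Commute.zero_left b)]
    exact hP.right B b hN
  · intro w hw
    rw [expN_functional (sOp ψ) (2 * N) hJ (cf w) (cf ([] : List (Fin 2))) (cf w ψ)
      (cf_sOp_short hψ w (by omega)) hε, grtR_homog hψ w (by omega), zero_mul, add_zero]
  · intro w hw
    rw [expN_functional (sOp ψ) (2 * N) hJ (cf w) (cf ([] : List (Fin 2))) (cf w ψ)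
      (cf_sOp_short hψ w (by omega)) hε, IsAssoc.cf_nil hP, mul_one]
  · intro m hm hmN
    rw [expN_functional (sOp ψ) (2 * N) hJ (cf (dep1 m)) (cf ([] : List (Fin 2))) (cf (dep1 m) ψ)
      (cf_sOp_dep1 (by omega) hψ m) hε, grtR_homog hψ (dep1 m) (by
        rw [dep1, List.length_append, List.length_replicate, List.length_singleton]; omega),
      zero_mul, add_zero]

end Crest.Agent.R010
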