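import Crest.Agent.R010.EDefs
import Mathlib
import Crest.Agent.R010.ES3

-- ▼ part R010/EECf
section

/-!
# Row 10: word coefficients of free algebras (API for `cf`, helper477)
-/

set_option autoImplicit false

noncomputable section
namespace Crest.Agent.R010

section
variable {K : Type*} [CommRing K] {X : Type*}

/-- the word `w` as an element of the free algebra -/
def wd (K : Type*) [CommRing K] {X : Type*} (w : List X) : FreeAlgebra K X :=
  (w.map (FreeAlgebra.ι K)).prod

@[simp] theorem wd_nil : wd K ([] : List X) = 1 := rfl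

@[simp] theorem wd_cons (x : X) (w : List X) : wd K (x :: w) = FreeAlgebra.ι K x * wd K w := by
  simp [wd]


theorem equiv_wd (w : List X) :
    FreeAlgebra.equivMonoidAlgebraFreeMonoid (wd K w) =
      MonoidAlgebra.single (FreeMonoid.ofList w) (1 : K) := by
  induction w with
  | nil => rw [wd_nil, map_one, MonoidAlgebra.one_def]; rfl
  | cons x w ih =>
    rw [wd_cons, map_mul, ih]
    have : FreeAlgebra.equivMonoidAlgebraFreeMonoid (FreeAlgebra.ι K x) =
        (MonoidAlgebra.single (FreeMonoid.of x) (1 : K) : MonoidAlgebra K (FreeMonoid X)) := by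
      simp [FreeAlgebra.equivMonoidAlgebraFreeMonoid]
    rw [this, MonoidAlgebra.single_mul_single, mul_one]
    rfl

open Classical in
theorem cf_wd (w v : List X) : cf w (wd K v) = if v = w then 1 else 0 := by
  show (FreeAlgebra.equivMonoidAlgebraFreeMonoid (wd K v)).coeff (FreeMonoid.ofList w) = _
  rw [equiv_wd, MonoidAlgebra.coeff_single, Finsupp.single_apply]
  simp

/-- `K`-linear combinations of words -/
theorem fa_induction {C : FreeAlgebra K X → Prop}
    (hadd : ∀ f g, C f → C g → C (f + g)) (hwd : ∀ (r : K) (w : List X), C (r • wd K w))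
    (f : FreeAlgebra K X) : C f := by
  have key : ∀ g : MonoidAlgebra K (FreeMonoid X),
      C (FreeAlgebra.equivMonoidAlgebraFreeMonoid.symm g) := by
    intro g
    induction g using MonoidAlgebra.induction_linear with
    | zero =>
      rw [map_zero]
      have := hwd 0 []
      rwa [zero_smul] at this
    | add f g hf hg => rw [map_add]; exact hadd _ _ hf hg
    | single m r =>
      have : (FreeAlgebra.equivMonoidAlgebraFreeMonoid.symm
          (MonoidAlgebra.single m r : MonoidAlgebra K (FreeMonoid X))) =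
          r • wd K (FreeMonoid.toList m) := by
        apply FreeAlgebra.equivMonoidAlgebraFreeMonoid.injective
        rw [AlgEquiv.apply_symm_apply, map_smul, equiv_wd, MonoidAlgebra.smul_single]
        simp
      rw [this]
      exact hwd _ _
  have := key (FreeAlgebra.equivMonoidAlgebraFreeMonoid f)
  rwa [AlgEquiv.symm_apply_apply] at this

theorem ext_cf {f g : FreeAlgebra K X} (h : ∀ w, cf w f = cf w g) : f = g := by
  apply FreeAlgebra.equivMonoidAlgebraFreeMonoid.injective
  apply MonoidAlgebra.coeff_injective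
  ext m
  exact h (FreeMonoid.toList m)

end

/-! ### evaluation of words -/

section
variable {K : Type*} [CommRing K] {B : Type*} [Ring B] [Algebra K B]

/-- value of a word -/
def wv (a b : B) (w : List (Fin 2)) : B := (w.map (fun i : Fin 2 => if i = 0 then a else b)).prod

@[simp] theorem wv_nil (a b : B) : wv a b [] = 1 := rfl

@[simp] theorem wv_cons (a b : B) (i : Fin 2) (w : List (Fin 2)) :
    wv a b (i :: w) = (if i = 0 then a else b) * wv a b w := by
  simp [wv]

theorem ev_wd (a b : B) (w : List (Fin 2)) : ev a b (wd K w) = wv a b w := by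
  induction w with
  | nil => simp
  | cons x w ih => rw [wd_cons, map_mul, ih, wv_cons]; simp [ev]

end

/-! ### words of length `n` -/

/-- the finite set of words of length `n` -/
def wdsN (n : ℕ) : Finset (List (Fin 2)) :=
  Finset.univ.image (fun v : Fin n → Fin 2 => List.ofFn v)

@[simp] theorem mem_wdsN {n : ℕ} {w : List (Fin 2)} : w ∈ wdsN n ↔ w.length = n := by
  unfold wdsN
  rw [Finset.mem_image]
  constructor
  · rintro ⟨v, _, rfl⟩
    simp
  · rintro rfl
    exact ⟨fun i => w[i], Finset.mem_univ _, by simp⟩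

theorem cf_sum_wdsN {K : Type*} [CommRing K] (n : ℕ) (c : List (Fin 2) → K) (w : List (Fin 2)) :
    cf w (∑ v ∈ wdsN n, c v • wd K v) = if w.length = n then c w else 0 := by
  classical
  rw [map_sum]
  simp only [map_smul, cf_wd, smul_eq_mul, mul_ite, mul_one, mul_zero]
  rw [Finset.sum_ite_eq']
  simp

end Crest.Agent.R010
end
end

-- ▼ part R010/EECore
section

/-!
# Row 10, module (E-E), general lemmas (helper477)

* `coeff_mul_diff`: first order comparison of products of power series over a noncommutative ring;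
* `TruncCon`: the truncation `W⟦t⟧/(t^{M+1})` as a quotient by a ring congruence;
* `lamT`: extension of a `ℚ`-linear functional `ℝ → ℚ` to `ℝ ⊗ U → U`.
-/

set_option autoImplicit false

noncomputable section
namespace Crest.Agent.R010.EE

open PowerSeries TensorProduct

/-! ### first order comparison -/

section Diff
variable {W : Type*} [Ring W]

theorem coeff_mul_diff {n : ℕ} (hn : 0 < n) {f g f' g' : PowerSeries W}
    (hf : ∀ m < n, coeff m f = coeff m f') (hg : ∀ m < n, coeff m g = coeff m g')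
    (hf0 : coeff 0 f = 1) (hg0 : coeff 0 g = 1) :
    coeff n (f * g) - coeff n (f' * g') =
      (coeff n f - coeff n f') + (coeff n g - coeff n g') := by
  have hf0' : coeff 0 f' = 1 := by rw [← hf 0 hn, hf0]
  have hg0' : coeff 0 g' = 1 := by rw [← hg 0 hn, hg0]
  rw [coeff_mul, coeff_mul, ← Finset.sum_sub_distrib]
  obtain ⟨m, rfl⟩ : ∃ m, n = m + 1 := ⟨n - 1, by omega⟩
  have h0 : ((0, m + 1) : ℕ × ℕ) ∈ Finset.HasAntidiagonal.antidiagonal (m + 1) := by simp
  have h1 : ((m + 1, 0) : ℕ × ℕ) ∈ (Finset.HasAntidiagonal.antidiagonal (m + 1)).erase (0, m + 1) := by simp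
  rw [← Finset.add_sum_erase _ _ h0, ← Finset.add_sum_erase _ _ h1, Finset.sum_eq_zero]
  · simp only [hf0, hg0, hf0', hg0', one_mul, mul_one]
    abel
  · rintro ⟨a, b⟩ hab
    simp only [Finset.mem_erase, Finset.HasAntidiagonal.mem_antidiagonal, ne_eq, Prod.mk.injEq] at hab
    have ha : a < m + 1 := by omega
    have hb : b < m + 1 := by omega
    rw [hf a ha, hg b hb, sub_self]

theorem coeff_mul_congr {n : ℕ} {f g f' g' : PowerSeries W}
    (hf : ∀ m < n, coeff m f = coeff m f') (hg : ∀ m < n, coeff m g = coeff m g') :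
    ∀ m < n, coeff m (f * g) = coeff m (f' * g') := by
  intro m hm
  rw [coeff_mul, coeff_mul]
  refine Finset.sum_congr rfl fun p hp => ?_
  rw [Finset.HasAntidiagonal.mem_antidiagonal] at hp
  rw [hf _ (by omega), hg _ (by omega)]

theorem coeff_zero_mul' {f g : PowerSeries W} (hf : coeff 0 f = 1) (hg : coeff 0 g = 1) :
    coeff 0 (f * g) = 1 := by
  rw [coeff_mul]
  simp [hf, hg]

end Diff

/-! ### truncation -/

section Trunc
variable (W : Type*) [Ring W]

/-- the congruence "equal coefficients up to degree `M`" -/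
def TruncCon (M : ℕ) : RingCon (PowerSeries W) where
  r f g := ∀ m ≤ M, coeff m f = coeff m g
  iseqv := ⟨fun _ _ _ => rfl, fun h m hm => (h m hm).symm, fun h h' m hm => (h m hm).trans (h' m hm)⟩
  mul' := by
    intro a b c d h h' m hm
    exact coeff_mul_congr (n := M + 1) (fun k hk => h k (by omega)) (fun k hk => h' k (by omega)) m
      (by omega)
  add' := by
    intro a b c d h h' m hm
    simp only [map_add, h m hm, h' m hm]

theorem truncCon_iff {M : ℕ} {f g : PowerSeries W} :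
    (f : (TruncCon W M).Quotient) = g ↔ ∀ m ≤ M, coeff m f = coeff m g := by
  rw [RingCon.eq]
  rfl

end Trunc

/-! ### extension of `ℚ`-linear functionals -/

section Lam
variable {U : Type*} [Ring U] [Algebra ℚ U]

/-- `λ ⊗ id : ℝ ⊗ U → U` -/
def lamT (lam : ℝ →ₗ[ℚ] ℚ) : ℝ ⊗[ℚ] U →ₗ[ℚ] U :=
  (TensorProduct.lid ℚ U).toLinearMap ∘ₗ TensorProduct.map lam LinearMap.id

@[simp] theorem lamT_tmul (lam : ℝ →ₗ[ℚ] ℚ) (r : ℝ) (u : U) :
    lamT lam (r ⊗ₜ[ℚ] u) = lam r • u := by
  simp [lamT]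

/-- `u ↦ 1 ⊗ u` -/
abbrev inR : U →ₐ[ℚ] ℝ ⊗[ℚ] U := Algebra.TensorProduct.includeRight

theorem lamT_smul_inR (lam : ℝ →ₗ[ℚ] ℚ) (r : ℝ) (u : U) :
    lamT lam (r • (inR u : ℝ ⊗[ℚ] U)) = lam r • u := by
  rw [Algebra.TensorProduct.includeRight_apply, TensorProduct.smul_tmul']
  simp

end Lam

end Crest.Agent.R010.EE
end
end

-- ▼ part R010/EE1

/-!
# Row 10, (EE1): the lowest degree difference of two truncated associators (helper477)
-/

set_option autoImplicit false
open Crest.NumberTheoryR.GT PowerSeries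
open scoped TensorProduct

noncomputable section
namespace Crest.Agent.R010

attribute [local instance 100] LieRing.ofAssociativeRing

namespace EE

section pser
variable {W : Type} [Ring W] [Algebra ℝ W]

/-- `P(t a, t b)` -/
def pser (a b : W) : FreeAlgebra ℝ (Fin 2) →ₐ[ℝ] PowerSeries W :=
  ev (PowerSeries.monomial 1 a) (PowerSeries.monomial 1 b)

omit [Algebra ℝ W] in
theorem wv_monomial (a b : W) (w : List (Fin 2)) :
    wv (PowerSeries.monomial 1 a) (PowerSeries.monomial 1 b) w =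
      PowerSeries.monomial w.length (wv a b w) := by
  induction w with
  | nil => simp
  | cons i w ih =>
    rw [wv_cons, ih, wv_cons, List.length_cons]
    by_cases hi : i = 0
    · simp only [hi, if_true]
      rw [PowerSeries.monomial_mul_monomial, add_comm]
    · simp only [hi, if_false]
      rw [PowerSeries.monomial_mul_monomial, add_comm]

theorem pser_wd (a b : W) (w : List (Fin 2)) :
    pser a b (wd ℝ w) = PowerSeries.monomial w.length (wv a b w) := by
  rw [pser, ev_wd, wv_monomial]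

theorem coeff_pser (a b : W) (m : ℕ) (P : FreeAlgebra ℝ (Fin 2)) :
    coeff m (pser a b P) = ∑ w ∈ wdsN m, cf w P • wv a b w := by
  classical
  induction P using fa_induction with
  | hadd f g hf hg =>
    rw [map_add, map_add, hf, hg, ← Finset.sum_add_distrib]
    refine Finset.sum_congr rfl fun w _ => ?_
    rw [map_add, add_smul]
  | hwd r v =>
    rw [map_smul, pser_wd]
    have h1 : coeff m (r • PowerSeries.monomial v.length (wv a b v)) =
        r • (if m = v.length then wv a b v else 0) := by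
      rw [← PowerSeries.coeff_monomial]
      rfl
    rw [h1]
    simp only [map_smul, cf_wd, smul_eq_mul, mul_ite, mul_one, mul_zero]
    by_cases h : v.length = m
    · rw [if_pos h.symm, Finset.sum_eq_single v]
      · rw [if_pos rfl]
      · intro w _ hw
        rw [if_neg (Ne.symm hw), zero_smul]
      · intro hv
        exact absurd (mem_wdsN.2 h) hv
    · rw [if_neg (Ne.symm h), smul_zero, Finset.sum_eq_zero]
      intro w hw
      rw [if_neg, zero_smul]
      rintro rfl
      exact h (mem_wdsN.1 hw)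

end pser

/-! ### transfer from the truncated power series algebra -/

section transfer
variable {W : Type} [Ring W] [Algebra ℝ W] (N : ℕ)

/-- truncation -/
abbrev TB (W : Type) [Ring W] (N : ℕ) : Type := (TruncCon W N).Quotient

/-- the projection `W⟦t⟧ → W⟦t⟧/t^{N+1}` -/
def qN : PowerSeries W →ₐ[ℝ] TB W N := (TruncCon W N).mkₐ ℝ

theorem qN_eq_iff {f g : PowerSeries W} :
    qN N f = qN N g ↔ ∀ m ≤ N, coeff m f = coeff m g := by
  rw [← truncCon_iff]
  rfl

/-- the element `t x` -/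
def tx (x : W) : TB W N := qN N (PowerSeries.monomial 1 x)

theorem tx_mul (x y : W) : tx N x * tx N y = qN N (PowerSeries.monomial 2 (x * y)) := by
  rw [tx, tx, ← map_mul, PowerSeries.monomial_mul_monomial]

theorem tx_add (x y : W) : tx N (x + y) = tx N x + tx N y := by
  rw [tx, tx, tx, ← map_add, ← map_add]

theorem tx_zero : tx N (0 : W) = 0 := by
  rw [tx, map_zero, map_zero]

theorem tx_commute {x y : W} (h : Commute x y) : Commute (tx N x) (tx N y) := by
  show tx N x * tx N y = tx N y * tx N x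
  rw [tx_mul, tx_mul, h.eq]

theorem tx_lie (x y : W) : ⁅tx N x, tx N y⁆ = qN N (PowerSeries.monomial 2 ⁅x, y⁆) := by
  rw [LieRing.of_associative_ring_bracket, LieRing.of_associative_ring_bracket, tx_mul, tx_mul,
    ← map_sub, ← map_sub]

theorem nilp_tx {ι : Type*} (x : ι → W) : Nilp N (fun i => tx N (x i)) := by
  intro l hl
  have key : ∀ l : List ι, (l.map (fun i => tx N (x i))).prod =
      qN N (PowerSeries.monomial l.length (l.map x).prod) := by
    intro l
    induction l with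
    | nil => simp
    | cons i l ih =>
      rw [List.map_cons, List.prod_cons, ih, tx, ← map_mul, PowerSeries.monomial_mul_monomial,
        List.map_cons, List.prod_cons, List.length_cons, add_comm]
  rw [key, hl, ← map_zero (qN (W := W) N), qN_eq_iff]
  intro m hm
  rw [PowerSeries.coeff_monomial, if_neg (by omega), map_zero]

theorem conf5_tx {R : Fin 5 → W} (h : Conf5 R) : Conf5 (fun i => tx N (R i)) := by
  refine ⟨fun i => ?_, ?_⟩
  · rw [tx_lie, h.1 i, map_zero, map_zero]
  · have : ∀ i, ⁅tx N (R i), tx N (R (i + 2))⁆ =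
        qN N (PowerSeries.monomial 2 ⁅R i, R (i + 2)⁆) := fun i => tx_lie N _ _
    rw [Finset.sum_congr rfl fun i _ => this i, ← map_sum, ← map_sum, h.2, map_zero, map_zero]

theorem ev_tx (a b : W) (P : FreeAlgebra ℝ (Fin 2)) :
    ev (tx N a) (tx N b) P = qN N (pser a b P) := by
  have : (ev (tx N a) (tx N b) : FreeAlgebra ℝ (Fin 2) →ₐ[ℝ] TB W N) =
      (qN N).comp (pser a b) := by
    apply FreeAlgebra.hom_ext
    funext i
    by_cases hi : i = 0 <;> simp [ev, pser, hi, tx]
  rw [this]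
  rfl

variable {N} {P : FreeAlgebra ℝ (Fin 2)}

theorem assoc_left (hP : IsAssoc N P) (a : W) : ∀ m ≤ N, coeff m (pser a 0 P) = coeff m (1 : PowerSeries W) := by
  rw [← qN_eq_iff, ← ev_tx, tx_zero, map_one]
  apply hP.left
  intro l hl
  have := nilp_tx (W := W) N ![a] l hl
  rw [← this]
  congr 2
  funext i
  fin_cases i; rfl

theorem assoc_right (hP : IsAssoc N P) (a : W) : ∀ m ≤ N, coeff m (pser 0 a P) = coeff m (1 : PowerSeries W) := by
  rw [← qN_eq_iff, ← ev_tx, tx_zero, map_one]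
  apply hP.right
  intro l hl
  have := nilp_tx (W := W) N ![a] l hl
  rw [← this]
  congr 2
  funext i
  fin_cases i; rfl

theorem assoc_mult (hP : IsAssoc N P) {a b a' b' : W} (h1 : Commute a a') (h2 : Commute a b')
    (h3 : Commute b a') (h4 : Commute b b') :
    ∀ m ≤ N, coeff m (pser (a + a') (b + b') P) = coeff m (pser a b P * pser a' b' P) := by
  rw [← qN_eq_iff, ← ev_tx, map_mul, ← ev_tx, ← ev_tx, tx_add, tx_add]
  apply hP.mult _ _ _ _ _ _ (tx_commute N h1) (tx_commute N h2) (tx_commute N h3) (tx_commute N h4)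
  intro l hl
  have := nilp_tx (W := W) N ![a, b, a', b'] l hl
  rw [← this]
  congr 2
  funext i
  fin_cases i <;> rfl

theorem assoc_pent (hP : IsAssoc N P) {R : Fin 5 → W} (h : Conf5 R) :
    ∀ m ≤ N, coeff m (pser (R 4) (R 1) P * pser (R 3) (R 0) P * pser (R 2) (R 4) P *
      pser (R 1) (R 3) P * pser (R 0) (R 2) P) = coeff m (1 : PowerSeries W) := by
  rw [← qN_eq_iff, map_mul, map_mul, map_mul, map_mul, ← ev_tx, ← ev_tx, ← ev_tx, ← ev_tx,
    ← ev_tx, map_one]
  exact hP.pent _ (fun i => tx N (R i)) (conf5_tx N h) (nilp_tx N R)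

end transfer

/-! ### the difference in the lowest degree -/

section diff
variable {W : Type} [Ring W] [Algebra ℝ W] {N n : ℕ} {P Q : FreeAlgebra ℝ (Fin 2)}

/-- difference of the degree `n` parts -/
def dd (n : ℕ) (P Q : FreeAlgebra ℝ (Fin 2)) (a b : W) : W :=
  coeff n (pser a b Q) - coeff n (pser a b P)

theorem pser_congr (h : ∀ w : List (Fin 2), w.length < n → cf w P = cf w Q) (a b : W) :
    ∀ m < n, coeff m (pser a b Q) = coeff m (pser a b P) := by
  intro m hm
  rw [coeff_pser, coeff_pser]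
  refine Finset.sum_congr rfl fun w hw => ?_
  rw [h w (by rw [mem_wdsN.1 hw]; exact hm)]

theorem pser_zero (hP : IsAssoc N P) (a b : W) : coeff 0 (pser a b P) = 1 := by
  have h := assoc_left hP (0 : W) 0 (Nat.zero_le _)
  rw [coeff_pser] at h ⊢
  have e : wdsN 0 = {[]} := by
    ext w
    rw [mem_wdsN, Finset.mem_singleton, List.length_eq_zero_iff]
  rw [e, Finset.sum_singleton, wv_nil] at h ⊢
  rw [h]
  simp

theorem dd_left (hnN : n ≤ N) (hP : IsAssoc N P) (hQ : IsAssoc N Q) (a : W) :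
    dd n P Q a 0 = 0 := by
  rw [dd, assoc_left hP a n hnN, assoc_left hQ a n hnN, sub_self]

theorem dd_right (hnN : n ≤ N) (hP : IsAssoc N P) (hQ : IsAssoc N Q) (a : W) :
    dd n P Q 0 a = 0 := by
  rw [dd, assoc_right hP a n hnN, assoc_right hQ a n hnN, sub_self]

theorem dd_mult (hn : 0 < n) (hnN : n ≤ N) (hP : IsAssoc N P) (hQ : IsAssoc N Q)
    (h : ∀ w : List (Fin 2), w.length < n → cf w P = cf w Q)
    {a b a' b' : W} (h1 : Commute a a') (h2 : Commute a b')
    (h3 : Commute b a') (h4 : Commute b b') :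
    dd n P Q (a + a') (b + b') = dd n P Q a b + dd n P Q a' b' := by
  rw [dd, assoc_mult hP h1 h2 h3 h4 n hnN, assoc_mult hQ h1 h2 h3 h4 n hnN,
    coeff_mul_diff hn (pser_congr h a b) (pser_congr h a' b') (pser_zero hQ a b)
      (pser_zero hQ a' b')]
  rfl

theorem dd_pent (hn : 0 < n) (hnN : n ≤ N) (hP : IsAssoc N P) (hQ : IsAssoc N Q)
    (h : ∀ w : List (Fin 2), w.length < n → cf w P = cf w Q) {R : Fin 5 → W} (hR : Conf5 R) :
    ∑ i, dd n P Q (R (i - 1)) (R (i + 1)) = 0 := by
  have e1 := assoc_pent hP hR n hnN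
  have e2 := assoc_pent hQ hR n hnN
  have c := fun a b : W => pser_congr h a b
  have z := fun a b : W => pser_zero hQ a b
  have c2 := coeff_mul_congr (c (R 4) (R 1)) (c (R 3) (R 0))
  have c3 := coeff_mul_congr c2 (c (R 2) (R 4))
  have c4 := coeff_mul_congr c3 (c (R 1) (R 3))
  have z2 := coeff_zero_mul' (z (R 4) (R 1)) (z (R 3) (R 0))
  have z3 := coeff_zero_mul' z2 (z (R 2) (R 4))
  have z4 := coeff_zero_mul' z3 (z (R 1) (R 3))
  have d5 := coeff_mul_diff hn c4 (c (R 0) (R 2)) z4 (z (R 0) (R 2))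
  rw [coeff_mul_diff hn c3 (c (R 1) (R 3)) z3 (z (R 1) (R 3)),
    coeff_mul_diff hn c2 (c (R 2) (R 4)) z2 (z (R 2) (R 4)),
    coeff_mul_diff hn (c (R 4) (R 1)) (c (R 3) (R 0)) (z (R 4) (R 1)) (z (R 3) (R 0)),
    e1, e2, sub_self] at d5
  rw [Fin.sum_univ_five, d5]
  show dd n P Q (R 4) (R 1) + dd n P Q (R 0) (R 2) + dd n P Q (R 1) (R 3) + dd n P Q (R 2) (R 4) +
    dd n P Q (R 3) (R 0) = _
  unfold dd
  abel

end diff

/-! ### descent to `ℚ` -/

section descent
variable {N n : ℕ} {P Q : FreeAlgebra ℝ (Fin 2)}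

/-- `∑ λ(cf w Q - cf w P) w` -/
def fL (lam : ℝ →ₗ[ℚ] ℚ) (n : ℕ) (P Q : FreeAlgebra ℝ (Fin 2)) : FreeAlgebra ℚ (Fin 2) :=
  ∑ w ∈ wdsN n, lam (cf w Q - cf w P) • wd ℚ w

theorem cf_fL (lam : ℝ →ₗ[ℚ] ℚ) (w : List (Fin 2)) :
    cf w (fL lam n P Q) = if w.length = n then lam (cf w Q - cf w P) else 0 :=
  cf_sum_wdsN n _ w

theorem homog_fL (lam : ℝ →ₗ[ℚ] ℚ) : Homog n (fL lam n P Q) := by
  intro w hw
  rw [cf_fL, if_neg hw]

variable {U : Type} [Ring U] [Algebra ℚ U]

theorem wv_inR (a b : U) (w : List (Fin 2)) :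
    wv (inR a : ℝ ⊗[ℚ] U) (inR b) w = inR (wv a b w) := by
  induction w with
  | nil => rw [wv_nil, wv_nil, map_one]
  | cons i w ih =>
    rw [wv_cons, wv_cons, ih, map_mul]
    by_cases hi : i = 0 <;> simp [hi]

theorem lamT_dd (lam : ℝ →ₗ[ℚ] ℚ) (a b : U) :
    lamT lam (dd n P Q (inR a : ℝ ⊗[ℚ] U) (inR b)) = ev a b (fL lam n P Q) := by
  rw [dd, coeff_pser, coeff_pser, ← Finset.sum_sub_distrib, fL, map_sum, map_sum]
  refine Finset.sum_congr rfl fun w _ => ?_
  rw [← sub_smul, wv_inR, lamT_smul_inR, map_smul, ev_wd]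

theorem inR_commute {a b : U} (h : Commute a b) : Commute (inR a : ℝ ⊗[ℚ] U) (inR b) := by
  show inR a * inR b = inR b * inR a
  rw [← map_mul, h.eq, map_mul]

theorem fL_left (hnN : n ≤ N) (hP : IsAssoc N P) (hQ : IsAssoc N Q)
    (lam : ℝ →ₗ[ℚ] ℚ) (a : U) : ev a 0 (fL lam n P Q) = 0 := by
  rw [← lamT_dd, map_zero, dd_left hnN hP hQ, map_zero]

theorem fL_right (hnN : n ≤ N) (hP : IsAssoc N P) (hQ : IsAssoc N Q)
    (lam : ℝ →ₗ[ℚ] ℚ) (a : U) : ev 0 a (fL lam n P Q) = 0 := by
  rw [← lamT_dd, map_zero, dd_right hnN hP hQ, map_zero]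

theorem fL_mult (hn : 0 < n) (hnN : n ≤ N) (hP : IsAssoc N P) (hQ : IsAssoc N Q)
    (h : ∀ w : List (Fin 2), w.length < n → cf w P = cf w Q) (lam : ℝ →ₗ[ℚ] ℚ)
    {a b a' b' : U} (h1 : Commute a a') (h2 : Commute a b')
    (h3 : Commute b a') (h4 : Commute b b') :
    ev (a + a') (b + b') (fL lam n P Q) = ev a b (fL lam n P Q) + ev a' b' (fL lam n P Q) := by
  rw [← lamT_dd, ← lamT_dd, ← lamT_dd, map_add, map_add,
    dd_mult hn hnN hP hQ h (inR_commute h1) (inR_commute h2) (inR_commute h3) (inR_commute h4),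
    map_add]

theorem conf5_ring_iff {B : Type*} [Ring B] (R : Fin 5 → B) :
    @Conf5 B LieRing.ofAssociativeRing R ↔ (∀ i, R i * R (i + 1) - R (i + 1) * R i = 0) ∧
      ∑ i, (R i * R (i + 2) - R (i + 2) * R i) = 0 := Iff.rfl

theorem conf5_inR {R : Fin 5 → U} (h : Conf5 R) :
    @Conf5 (ℝ ⊗[ℚ] U) LieRing.ofAssociativeRing (fun i => (inR (R i) : ℝ ⊗[ℚ] U)) := by
  have h' := (conf5_ring_iff R).1 h
  rw [conf5_ring_iff]
  refine ⟨fun i => ?_, ?_⟩
  · rw [← map_mul, ← map_mul, ← map_sub, h'.1 i, map_zero]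
  · have e : ∀ i, (inR (R i) : ℝ ⊗[ℚ] U) * inR (R (i + 2)) - inR (R (i + 2)) * inR (R i) =
        inR (R i * R (i + 2) - R (i + 2) * R i) := by
      intro i
      rw [map_sub, map_mul, map_mul]
    rw [Finset.sum_congr rfl fun i _ => e i, ← map_sum, h'.2, map_zero]

theorem fL_pent (hn : 0 < n) (hnN : n ≤ N) (hP : IsAssoc N P) (hQ : IsAssoc N Q)
    (h : ∀ w : List (Fin 2), w.length < n → cf w P = cf w Q) (lam : ℝ →ₗ[ℚ] ℚ)
    {R : Fin 5 → U} (hR : Conf5 R) :
    ∑ i, ev (R (i - 1)) (R (i + 1)) (fL lam n P Q) = 0 := by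
  have := dd_pent hn hnN hP hQ h (conf5_inR hR)
  have h2 := congrArg (lamT (U := U) lam) this
  rw [map_sum, map_zero] at h2
  rw [← h2]
  refine Finset.sum_congr rfl fun i _ => ?_
  rw [← lamT_dd]

end descent

/-! ### the rational solutions -/

section final
variable {N n : ℕ} {P Q : FreeAlgebra ℝ (Fin 2)}

theorem hom_eq_ev {K : Type*} [CommRing K] {B : Type*} [Ring B] [Algebra K B]
    (φ : FreeAlgebra K (Fin 2) →ₐ[K] B) (f : FreeAlgebra K (Fin 2)) :
    φ f = ev (φ (FreeAlgebra.ι K 0)) (φ (FreeAlgebra.ι K 1)) f := by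
  have : φ = ev (φ (FreeAlgebra.ι K 0)) (φ (FreeAlgebra.ι K 1)) := by
    apply FreeAlgebra.hom_ext
    funext i
    fin_cases i <;> simp [ev]
  exact congrArg (fun g : FreeAlgebra K (Fin 2) →ₐ[K] B => g f) this

theorem ev_self {K : Type*} [CommRing K] (f : FreeAlgebra K (Fin 2)) :
    ev (FreeAlgebra.ι K 0) (FreeAlgebra.ι K 1) f = f :=
  (hom_eq_ev (AlgHom.id K _) f).symm

theorem prim_fL (hn : 0 < n) (hnN : n ≤ N) (hP : IsAssoc N P) (hQ : IsAssoc N Q)
    (h : ∀ w : List (Fin 2), w.length < n → cf w P = cf w Q) (lam : ℝ →ₗ[ℚ] ℚ) :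
    Prim (fL lam n P Q) := by
  unfold Prim
  have hc : ∀ x y : FreeAlgebra ℚ (Fin 2),
      Commute (x ⊗ₜ[ℚ] (1 : FreeAlgebra ℚ (Fin 2))) ((1 : FreeAlgebra ℚ (Fin 2)) ⊗ₜ[ℚ] y) := by
    intro x y
    show _ * _ = _ * _
    rw [Algebra.TensorProduct.tmul_mul_tmul, Algebra.TensorProduct.tmul_mul_tmul]
    simp
  rw [fL_mult hn hnN hP hQ h lam (hc _ _) (hc _ _) (hc _ _) (hc _ _)]
  have e1 := hom_eq_ev (Algebra.TensorProduct.includeLeft :
    FreeAlgebra ℚ (Fin 2) →ₐ[ℚ] FreeAlgebra ℚ (Fin 2) ⊗[ℚ] FreeAlgebra ℚ (Fin 2)) (fL lam n P Q)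
  have e2 := hom_eq_ev (Algebra.TensorProduct.includeRight :
    FreeAlgebra ℚ (Fin 2) →ₐ[ℚ] FreeAlgebra ℚ (Fin 2) ⊗[ℚ] FreeAlgebra ℚ (Fin 2)) (fL lam n P Q)
  simp only [Algebra.TensorProduct.includeLeft_apply, Algebra.TensorProduct.includeRight_apply]
    at e1 e2
  rw [← e1, ← e2]

theorem anti_fL (hn : 0 < n) (hnN : n ≤ N) (hP : IsAssoc N P) (hQ : IsAssoc N Q)
    (h : ∀ w : List (Fin 2), w.length < n → cf w P = cf w Q) (lam : ℝ →ₗ[ℚ] ℚ) :
    fL lam n P Q + ev (FreeAlgebra.ι ℚ 1) (FreeAlgebra.ι ℚ 0) (fL lam n P Q) = 0 := by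
  set A : FreeAlgebra ℚ (Fin 2) := FreeAlgebra.ι ℚ 0
  set B : FreeAlgebra ℚ (Fin 2) := FreeAlgebra.ι ℚ 1
  have hR : Conf5 (![0, A, A, 0, B] : Fin 5 → FreeAlgebra ℚ (Fin 2)) := by
    rw [conf5_ring_iff]
    constructor
    · intro i
      fin_cases i
      · show (0 : FreeAlgebra ℚ (Fin 2)) * A - A * 0 = 0
        simp
      · show A * A - A * A = 0
        simp
      · show A * 0 - 0 * A = 0
        simp
      · show 0 * B - B * 0 = 0
        simp
      · show B * 0 - 0 * B = 0
        simp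
    · rw [Fin.sum_univ_five]
      show ((0 : FreeAlgebra ℚ (Fin 2)) * A - A * 0) + (A * 0 - 0 * A) + (A * B - B * A) +
        (0 * 0 - 0 * 0) + (B * A - A * B) = 0
      simp
  have := fL_pent hn hnN hP hQ h lam hR
  rw [Fin.sum_univ_five] at this
  have h2 : ev B A (fL lam n P Q) + ev 0 A (fL lam n P Q) + ev A 0 (fL lam n P Q) +
    ev A B (fL lam n P Q) + ev 0 0 (fL lam n P Q) = 0 := this
  rw [fL_right hnN hP hQ, fL_left hnN hP hQ, fL_left hnN hP hQ, ev_self] at h2
  rw [← h2]
  abel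

theorem exists_grtW (hS1 : S1) (hS2 : S2) (hEB1 : EB1) (hn : 3 ≤ n) (hnN : n ≤ N)
    (hP : IsAssoc N P) (hQ : IsAssoc N Q)
    (h : ∀ w : List (Fin 2), w.length < n → cf w P = cf w Q) (lam : ℝ →ₗ[ℚ] ℚ) :
    ∃ p ∈ grtW n, iota p = fL lam n P Q := by
  obtain ⟨p, hp, hpf⟩ := hS2 n (fL lam n P Q) (by omega) (homog_fL lam)
    (prim_fL (by omega) hnN hP hQ h lam)
  have ha : antisymDefect p = 0 := by
    apply hS1
    have e : antisymDefect p = p + gtSubst gy gx p := rfl
    rw [e, map_add, map_zero, DynB.hom_gtSubst, ← DynB.ev_iota, hpf]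
    have e1 : iota gy = FreeAlgebra.ι ℚ 1 := by simp [iota, gy]
    have e2 : iota gx = FreeAlgebra.ι ℚ 0 := by simp [iota, gx]
    rw [e1, e2]
    exact anti_fL (by omega) hnN hP hQ h lam
  have hpent : pentagonDefect p = 0 := by
    refine S3_holds n p (by omega) hp ha ?_
    intro B _ _ R hR
    rw [hpf]
    exact fL_pent (by omega) hnN hP hQ h lam hR
  exact ⟨p, ⟨⟨⟨ha, hEB1 n p hn hp ha hpent⟩, hpent⟩, hp⟩, hpf⟩

theorem cf_toReal (w : List (Fin 2)) (f : FreeAlgebra ℚ (Fin 2)) :
    cf w (toReal f) = ((cf w f : ℚ) : ℝ) := by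
  induction f using fa_induction with
  | hadd f g hf hg => rw [map_add, map_add, map_add, hf, hg]; push_cast; rfl
  | hwd r v =>
    classical
    have e : toReal (wd ℚ v) = wd ℝ v := by
      induction v with
      | nil => simp
      | cons i v ih => rw [wd_cons, map_mul, ih, wd_cons]; simp [toReal]
    have e2 : toReal (r • wd ℚ v) = (r : ℝ) • wd ℝ v := by
      rw [map_smul, e, Rat.cast_smul_eq_qsmul]
    rw [e2, map_smul, map_smul, cf_wd, cf_wd]
    by_cases hv : v = w <;> simp [hv]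

end final

end EE

open EE in
/-- **(EE1)** -/
theorem EE1_of (hS1 : S1) (hS2 : S2) (hEB1 : EB1) : EE1 := by
  intro N n P Q hn hnN hP hQ h
  classical
  let b := Module.Basis.ofVectorSpace ℚ ℝ
  have key : ∀ α, ∃ p ∈ grtW n, iota p = fL (b.coord α) n P Q := fun α =>
    exists_grtW hS1 hS2 hEB1 hn hnN hP hQ h (b.coord α)
  choose p hp hpf using key
  let S := (wdsN n).biUnion fun w => (b.repr (cf w Q - cf w P)).support
  refine ⟨∑ α ∈ S, (b α) • toReal (iota (p α)), ?_, ?_⟩
  · refine Submodule.sum_mem _ fun α _ => Submodule.smul_mem _ _ (Submodule.subset_span ?_)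
    exact ⟨p α, hp α, rfl⟩
  · intro w hw
    rw [map_sum]
    have e : ∀ α, cf w (b α • toReal (iota (p α))) = (b.repr (cf w Q - cf w P) α) • b α := by
      intro α
      rw [map_smul, cf_toReal, hpf, cf_fL, if_pos hw, Module.Basis.coord_apply, smul_eq_mul,
        Rat.smul_def, mul_comm]
    rw [Finset.sum_congr rfl fun α _ => e α]
    have hsub : (b.repr (cf w Q - cf w P)).support ⊆ S := by
      intro α hα
      exact Finset.mem_biUnion.2 ⟨w, mem_wdsN.2 hw, hα⟩
    rw [← Finset.sum_subset hsub (fun α _ hα => by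
      rw [Finsupp.notMem_support_iff.1 hα, zero_smul])]
    exact b.linearCombination_repr (cf w Q - cf w P)
end Crest.Agent.R010
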