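import Crest.Agent.R010.Witt
import Crest.Agent.R010.EDefs

/-! Row 10, module (W), part 2 (helper630): base change of free (Lie) algebras, saturation over `ℤ`,
reduction modulo `2`. -/

set_option autoImplicit false

noncomputable section

namespace Crest.Agent.R010.Witt

open Crest.NumberTheoryR.GT Crest.Agent.R010

universe u v v'

attribute [local instance 100] LieRing.ofAssociativeRing

theorem iota_eq : iota = asso ℚ (Fin 2) := rfl

/-- (S1) of EDefs -/
theorem S1_holds : S1 := witt_injective

theorem weightSubspace_eq {X : Type u} (w : X → ℕ) (n : ℕ) : weightSubspace w n = WS ℚ w n := by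
  have : ∀ a : FreeLieAlgebra ℚ X, IsBracketMonomial w n a ↔ BM ℚ w n a := by
    intro a
    constructor
    · intro h
      induction h with
      | of i => exact BM.of i
      | lie _ _ h1 h2 => exact BM.lie h1 h2
    · intro h
      induction h with
      | of i => exact IsBracketMonomial.of i
      | lie _ _ h1 h2 => exact IsBracketMonomial.lie h1 h2
  rw [weightSubspace, WS]
  simp only [this]

section coeff

variable {R : Type v} [CommRing R] {X : Type u}

theorem cf_ext {p q : FreeAlgebra R X} (h : ∀ w : List X, cf w p = cf w q) : p = q := by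
  apply (FreeAlgebra.equivMonoidAlgebraFreeMonoid (R := R) (X := X)).injective
  ext w
  exact h (FreeMonoid.toList w)

end coeff

section bc

variable (R : Type v) (S : Type v') [CommRing R] [CommRing S] [Algebra R S] (X : Type u)

/-- base change for free algebras -/
def bcA : FreeAlgebra R X →ₐ[R] FreeAlgebra S X := FreeAlgebra.lift R (FreeAlgebra.ι S)

variable {R S X}

@[simp] theorem bcA_ι (x : X) : bcA R S X (FreeAlgebra.ι R x) = FreeAlgebra.ι S x := by
  rw [bcA, FreeAlgebra.lift_ι_apply]





theorem fla_smul (r : R) (a : FreeLieAlgebra S X) : r • a = algebraMap R S r • a := by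
  obtain ⟨a, rfl⟩ := Quot.exists_rep a
  show Quot.mk _ (r • a) = Quot.mk _ (algebraMap R S r • a)
  rw [algebraMap_smul]

variable (R S X) in
/-- restriction of scalars for the free Lie algebra -/
@[reducible] def lieAlgBC : LieAlgebra R (FreeLieAlgebra S X) where
  lie_smul t a b := by
    rw [fla_smul t b, fla_smul t ⁅a, b⁆, lie_smul]

variable (R S X) in
def bcL0 : letI := lieAlgBC R S X; FreeLieAlgebra R X →ₗ⁅R⁆ FreeLieAlgebra S X :=
  letI := lieAlgBC R S X
  FreeLieAlgebra.lift R (FreeLieAlgebra.of S)

variable (R S X) in
/-- base change for free Lie algebras, as an additive map -/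
def bcL : FreeLieAlgebra R X →+ FreeLieAlgebra S X where
  toFun := bcL0 R S X
  map_zero' := by let _ := lieAlgBC R S X; exact map_zero (bcL0 R S X)
  map_add' := by let _ := lieAlgBC R S X; exact map_add (bcL0 R S X)

@[simp] theorem bcL_of (x : X) : bcL R S X (FreeLieAlgebra.of R x) = FreeLieAlgebra.of S x := by
  let _ := lieAlgBC R S X
  show bcL0 R S X (FreeLieAlgebra.of R x) = _
  rw [bcL0, FreeLieAlgebra.lift_of_apply]








end bc

section integral

variable {X : Type u}




theorem smul_cancel {m : ℤ} (hm : m ≠ 0) {f g : FreeAlgebra ℤ X} (h : m • f = m • g) : f = g := by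
  apply cf_ext
  intro w
  have := congrArg (cf w) h
  rw [map_smul, map_smul] at this
  exact mul_left_cancel₀ hm this








end integral

end Crest.Agent.R010.Witt

end
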