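import Crest.Agent.R010.KZh
import Crest.Agent.R010.EDefs
import Crest.Agent.R010.KZi
import Crest.Agent.R010.KZj
import Crest.Agent.R010.EE1
import Crest.Prelude.Def_GTLie
import Crest.Agent.R010.Witt2
import Crest.Agent.R010.ED7_Mg
import Crest.Agent.R010.ECmain
import Crest.Agent.R010.UBridge
import Crest.Agent.R010.DynBraid
import Crest.Agent.R010.ECpent

-- ▼ part R010/KZk
section

/-! Row 10, module (E), analysis part k (helper819): naturality of `Phi` under continuous algebra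
homomorphisms, and the universal word coefficients `phi` of `Phi`. -/

set_option autoImplicit false

open Filter Topology NormedSpace MulOpposite

namespace Crest.Agent.R010.KZ

section Nat
variable {A : Type*} [NormedRing A] [NormedAlgebra ℝ A]
variable {B : Type*} [NormedRing B] [NormedAlgebra ℝ B]

theorem map_res (f : A →ₐ[ℝ] B) {q : A} (hq : IsNilpotent q) {n : ℕ} (hn : n ≠ 0) (z : A) :
    f (res q n z) = res (f q) n (f z) := by
  refine (res_eq_of (hq.map f) hn ?_).symm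
  rw [← map_smul, ← map_mul, ← map_mul, ← map_sub, ← map_sub, res_spec hq hn]

theorem map_hc (f : A →ₐ[ℝ] B) {q : A} (hq : IsNilpotent q) (t y : A) (u : ℝ) (n : ℕ) :
    f (hc q t y u n) = hc (f q) (f t) (f y) u n := by
  induction n using Nat.strong_induction_on with
  | _ n ih =>
    rcases n with _ | n
    · rw [hc_zero, hc_zero, map_one]
    · rw [hc_succ, hc_succ, map_neg, map_res f hq (by omega), map_sum]
      congr 2
      refine Finset.sum_congr rfl fun k _ => ?_
      rw [map_mul, map_add, map_smul, ih _ (by omega)]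

variable [CompleteSpace A]

theorem map_Hf (f : A →ₐ[ℝ] B) (hf : Continuous f) {q : A} (hq : IsNilpotent q) (t y : A)
    {u v : ℝ} (hu : |u| ≤ 1) (hv : |v| < 1) : f (Hf q t y u v) = Hf (f q) (f t) (f y) u v := by
  have hs : Summable fun n => v ^ n • hc q t y u n := (summable_H hq t y hu hv).of_norm
  rw [Hf, Hf, hs.map_tsum f hf]
  refine tsum_congr fun n => ?_
  rw [map_smul, map_hc f hq]

theorem map_exp' [CompleteSpace B] (f : A →ₐ[ℝ] B) (hf : Continuous f) (x : A) :
    f (exp x) = exp (f x) := by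
  let _ : NormedAlgebra ℚ A := NormedAlgebra.restrictScalars ℚ ℝ A
  let _ : NormedAlgebra ℚ B := NormedAlgebra.restrictScalars ℚ ℝ B
  exact map_exp f hf x

variable [CompleteSpace B]

theorem map_Gf (f : A →ₐ[ℝ] B) (hf : Continuous f) {a : A} (ha : IsNilpotent a) (b : A)
    {z : ℝ} (hz : |z| < 1) : f (Gf a b z) = Gf (f a) (f b) z := by
  rw [Gf, Gf, map_mul, map_Hf f hf ha b 0 (by simp) hz, map_exp' f hf, map_zero, map_smul]

theorem map_Gt (f : A →ₐ[ℝ] B) (hf : Continuous f) {a : A} (ha : IsNilpotent a) (b : A)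
    {z : ℝ} (hz : |z| < 1) : f (Gt a b z) = Gt (f a) (f b) z := by
  have h := map_Gf (AlgHom.op f) (by
    have : (AlgHom.op f : Aᵐᵒᵖ → Bᵐᵒᵖ) = fun x => op (f (unop x)) := rfl
    rw [this]
    exact continuous_op.comp (hf.comp continuous_unop)) (nilp_op ha) (op (-b)) hz
  have h' := congrArg unop h
  rw [Gt, Gt]
  have e1 : unop ((AlgHom.op f) (Gf (op (-a)) (op (-b)) z)) = f (unop (Gf (op (-a)) (op (-b)) z)) :=
    rfl
  rw [e1] at h'
  rw [h']
  have e2 : ∀ x : A, (AlgHom.op f) (op (-x)) = op (-(f x)) := by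
    intro x
    change op (f (-x)) = op (-(f x))
    rw [map_neg]
  rw [e2, e2]

theorem map_Phi (f : A →ₐ[ℝ] B) (hf : Continuous f) {a b : A} (ha : IsNilpotent a)
    (hb : IsNilpotent b) : f (Phi a b) = Phi (f a) (f b) := by
  have h : |(1 / 2 : ℝ)| < 1 := by rw [abs_of_pos] <;> norm_num
  rw [Phi, Phi, map_mul, map_Gf f hf ha b h, map_Gt f hf hb a h]

end Nat

section Closed
variable {A : Type*} [NormedRing A] [NormedAlgebra ℝ A] [CompleteSpace A]

theorem Phi_mem (S : Subalgebra ℝ A) (hS : IsClosed (S : Set A)) {a b : A} (ha : IsNilpotent a)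
    (hb : IsNilpotent b) (haS : a ∈ S) (hbS : b ∈ S) : Phi a b ∈ S := by
  have : CompleteSpace S := hS.completeSpace_coe
  have h := map_Phi S.val (by exact continuous_subtype_val) (a := ⟨a, haS⟩) (b := ⟨b, hbS⟩)
    (by obtain ⟨n, hn⟩ := ha; exact ⟨n, Subtype.ext (by simpa using hn)⟩)
    (by obtain ⟨n, hn⟩ := hb; exact ⟨n, Subtype.ext (by simpa using hn)⟩)
  have h2 : Phi a b = S.val (Phi (⟨a, haS⟩ : S) ⟨b, hbS⟩) := h.symm
  rw [h2]
  exact (Phi (⟨a, haS⟩ : S) ⟨b, hbS⟩).2

end Closed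

section Words

/-- the product of the letters of a word. -/
def wp {A : Type*} [Monoid A] {ι : Type*} (R : ι → A) (w : List ι) : A := (w.map R).prod

@[simp] theorem wp_nil {A : Type*} [Monoid A] {ι : Type*} (R : ι → A) : wp R [] = 1 := by simp [wp]

@[simp] theorem wp_cons {A : Type*} [Monoid A] {ι : Type*} (R : ι → A) (i : ι) (w : List ι) :
    wp R (i :: w) = R i * wp R w := by simp [wp]

theorem wp_append {A : Type*} [Monoid A] {ι : Type*} (R : ι → A) (v w : List ι) :
    wp R (v ++ w) = wp R v * wp R w := by simp [wp]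

theorem map_wp {A B : Type*} [Monoid A] [Monoid B] {F : Type*} [FunLike F A B]
    [MonoidHomClass F A B] (f : F) {ι : Type*} (R : ι → A) (w : List ι) :
    f (wp R w) = wp (fun i => f (R i)) w := by
  induction w with
  | nil => simp
  | cons i w ih => simp [ih]

/-- the finite set of words of length at most `M` -/
noncomputable def wordsLE (ι : Type*) [Finite ι] (M : ℕ) : Finset (List ι) :=
  (List.finite_length_le ι M).toFinset

theorem mem_wordsLE {ι : Type*} [Finite ι] {M : ℕ} {w : List ι} :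
    w ∈ wordsLE ι M ↔ w.length ≤ M := by simp [wordsLE]

theorem adjoin_le_span {A : Type*} [Ring A] [Algebra ℝ A] {ι : Type*} [Finite ι] (R : ι → A)
    {M : ℕ} (hM : ∀ w : List ι, M < w.length → wp R w = 0) :
    Subalgebra.toSubmodule (Algebra.adjoin ℝ (Set.range R)) =
      Submodule.span ℝ ((fun w => wp R w) '' (wordsLE ι M : Set (List ι))) := by
  rw [Algebra.adjoin_eq_span]
  apply le_antisymm
  · rw [Submodule.span_le]
    intro x hx
    obtain ⟨l, hl, rfl⟩ := Submonoid.exists_list_of_mem_closure hx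
    have : ∃ w : List ι, l = w.map R := by
      clear hx
      induction l with
      | nil => exact ⟨[], rfl⟩
      | cons y l ih =>
        obtain ⟨w, hw⟩ := ih (fun z hz => hl z (List.mem_cons_of_mem _ hz))
        obtain ⟨i, hi⟩ := hl y (List.mem_cons_self)
        exact ⟨i :: w, by simp [hw, hi]⟩
    obtain ⟨w, rfl⟩ := this
    by_cases hw : w.length ≤ M
    · exact Submodule.subset_span ⟨w, by simpa [mem_wordsLE] using hw, rfl⟩
    · have : (w.map R).prod = 0 := hM w (by omega)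
      rw [this]
      exact Submodule.zero_mem _
  · rw [Submodule.span_le]
    rintro x ⟨w, _, rfl⟩
    refine Submodule.subset_span ?_
    refine Submonoid.list_prod_mem _ ?_
    intro x hx
    obtain ⟨i, _, rfl⟩ := List.mem_map.1 hx
    exact Submonoid.subset_closure ⟨i, rfl⟩

theorem finiteDimensional_adjoin {A : Type*} [Ring A] [Algebra ℝ A] {ι : Type*} [Finite ι]
    (R : ι → A) {M : ℕ} (hM : ∀ w : List ι, M < w.length → wp R w = 0) :
    FiniteDimensional ℝ (Algebra.adjoin ℝ (Set.range R)) := by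
  change FiniteDimensional ℝ (Subalgebra.toSubmodule (Algebra.adjoin ℝ (Set.range R)))
  rw [adjoin_le_span R hM]
  exact FiniteDimensional.span_of_finite ℝ ((Finset.finite_toSet _).image _)

theorem exists_coeff {A : Type*} [Ring A] [Algebra ℝ A] {ι : Type*} [Finite ι]
    (R : ι → A) {M : ℕ} (hM : ∀ w : List ι, M < w.length → wp R w = 0) {x : A}
    (hx : x ∈ Algebra.adjoin ℝ (Set.range R)) :
    ∃ c : List ι → ℝ, x = ∑ w ∈ wordsLE ι M, c w • wp R w := by
  have h : x ∈ Subalgebra.toSubmodule (Algebra.adjoin ℝ (Set.range R)) := hx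
  rw [adjoin_le_span R hM] at h
  obtain ⟨c, hc⟩ := (Submodule.mem_span_image_finset_iff_exists_fun ℝ).1 h
  classical
  refine ⟨fun w => if h : w ∈ wordsLE ι M then c ⟨w, h⟩ else 0, ?_⟩
  rw [← hc, ← Finset.sum_coe_sort (wordsLE ι M)]
  refine Finset.sum_congr rfl fun w _ => ?_
  simp

end Words

end Crest.Agent.R010.KZ
end

-- ▼ part R010/KZl
section

/-! Row 10, module (E), analysis part l (helper819): the universal word coefficients `phi` of `Phi`. -/

set_option autoImplicit false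

open Filter Topology NormedSpace MulOpposite

namespace Crest.Agent.R010.KZ

attribute [local instance] Matrix.linftyOpNormedRing Matrix.linftyOpNormedAlgebra

/-- words of length at most `M` -/
abbrev WI (M : ℕ) : Type := {w : List (Fin 2) // w.length ≤ M}

noncomputable instance instFintypeWI (M : ℕ) : Fintype (WI M) :=
  (List.finite_length_le (Fin 2) M).fintype

/-- the letter `i` acting on words by left concatenation -/
noncomputable def Lm (M : ℕ) (i : Fin 2) : Matrix (WI M) (WI M) ℝ :=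
  Matrix.of fun w' w => if w'.1 = i :: w.1 then 1 else 0

theorem wp_Lm (M : ℕ) (v : List (Fin 2)) (w' w : WI M) :
    wp (Lm M) v w' w = if w'.1 = v ++ w.1 then 1 else 0 := by
  induction v generalizing w' with
  | nil =>
    simp only [wp_nil, Matrix.one_apply, List.nil_append, Subtype.ext_iff]
  | cons i v ih =>
    rw [wp_cons, Matrix.mul_apply]
    simp only [ih, Lm, Matrix.of_apply, List.cons_append]
    by_cases h : w'.1 = i :: (v ++ w.1)
    · have hl : (v ++ w.1).length ≤ M := by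
        have := w'.2
        rw [h, List.length_cons] at this
        omega
      rw [Finset.sum_eq_single (⟨v ++ w.1, hl⟩ : WI M)]
      · simp [h]
      · intro b _ hb
        have : b.1 ≠ v ++ w.1 := fun h' => hb (Subtype.ext h')
        simp [this]
      · intro h'; exact absurd (Finset.mem_univ _) h'
    · rw [if_neg h]
      refine Finset.sum_eq_zero fun b _ => ?_
      by_cases hb : b.1 = v ++ w.1
      · rw [hb, if_neg h]; simp
      · simp [hb]

theorem wp_Lm_zero {M K : ℕ} (hMK : M ≤ K) (v : List (Fin 2)) (hv : K < v.length) :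
    wp (Lm M) v = 0 := by
  ext w' w
  rw [wp_Lm, if_neg]
  · rfl
  · intro h
    have := w'.2
    rw [h, List.length_append] at this
    omega

/-- the empty word -/
def emp (M : ℕ) : WI M := ⟨[], by simp⟩

/-- entries of `Phi` of the universal matrices of order `M` -/
noncomputable def phiM (M : ℕ) (w : List (Fin 2)) : ℝ :=
  if h : w.length ≤ M then Phi (Lm M 0) (Lm M 1) ⟨w, h⟩ (emp M) else 0

/-- **the word coefficients of the KZ associator** -/
noncomputable def phi (w : List (Fin 2)) : ℝ := phiM w.length w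

theorem nilp_of_words {A : Type*} [Ring A] {ι : Type*} (R : ι → A) {M : ℕ}
    (hM : ∀ w : List ι, M < w.length → wp R w = 0) (i : ι) : IsNilpotent (R i) := by
  refine ⟨M + 1, ?_⟩
  have h := hM (List.replicate (M + 1) i) (by simp)
  simpa [wp] using h

theorem coeff_Lm {M K : ℕ} (hMK : M ≤ K) (c : List (Fin 2) → ℝ) (w : WI M) :
    (∑ v ∈ wordsLE (Fin 2) K, c v • wp (Lm M) v) w (emp M) = c w.1 := by
  rw [Matrix.sum_apply, Finset.sum_eq_single w.1]
  · rw [Matrix.smul_apply, wp_Lm]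
    simp [emp]
  · intro v _ hv
    rw [Matrix.smul_apply, wp_Lm, if_neg]
    · simp
    · simpa [emp] using hv.symm
  · intro h
    exact absurd (mem_wordsLE.2 (w.2.trans hMK)) h

theorem Phi_eq_sum_phiM {A : Type*} [NormedRing A] [NormedAlgebra ℝ A] [CompleteSpace A]
    (R : Fin 2 → A) {M : ℕ} (hM : ∀ w : List (Fin 2), M < w.length → wp R w = 0) :
    Phi (R 0) (R 1) = ∑ w ∈ wordsLE (Fin 2) M, phiM M w • wp R w := by
  set P := A × Matrix (WI M) (WI M) ℝ with hP
  set R' : Fin 2 → P := fun i => (R i, Lm M i) with hR'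
  have hfst : ∀ w : List (Fin 2), (wp R' w).1 = wp R w := by
    intro w
    exact map_wp (MonoidHom.fst A (Matrix (WI M) (WI M) ℝ)) R' w
  have hsnd : ∀ w : List (Fin 2), (wp R' w).2 = wp (Lm M) w := by
    intro w
    exact map_wp (MonoidHom.snd A (Matrix (WI M) (WI M) ℝ)) R' w
  have hM' : ∀ w : List (Fin 2), M < w.length → wp R' w = 0 := by
    intro w hw
    refine Prod.ext ?_ ?_
    · rw [hfst, hM w hw]; rfl
    · rw [hsnd, wp_Lm_zero le_rfl w hw]; rfl
  have h0 : IsNilpotent (R' 0) := nilp_of_words R' hM' 0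
  have h1 : IsNilpotent (R' 1) := nilp_of_words R' hM' 1
  have := finiteDimensional_adjoin R' hM'
  have hcl : IsClosed ((Algebra.adjoin ℝ (Set.range R') : Subalgebra ℝ P) : Set P) := by
    exact Submodule.closed_of_finiteDimensional
      (Subalgebra.toSubmodule (Algebra.adjoin ℝ (Set.range R')))
  have hmem : Phi (R' 0) (R' 1) ∈ Algebra.adjoin ℝ (Set.range R') :=
    Phi_mem _ hcl h0 h1 (Algebra.subset_adjoin ⟨0, rfl⟩) (Algebra.subset_adjoin ⟨1, rfl⟩)
  obtain ⟨c, hc⟩ := exists_coeff R' hM' hmem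
  have hA : Phi (R 0) (R 1) = ∑ w ∈ wordsLE (Fin 2) M, c w • wp R w := by
    have h := map_Phi (AlgHom.fst ℝ A (Matrix (WI M) (WI M) ℝ)) continuous_fst h0 h1
    rw [hc, map_sum] at h
    rw [show Phi (R 0) (R 1) = _ from h.symm]
    refine Finset.sum_congr rfl fun w _ => ?_
    rw [map_smul, ← hfst w]
    rfl
  have hB : Phi (Lm M 0) (Lm M 1) = ∑ w ∈ wordsLE (Fin 2) M, c w • wp (Lm M) w := by
    have h := map_Phi (AlgHom.snd ℝ A (Matrix (WI M) (WI M) ℝ)) continuous_snd h0 h1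
    rw [hc, map_sum] at h
    rw [show Phi (Lm M 0) (Lm M 1) = _ from h.symm]
    refine Finset.sum_congr rfl fun w _ => ?_
    rw [map_smul, ← hsnd w]
    rfl
  rw [hA]
  refine Finset.sum_congr rfl fun w hw => ?_
  rw [phiM, dif_pos (mem_wordsLE.1 hw), hB, coeff_Lm le_rfl]

theorem phiM_eq_phi {M : ℕ} {w : List (Fin 2)} (hw : w.length ≤ M) : phiM M w = phi w := by
  have h := Phi_eq_sum_phiM (Lm w.length) (M := M) (fun v hv => wp_Lm_zero hw v hv)
  have h2 : phiM w.length w = Phi (Lm w.length 0) (Lm w.length 1) ⟨w, le_rfl⟩ (emp w.length) := by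
    rw [phiM, dif_pos le_rfl]
  rw [phi, h2, h, coeff_Lm hw]

/-- **universality of the coefficients.** -/
theorem Phi_eq_sum {A : Type*} [NormedRing A] [NormedAlgebra ℝ A] [CompleteSpace A]
    (R : Fin 2 → A) {M : ℕ} (hM : ∀ w : List (Fin 2), M < w.length → wp R w = 0) :
    Phi (R 0) (R 1) = ∑ w ∈ wordsLE (Fin 2) M, phi w • wp R w := by
  rw [Phi_eq_sum_phiM R hM]
  refine Finset.sum_congr rfl fun w hw => ?_
  rw [phiM_eq_phi (mem_wordsLE.1 hw)]

section Zero
variable {A : Type*} [NormedRing A] [NormedAlgebra ℝ A]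






end Zero


end Crest.Agent.R010.KZ
end

-- ▼ part R010/EAa
section

/-! Row 10, part (EA), assembly (helper819): the truncated real associator `PN N` built from the word
coefficients `phi` of the KZ associator satisfies `IsAssoc N`. -/

set_option autoImplicit false

noncomputable section

namespace Crest.Agent.R010

open KZ

attribute [local instance] Matrix.linftyOpNormedRing Matrix.linftyOpNormedAlgebra
attribute [local instance 100] LieRing.ofAssociativeRing

/-- the truncation of the KZ associator -/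
def PN (N : ℕ) : FreeAlgebra ℝ (Fin 2) :=
  ∑ w ∈ wordsLE (Fin 2) N, phi w • wp (FreeAlgebra.ι ℝ) w

theorem ev_ι {K : Type*} [CommRing K] {B : Type*} [Ring B] [Algebra K B] (a b : B) (i : Fin 2) :
    ev (K := K) a b (FreeAlgebra.ι K i) = (![a, b] : Fin 2 → B) i := by
  rw [ev, FreeAlgebra.lift_ι_apply]
  fin_cases i <;> simp

theorem ev_wp {K : Type*} [CommRing K] {B : Type*} [Ring B] [Algebra K B] (a b : B)
    (w : List (Fin 2)) :
    ev (K := K) a b (wp (FreeAlgebra.ι K) w) = wp (![a, b] : Fin 2 → B) w := by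
  rw [map_wp]
  congr 1
  funext i
  exact ev_ι a b i

theorem ev_PN {B : Type*} [Ring B] [Algebra ℝ B] (N : ℕ) (a b : B) :
    ev a b (PN N) = ∑ w ∈ wordsLE (Fin 2) N, phi w • wp (![a, b] : Fin 2 → B) w := by
  rw [PN, map_sum]
  refine Finset.sum_congr rfl fun w _ => ?_
  rw [map_smul, ev_wp]

theorem map_ev {K : Type*} [CommRing K] {B C : Type*} [Ring B] [Algebra K B] [Ring C] [Algebra K C]
    (f : B →ₐ[K] C) (a b : B) (p : FreeAlgebra K (Fin 2)) : f (ev a b p) = ev (f a) (f b) p := by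
  have h : f.comp (ev a b) = ev (f a) (f b) := by
    apply FreeAlgebra.hom_ext
    funext i
    simp only [Function.comp, AlgHom.comp_apply, ev_ι]
    fin_cases i <;> simp
  exact DFunLike.congr_fun h p

theorem cf_wp {K : Type*} [CommRing K] {X : Type*} [DecidableEq X] (w v : List X) :
    cf w (wp (FreeAlgebra.ι K) v) = if v = w then 1 else 0 := by
  have h : ∀ v : List X, FreeAlgebra.equivMonoidAlgebraFreeMonoid (R := K) (wp (FreeAlgebra.ι K) v) =
      MonoidAlgebra.single (FreeMonoid.ofList v) 1 := by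
    intro v
    induction v with
    | nil => simp [MonoidAlgebra.one_def]
    | cons i v ih =>
      rw [wp_cons, map_mul, ih]
      have : FreeAlgebra.equivMonoidAlgebraFreeMonoid (R := K) (FreeAlgebra.ι K i) =
          MonoidAlgebra.single (FreeMonoid.of i) 1 := by
        simp [FreeAlgebra.equivMonoidAlgebraFreeMonoid, MonoidAlgebra.of_apply]
      rw [this, MonoidAlgebra.single_mul_single, one_mul]
      rfl
  change (FreeAlgebra.equivMonoidAlgebraFreeMonoid (R := K) (wp (FreeAlgebra.ι K) v)).coeff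
    (FreeMonoid.ofList w) = _
  classical
  rw [h, MonoidAlgebra.coeff_single, Finsupp.single_apply]
  have e : (FreeMonoid.ofList v = FreeMonoid.ofList w) ↔ v = w := FreeMonoid.ofList.injective.eq_iff
  simp [e]

theorem cf_PN {N : ℕ} {w : List (Fin 2)} (hw : w.length ≤ N) : cf w (PN N) = phi w := by
  rw [PN, map_sum, Finset.sum_eq_single w]
  · rw [map_smul, cf_wp, if_pos rfl]; simp
  · intro v _ hv
    rw [map_smul, cf_wp, if_neg hv, smul_zero]
  · intro h
    exact absurd (mem_wordsLE.2 hw) h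

/-- all longer products vanish too. -/
theorem Nilp.wp_eq_zero {N : ℕ} {ι B : Type*} [Ring B] {x : ι → B} (h : Nilp N x) {w : List ι}
    (hw : N < w.length) : wp x w = 0 := by
  have h1 : wp x (w.take (N + 1)) = 0 := h _ (by rw [List.length_take]; omega)
  have h2 : wp x w = wp x (w.take (N + 1)) * wp x (w.drop (N + 1)) := by
    rw [← wp_append, List.take_append_drop]
  rw [h2, h1, zero_mul]

theorem wp_mem_span {B : Type*} [Ring B] [Algebra ℝ B] {ι κ : Type*} (x : ι → B) (y : κ → B)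
    (hy : ∀ k, y k ∈ Submodule.span ℝ (Set.range x)) (w : List κ) :
    wp y w ∈ Submodule.span ℝ ((fun v => wp x v) '' {v : List ι | v.length = w.length}) := by
  induction w with
  | nil =>
    refine Submodule.subset_span ⟨[], rfl, ?_⟩
    simp
  | cons k w ih =>
    rw [wp_cons]
    have h := Submodule.mul_mem_mul (hy k) ih
    rw [Submodule.span_mul_span] at h
    refine Submodule.span_mono ?_ h
    rintro _ ⟨_, ⟨i, rfl⟩, _, ⟨v, hv, rfl⟩, rfl⟩
    refine ⟨i :: v, ?_, ?_⟩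
    · simp only [Set.mem_ofPred_eq, List.length_cons] at hv ⊢
      omega
    · simp

theorem Nilp.wp_eq_zero_of_span {N : ℕ} {ι κ B : Type*} [Ring B] [Algebra ℝ B] {x : ι → B}
    (h : Nilp N x) (y : κ → B) (hy : ∀ k, y k ∈ Submodule.span ℝ (Set.range x)) {w : List κ}
    (hw : N < w.length) : wp y w = 0 := by
  have h1 := wp_mem_span x y hy w
  have h2 : Submodule.span ℝ ((fun v => wp x v) '' {v : List ι | v.length = w.length}) = ⊥ := by
    rw [Submodule.span_eq_bot]
    rintro _ ⟨v, hv, rfl⟩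
    exact h.wp_eq_zero (by simp only [Set.mem_ofPred_eq] at hv; omega)
  rw [h2] at h1
  exact (Submodule.mem_bot ℝ).1 h1

/-- transfer to matrices. -/
theorem exists_matrix {N : ℕ} {ι B : Type*} [Finite ι] [Ring B] [Algebra ℝ B] {x : ι → B}
    (h : Nilp N x) : ∃ (n : ℕ) (S : Subalgebra ℝ B) (f : S →ₐ[ℝ] Matrix (Fin n) (Fin n) ℝ),
      (∀ i, x i ∈ S) ∧ Function.Injective f := by
  have := finiteDimensional_adjoin x (M := N) (fun w hw => h.wp_eq_zero hw)
  exact ⟨_, Algebra.adjoin ℝ (Set.range x), Algebra.leftMulMatrix (Module.finBasis ℝ _),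
    fun i => Algebra.subset_adjoin ⟨i, rfl⟩, Algebra.leftMulMatrix_injective _⟩

/-- in matrices, `PN` evaluates to the analytic `Phi`. -/
theorem ev_PN_matrix {n N : ℕ} {ι : Type*} {x : ι → Matrix (Fin n) (Fin n) ℝ} (h : Nilp N x)
    {a b : Matrix (Fin n) (Fin n) ℝ} (ha : a ∈ Submodule.span ℝ (Set.range x))
    (hb : b ∈ Submodule.span ℝ (Set.range x)) : ev a b (PN N) = Phi a b := by
  have h1 := Phi_eq_sum (![a, b] : Fin 2 → Matrix (Fin n) (Fin n) ℝ) (M := N)
    (fun w hw => h.wp_eq_zero_of_span _ (by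
      intro k
      fin_cases k
      · exact ha
      · exact hb) hw)
  rw [ev_PN, ← h1]
  rfl

theorem Nilp.map {N : ℕ} {ι B C : Type*} [Ring B] [Ring C] {x : ι → B} (h : Nilp N x)
    {F : Type*} [FunLike F B C] [RingHomClass F B C] (f : F) : Nilp N (fun i => f (x i)) := by
  intro l hl
  have := congrArg f (h l hl)
  rw [map_zero, map_list_prod, List.map_map] at this
  exact this

theorem Nilp.of_injective {N : ℕ} {ι B C : Type*} [Ring B] [Ring C] {x : ι → B} {F : Type*}
    [FunLike F B C] [RingHomClass F B C] (f : F) (hf : Function.Injective f) {y : ι → C}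
    (hy : ∀ i, f (x i) = y i) (h : Nilp N y) : Nilp N x := by
  intro l hl
  apply hf
  rw [map_zero, map_list_prod, List.map_map, ← h l hl]
  congr 2
  funext i
  exact hy i

theorem Nilp.isNilpotent {N : ℕ} {ι B : Type*} [Ring B] {x : ι → B} (h : Nilp N x) (i : ι) :
    IsNilpotent (x i) :=
  nilp_of_words x (fun _ hw => h.wp_eq_zero hw) i

theorem Nilp.isNilpotent_of_span {N : ℕ} {ι B : Type*} [Ring B] [Algebra ℝ B] {x : ι → B}
    (h : Nilp N x) {a : B} (ha : a ∈ Submodule.span ℝ (Set.range x)) : IsNilpotent a :=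
  nilp_of_words (fun _ : Unit => a) (M := N)
    (fun _ hw => h.wp_eq_zero_of_span _ (fun _ => ha) hw) ()

theorem isAssoc_PN (N : ℕ) : IsAssoc N (PN N) := by
  constructor
  · intro B _ _ R hC hN
    obtain ⟨n, S, f, hS, hf⟩ := exists_matrix hN
    set R' : Fin 5 → S := fun i => ⟨R i, hS i⟩ with hR'
    set r : Fin 5 → Matrix (Fin n) (Fin n) ℝ := fun i => f (R' i) with hr
    have hcomm : ∀ i, R i * R (i + 1) = R (i + 1) * R i := by
      intro i
      have := hC.1 i
      rw [Ring.lie_def] at this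
      exact sub_eq_zero.1 this
    have hsum := hC.2
    simp only [Ring.lie_def, Fin.sum_univ_five] at hsum
    have hcomm' : ∀ i, r i * r (i + 1) = r (i + 1) * r i := by
      intro i
      rw [hr]
      simp only
      rw [← map_mul, ← map_mul]
      congr 1
      exact Subtype.ext (hcomm i)
    have hN' : Nilp N R' := Nilp.of_injective S.val Subtype.val_injective (fun _ => rfl) hN
    have hNr : Nilp N r := hN'.map f
    have hP : Pent (r 0) (r 1) (r 2) (r 3) (r 4) := by
      refine ⟨hcomm' 0, hcomm' 1, hcomm' 2, hcomm' 3, hcomm' 4, ?_⟩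
      have : f ((R' 0 * R' 2 - R' 2 * R' 0) + (R' 1 * R' 3 - R' 3 * R' 1) +
          (R' 2 * R' 4 - R' 4 * R' 2) + (R' 3 * R' 0 - R' 0 * R' 3) +
          (R' 4 * R' 1 - R' 1 * R' 4)) = f 0 := by
        congr 1
        exact Subtype.ext hsum
      simpa only [map_add, map_sub, map_mul, map_zero] using this
    have hpent := pentagon hP (hNr.isNilpotent 0) (hNr.isNilpotent 1) (hNr.isNilpotent 2)
      (hNr.isNilpotent 3) (hNr.isNilpotent 4)
    have hmem : ∀ i, r i ∈ Submodule.span ℝ (Set.range r) := fun i =>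
      Submodule.subset_span ⟨i, rfl⟩
    rw [← ev_PN_matrix hNr (hmem 4) (hmem 1), ← ev_PN_matrix hNr (hmem 3) (hmem 0),
      ← ev_PN_matrix hNr (hmem 2) (hmem 4), ← ev_PN_matrix hNr (hmem 1) (hmem 3),
      ← ev_PN_matrix hNr (hmem 0) (hmem 2)] at hpent
    have h1 : ev (R' 4) (R' 1) (PN N) * ev (R' 3) (R' 0) (PN N) * ev (R' 2) (R' 4) (PN N) *
        ev (R' 1) (R' 3) (PN N) * ev (R' 0) (R' 2) (PN N) = 1 := by
      apply hf
      simp only [map_mul, map_ev, map_one]
      exact hpent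
    have h2 := congrArg S.val h1
    simp only [map_mul, map_ev, map_one] at h2
    exact h2
  · intro B _ _ a b a' b' hN h1 h2 h3 h4
    obtain ⟨n, S, f, hS, hf⟩ := exists_matrix hN
    set A : S := ⟨a, hS 0⟩ with hA
    set A' : S := ⟨a', hS 2⟩ with hA'
    set b₁ : S := ⟨b, hS 1⟩ with hb₁
    set b₁' : S := ⟨b', hS 3⟩ with hb₁'
    have hN' : Nilp N ![A, b₁, A', b₁'] :=
      Nilp.of_injective S.val Subtype.val_injective (fun i => by fin_cases i <;> rfl) hN
    have hNr := hN'.map f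
    have m0 : f A ∈ Submodule.span ℝ (Set.range fun i => f (![A, b₁, A', b₁'] i)) :=
      Submodule.subset_span ⟨0, rfl⟩
    have m1 : f b₁ ∈ Submodule.span ℝ (Set.range fun i => f (![A, b₁, A', b₁'] i)) :=
      Submodule.subset_span ⟨1, rfl⟩
    have m2 : f A' ∈ Submodule.span ℝ (Set.range fun i => f (![A, b₁, A', b₁'] i)) :=
      Submodule.subset_span ⟨2, rfl⟩
    have m3 : f b₁' ∈ Submodule.span ℝ (Set.range fun i => f (![A, b₁, A', b₁'] i)) :=
      Submodule.subset_span ⟨3, rfl⟩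
    have c1 : Commute A A' := Subtype.ext h1
    have c2 : Commute A b₁' := Subtype.ext h2
    have c3 : Commute b₁ A' := Subtype.ext h3
    have c4 : Commute b₁ b₁' := Subtype.ext h4
    have hmul := Phi_mul_of_commute (hNr.isNilpotent_of_span m0) (hNr.isNilpotent_of_span m1)
      (hNr.isNilpotent_of_span m2) (hNr.isNilpotent_of_span m3) (c1.map f) (c2.map f) (c3.map f)
      (c4.map f)
    rw [← ev_PN_matrix hNr m0 m1, ← ev_PN_matrix hNr m2 m3,
      ← ev_PN_matrix hNr (add_mem m0 m2) (add_mem m1 m3)] at hmul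
    have h5 : ev (A + A') (b₁ + b₁') (PN N) = ev A b₁ (PN N) * ev A' b₁' (PN N) := by
      apply hf
      simp only [map_mul, map_ev, map_add]
      exact hmul
    have h6 := congrArg S.val h5
    simp only [map_mul, map_ev, map_add] at h6
    exact h6
  · intro B _ _ a hN
    obtain ⟨n, S, f, hS, hf⟩ := exists_matrix hN
    set A : S := ⟨a, hS 0⟩ with hA
    have hN' : Nilp N ![A] :=
      Nilp.of_injective S.val Subtype.val_injective (fun i => by fin_cases i; rfl) hN
    have hNr := hN'.map f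
    have m0 : f A ∈ Submodule.span ℝ (Set.range fun i => f (![A] i)) :=
      Submodule.subset_span ⟨0, rfl⟩
    have h5 : ev A 0 (PN N) = 1 := by
      apply hf
      rw [map_ev, map_zero, map_one, ev_PN_matrix hNr m0 (Submodule.zero_mem _),
        Phi_zero_right (hNr.isNilpotent_of_span m0)]
    have h6 := congrArg S.val h5
    simp only [map_ev, map_one, map_zero] at h6
    exact h6
  · intro B _ _ a hN
    obtain ⟨n, S, f, hS, hf⟩ := exists_matrix hN
    set A : S := ⟨a, hS 0⟩ with hA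
    have hN' : Nilp N ![A] :=
      Nilp.of_injective S.val Subtype.val_injective (fun i => by fin_cases i; rfl) hN
    have hNr := hN'.map f
    have m0 : f A ∈ Submodule.span ℝ (Set.range fun i => f (![A] i)) :=
      Submodule.subset_span ⟨0, rfl⟩
    have h5 : ev 0 A (PN N) = 1 := by
      apply hf
      rw [map_ev, map_zero, map_one, ev_PN_matrix hNr (Submodule.zero_mem _) m0,
        Phi_zero_left (hNr.isNilpotent_of_span m0)]
    have h6 := congrArg S.val h5
    simp only [map_ev, map_one, map_zero] at h6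
    exact h6

end Crest.Agent.R010
end
end

-- ▼ part R010/KZv
section

/-! Row 10, module (E), analysis part: the depth one coefficient as a matrix entry (helper10). -/

set_option autoImplicit false

noncomputable section

namespace Crest.Agent.R010.KZ

open Crest.Agent.R010

/-- the matrix `∑_{i+1 < N} E_{i,i+1}`. -/
def dA (N : ℕ) : Matrix (Fin (N + 1)) (Fin (N + 1)) ℝ :=
  Matrix.of fun i j => if (i : ℕ) + 1 = j ∧ (j : ℕ) < N then 1 else 0

/-- the matrix `E_{N-1,N}`. -/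
def dB (N : ℕ) : Matrix (Fin (N + 1)) (Fin (N + 1)) ℝ :=
  Matrix.of fun i j => if (i : ℕ) + 1 = N ∧ (j : ℕ) = N then 1 else 0

/-- the words with a non zero entry in row `i`. -/
def goodW (N : ℕ) : ℕ → List (Fin 2) → Prop
  | _, [] => True
  | i, c :: w => (c = 0 ↔ i + 1 < N) ∧ goodW N (i + 1) w

theorem dAB_apply (N : ℕ) (c : Fin 2) (i j : Fin (N + 1)) :
    (![dA N, dB N] : Fin 2 → Matrix (Fin (N + 1)) (Fin (N + 1)) ℝ) c i j =
      open Classical in if (i : ℕ) + 1 = j ∧ (c = 0 ↔ (i : ℕ) + 1 < N) then 1 else 0 := by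
  classical
  have hj := j.2
  fin_cases c
  · simp only [dA, Fin.zero_eta, Matrix.cons_val_zero, Matrix.of_apply, true_iff]
    refine if_congr ?_ rfl rfl
    omega
  · simp only [dB, Fin.mk_one, Matrix.cons_val_one]
    refine if_congr ?_ rfl rfl
    have : ¬ ((1 : Fin 2) = 0) := by decide
    simp only [this, false_iff]
    omega

/-- entries of words in `dA N`, `dB N`. -/
theorem word_entry (N : ℕ) (w : List (Fin 2)) (i j : Fin (N + 1)) :
    wp (![dA N, dB N] : Fin 2 → Matrix (Fin (N + 1)) (Fin (N + 1)) ℝ) w i j =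
      open Classical in if (i : ℕ) + w.length = j ∧ goodW N i w then 1 else 0 := by
  classical
  induction w generalizing i with
  | nil =>
    simp only [wp_nil, Matrix.one_apply, List.length_nil, add_zero, goodW, and_true, Fin.ext_iff]
  | cons c w ih =>
    have hR : (if (i : ℕ) + (c :: w).length = j ∧ goodW N i (c :: w) then (1 : ℝ) else 0) =
        if ((i : ℕ) + 1 + w.length = j ∧ goodW N (i + 1) w) ∧ (c = 0 ↔ (i : ℕ) + 1 < N)
          then 1 else 0 := by
      refine if_congr ?_ rfl rfl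
      rw [goodW, List.length_cons, show (i : ℕ) + (w.length + 1) = (i : ℕ) + 1 + w.length by omega]
      tauto
    rw [hR, wp_cons, Matrix.mul_apply]
    simp only [ih, dAB_apply]
    by_cases hi : (i : ℕ) + 1 < N + 1
    · rw [Finset.sum_eq_single (⟨i + 1, hi⟩ : Fin (N + 1))]
      · simp only [true_and]
        by_cases hc : (c = 0 ↔ (i : ℕ) + 1 < N)
        · rw [if_pos hc, one_mul]
          refine if_congr ?_ rfl rfl
          tauto
        · rw [if_neg hc, zero_mul, if_neg]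
          tauto
      · intro b _ hb
        have : ¬ ((i : ℕ) + 1 = b) := fun h => hb (Fin.ext h.symm)
        simp [this]
      · simp
    · rw [Finset.sum_eq_zero]
      · rw [if_neg]
        rintro ⟨h, -⟩
        have := j.2
        omega
      · intro b _
        have : ¬ ((i : ℕ) + 1 = b) := fun h => by have := b.2; omega
        simp [this]

theorem goodW_iff {N : ℕ} (w : List (Fin 2)) (i : ℕ) (hi : i < N) :
    (i + w.length = N ∧ goodW N i w) ↔ w = List.replicate (N - 1 - i) 0 ++ [1] := by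
  induction w generalizing i with
  | nil =>
    constructor
    · rintro ⟨h, -⟩
      simp at h
      omega
    · intro h
      simp at h
  | cons c w ih =>
    rw [goodW, List.length_cons]
    by_cases h2 : i + 1 < N
    · have h3 : N - 1 - i = (N - 1 - (i + 1)) + 1 := by omega
      rw [h3, List.replicate_succ, List.cons_append, List.cons.injEq, ← ih (i + 1) h2]
      constructor
      · rintro ⟨h, h', h''⟩
        exact ⟨h'.2 h2, by omega, h''⟩
      · rintro ⟨h, h', h''⟩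
        exact ⟨by omega, by tauto, h''⟩
    · have h3 : N - 1 - i = 0 := by omega
      rw [h3, List.replicate_zero, List.nil_append, List.cons.injEq]
      constructor
      · rintro ⟨h, h', h''⟩
        have hc : c ≠ 0 := fun h0 => h2 (h'.1 h0)
        refine ⟨by omega, ?_⟩
        exact List.length_eq_zero_iff.1 (by omega)
      · rintro ⟨rfl, rfl⟩
        refine ⟨by simp; omega, ?_, trivial⟩
        have : ¬ ((1 : Fin 2) = 0) := by decide
        simp only [this, false_iff]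
        exact h2

theorem word_entry_last {N : ℕ} (hN : 1 ≤ N) (w : List (Fin 2)) :
    wp (![dA N, dB N] : Fin 2 → Matrix (Fin (N + 1)) (Fin (N + 1)) ℝ) w 0 (Fin.last N) =
      if w = dep1 N then 1 else 0 := by
  classical
  rw [word_entry]
  refine if_congr ?_ rfl rfl
  have := goodW_iff (N := N) w 0 (by omega)
  simpa [dep1] using this

theorem wp_dAB_zero (N : ℕ) (w : List (Fin 2)) (hw : N < w.length) :
    wp (![dA N, dB N] : Fin 2 → Matrix (Fin (N + 1)) (Fin (N + 1)) ℝ) w = 0 := by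
  classical
  ext i j
  rw [word_entry, if_neg]
  · rfl
  · rintro ⟨h, -⟩
    have := j.2
    omega

attribute [local instance] Matrix.linftyOpNormedRing Matrix.linftyOpNormedAlgebra

/-- the depth one coefficient is a matrix entry of `Phi`. -/
theorem Phi_entry {N : ℕ} (hN : 1 ≤ N) :
    (Phi (dA N) (dB N)) 0 (Fin.last N) = phi (dep1 N) := by
  have h := Phi_eq_sum (![dA N, dB N] : Fin 2 → Matrix (Fin (N + 1)) (Fin (N + 1)) ℝ) (M := N)
    (wp_dAB_zero N)
  have h0 : Phi (dA N) (dB N) = ∑ w ∈ wordsLE (Fin 2) N, phi w • wp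
    (![dA N, dB N] : Fin 2 → Matrix (Fin (N + 1)) (Fin (N + 1)) ℝ) w := h
  rw [h0, Matrix.sum_apply, Finset.sum_eq_single (dep1 N)]
  · rw [Matrix.smul_apply, word_entry_last hN, if_pos rfl]; simp
  · intro w _ hw
    rw [Matrix.smul_apply, word_entry_last hN, if_neg hw]; simp
  · intro h
    exfalso
    refine h (mem_wordsLE.2 ?_)
    simp [dep1]
    omega

end Crest.Agent.R010.KZ

namespace Crest.Agent.R010

open KZ

attribute [local instance] Matrix.linftyOpNormedRing Matrix.linftyOpNormedAlgebra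

/-- (EA) from the depth one statement for matrices. -/
theorem EA_of_depth_one
    (h : ∀ N : ℕ, 2 ≤ N → (Phi (dA N) (dB N)) 0 (Fin.last N) ≠ 0) : EA := by
  intro N
  refine ⟨PN N, isAssoc_PN N, fun n h2 hn => ?_⟩
  rw [cf_PN (by simp [dep1]; omega), ← Phi_entry (by omega)]
  exact h n h2

end Crest.Agent.R010
end
private theorem rz_0092a01c5c : type_of% @_root_.Crest.Agent.R010.KZ.goodW.eq_def := @_root_.Crest.Agent.R010.KZ.goodW.eq_def -- L22
private theorem rz_ddae855039 : type_of% @_root_.Crest.Agent.R010.KZ.goodW.eq_1 := @_root_.Crest.Agent.R010.KZ.goodW.eq_1 -- L22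
end

-- ▼ part R010/EA
section

/-! Row 10, part (EA): the truncated real associator exists (helper819, helper9, helper205,
helper10). -/

set_option autoImplicit false

noncomputable section

namespace Crest.Agent.R010

open KZ

attribute [local instance] Matrix.linftyOpNormedRing Matrix.linftyOpNormedAlgebra

/-- **(EA)** -/
theorem EA_holds : EA := by
  refine EA_of_depth_one fun N hN => ?_
  have hA : dA N = shA N := by
    ext i j
    simp only [dA, shA, Matrix.of_apply, eq_comm (a := (i : ℕ) + 1)]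
  have hB : dB N = shB N := rfl
  rw [hA, hB]
  exact depth_one hN

end Crest.Agent.R010
end
end

-- ▼ part R010/ES2
section

/-!
# Row 10, (S2): primitive homogeneous elements of `ℚ⟨x,y⟩` are Lie elements (helper477)

Dynkin–Specht–Wever without antipode: on `R = End(F)` consider `a_i : T ↦ L_i T` and `a'_i : T ↦ -T L_i`, two
commuting pairs; `a_i + a'_i = ad L_i`. For primitive `f`: `f(ad L)(T) = L_f T + T g`, `T = 1` gives `g = - L_f`, and
`T = E` (Euler operator) gives `f(ad L)(E) = [L_f, E] = - n L_f`, while for every word `w` of positive length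
`w(ad L)(E) = - L_{[x_1,[x_2,...]]}`.
-/

set_option autoImplicit false
open Crest.NumberTheoryR.GT
open scoped TensorProduct

noncomputable section
namespace Crest.Agent.R010

attribute [local instance 100] LieRing.ofAssociativeRing

namespace SW

abbrev F : Type := FreeAlgebra ℚ (Fin 2)
abbrev R : Type := Module.End ℚ F

/-- the Euler operator -/
def eul : R :=
  (Finsupp.linearCombination ℚ
    (fun m : FreeMonoid (Fin 2) => ((FreeMonoid.toList m).length : ℚ) • wd ℚ (FreeMonoid.toList m))) ∘ₗ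
  (MonoidAlgebra.coeffLinearEquiv ℚ).toLinearMap ∘ₗ
  (FreeAlgebra.equivMonoidAlgebraFreeMonoid (R := ℚ) (X := Fin 2)).toLinearMap

theorem eul_wd (w : List (Fin 2)) : eul (wd ℚ w) = (w.length : ℚ) • wd ℚ w := by
  simp [eul, equiv_wd]

theorem homog_eq {n : ℕ} {f : F} (hf : Homog n f) : f = ∑ w ∈ wdsN n, cf w f • wd ℚ w := by
  apply ext_cf
  intro w
  rw [cf_sum_wdsN]
  by_cases h : w.length = n
  · rw [if_pos h]
  · rw [if_neg h, hf w h]

theorem eul_homog {n : ℕ} {f : F} (hf : Homog n f) : eul f = (n : ℚ) • f := by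
  conv_lhs => rw [homog_eq hf]
  conv_rhs => rw [homog_eq hf]
  rw [map_sum, Finset.smul_sum]
  refine Finset.sum_congr rfl fun w hw => ?_
  rw [map_smul, eul_wd, mem_wdsN.1 hw, smul_comm]

theorem eul_one : eul (1 : F) = 0 := by
  have := eul_wd []
  simpa using this

/-- left multiplication -/
def Lf : F →ₐ[ℚ] R := Algebra.lmul ℚ F

@[simp] theorem Lf_apply (f g : F) : Lf f g = f * g := rfl

/-- letters -/
abbrev li (i : Fin 2) : F := FreeAlgebra.ι ℚ i

theorem Lf_eul (i : Fin 2) : Lf (li i) * eul - eul * Lf (li i) = -Lf (li i) := by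
  apply LinearMap.ext
  intro g
  simp only [LinearMap.sub_apply, Module.End.mul_apply, Lf_apply, LinearMap.neg_apply]
  induction g using fa_induction with
  | hadd f g hf hg => rw [map_add, mul_add, mul_add, map_add, neg_add, ← hf, ← hg]; abel
  | hwd r w =>
    rw [map_smul, eul_wd, mul_smul_comm, mul_smul_comm, mul_smul_comm, map_smul,
      ← wd_cons, eul_wd, List.length_cons]
    push_cast
    module

abbrev UU : Type := Module.End ℚ R

/-- `T ↦ L_i T` -/
def aL (i : Fin 2) : UU := Algebra.lmul ℚ R (Lf (li i))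
/-- `T ↦ - T L_i` -/
def aR (i : Fin 2) : UU := -LinearMap.mulRight ℚ (Lf (li i))

@[simp] theorem aL_apply (i : Fin 2) (T : R) : aL i T = Lf (li i) * T := rfl
@[simp] theorem aR_apply (i : Fin 2) (T : R) : aR i T = -(T * Lf (li i)) := rfl

theorem ev_aL (f : F) : ev (aL 0) (aL 1) f = Algebra.lmul ℚ R (Lf f) :=
  (EE.hom_eq_ev ((Algebra.lmul ℚ R).comp Lf) f).symm

theorem ev_aR (f : F) (T : R) : ev (aR 0) (aR 1) f T = T * ev (aR 0) (aR 1) f 1 := by
  induction f using fa_induction with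
  | hadd f g hf hg => rw [map_add, LinearMap.add_apply, LinearMap.add_apply, hf, hg, mul_add]
  | hwd r w =>
    rw [map_smul, LinearMap.smul_apply, LinearMap.smul_apply, mul_smul_comm]
    congr 1
    induction w with
    | nil => simp
    | cons i w ih =>
      rw [ev_wd] at ih ⊢
      rw [wv_cons]
      have e : (if i = 0 then aR 0 else aR 1) = aR i := by
        fin_cases i <;> rfl
      rw [e, Module.End.mul_apply, Module.End.mul_apply, ih, aR_apply, aR_apply, mul_neg, mul_assoc]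

theorem commute_ev (f g : F) : Commute (ev (aL 0) (aL 1) f) (ev (aR 0) (aR 1) g) := by
  show _ * _ = _ * _
  apply LinearMap.ext
  intro T
  rw [Module.End.mul_apply, Module.End.mul_apply, ev_aR g T, ev_aR g (ev (aL 0) (aL 1) f T), ev_aL]
  show Lf f * (T * _) = (Lf f * T) * _
  rw [mul_assoc]

theorem prim_split {f : F} (hf : Prim f) :
    ev (aL 0 + aR 0) (aL 1 + aR 1) f = ev (aL 0) (aL 1) f + ev (aR 0) (aR 1) f := by
  let Φ : F ⊗[ℚ] F →ₐ[ℚ] UU :=
    Algebra.TensorProduct.lift (ev (aL 0) (aL 1)) (ev (aR 0) (aR 1)) commute_ev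
  have h1 := congrArg Φ hf
  have e : ∀ g : F, Φ (ev (FreeAlgebra.ι ℚ 0 ⊗ₜ 1 + 1 ⊗ₜ FreeAlgebra.ι ℚ 0)
      (FreeAlgebra.ι ℚ 1 ⊗ₜ 1 + 1 ⊗ₜ FreeAlgebra.ι ℚ 1) g) = ev (aL 0 + aR 0) (aL 1 + aR 1) g := by
    intro g
    have := EE.hom_eq_ev (Φ.comp (ev (FreeAlgebra.ι ℚ 0 ⊗ₜ 1 + 1 ⊗ₜ FreeAlgebra.ι ℚ 0)
      (FreeAlgebra.ι ℚ 1 ⊗ₜ 1 + 1 ⊗ₜ FreeAlgebra.ι ℚ 1))) g
    rw [AlgHom.comp_apply] at this
    rw [this]
    congr 2 <;> simp [Φ, ev]
  rw [e] at h1
  rw [h1, map_add]
  simp [Φ]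

/-- `ad L_i` -/
theorem ad_one (w : List (Fin 2)) (hw : w ≠ []) :
    wv (aL 0 + aR 0) (aL 1 + aR 1) w (1 : R) = 0 := by
  induction w with
  | nil => exact absurd rfl hw
  | cons i w ih =>
    rw [wv_cons]
    have e : (if i = 0 then aL 0 + aR 0 else aL 1 + aR 1) = aL i + aR i := by
      fin_cases i <;> rfl
    rw [e, Module.End.mul_apply]
    by_cases h : w = []
    · subst h
      simp
    · rw [ih h, map_zero]

theorem ad_eul (w : List (Fin 2)) (hw : w ≠ []) :
    ∃ q ∈ weightSubspace (fun _ : Fin 2 => 1) w.length,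
      wv (aL 0 + aR 0) (aL 1 + aR 1) w eul = -Lf (iota q) := by
  induction w with
  | nil => exact absurd rfl hw
  | cons i w ih =>
    have e : (if i = 0 then aL 0 + aR 0 else aL 1 + aR 1) = aL i + aR i := by
      fin_cases i <;> rfl
    rw [wv_cons, e, Module.End.mul_apply]
    have hi : iota (FreeLieAlgebra.of ℚ i) = li i := by simp [iota]
    by_cases h : w = []
    · subst h
      refine ⟨FreeLieAlgebra.of ℚ i, mono_mem (IsBracketMonomial.of i), ?_⟩
      rw [wv_nil, Module.End.one_apply, LinearMap.add_apply, aL_apply, aR_apply, ← sub_eq_add_neg,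
        Lf_eul, hi]
    · obtain ⟨q, hq, hqe⟩ := ih h
      refine ⟨⁅FreeLieAlgebra.of ℚ i, q⁆, ?_, ?_⟩
      · refine weight_induction
          (C := fun q => ⁅FreeLieAlgebra.of ℚ i, q⁆ ∈ weightSubspace (fun _ : Fin 2 => 1)
            (i :: w).length) ?_ ?_ ?_ ?_ hq
        · intro x hx
          rw [List.length_cons, add_comm]
          exact mono_mem (IsBracketMonomial.lie (IsBracketMonomial.of i) hx)
        · rw [lie_zero]; exact Submodule.zero_mem _
        · intro x y hx hy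
          rw [lie_add]; exact Submodule.add_mem _ hx hy
        · intro r x hx
          rw [lie_smul]; exact Submodule.smul_mem _ _ hx
      · rw [hqe, LinearMap.add_apply, aL_apply, aR_apply, LieHom.map_lie, hi,
          LieRing.of_associative_ring_bracket, map_sub, map_mul, map_mul]
        simp only [mul_neg, neg_mul, neg_neg, neg_sub]
        abel

theorem exists_lie {n : ℕ} (hn : 1 ≤ n) {f : F} (hf : Homog n f) :
    ∃ q ∈ weightSubspace (fun _ : Fin 2 => 1) n,
      ev (aL 0 + aR 0) (aL 1 + aR 1) f eul = -Lf (iota q) := by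
  have hne : ∀ w ∈ wdsN n, w ≠ [] := by
    intro w hw h
    rw [mem_wdsN] at hw
    subst h
    simp at hw
    omega
  have key : ∀ w ∈ wdsN n, ∃ q ∈ weightSubspace (fun _ : Fin 2 => 1) n,
      wv (aL 0 + aR 0) (aL 1 + aR 1) w eul = -Lf (iota q) := by
    intro w hw
    obtain ⟨q, hq, h⟩ := ad_eul w (hne w hw)
    rw [mem_wdsN.1 hw] at hq
    exact ⟨q, hq, h⟩
  choose! q hq hqe using key
  refine ⟨∑ w ∈ wdsN n, cf w f • q w, Submodule.sum_mem _ fun w hw =>
    Submodule.smul_mem _ _ (hq w hw), ?_⟩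
  conv_lhs => rw [homog_eq hf]
  rw [map_sum, map_sum, map_sum, LinearMap.sum_apply, ← Finset.sum_neg_distrib]
  refine Finset.sum_congr rfl fun w hw => ?_
  rw [map_smul, LinearMap.smul_apply, ev_wd, hqe w hw, map_smul, map_smul, smul_neg]

theorem ad_one_homog {n : ℕ} (hn : 1 ≤ n) {f : F} (hf : Homog n f) :
    ev (aL 0 + aR 0) (aL 1 + aR 1) f (1 : R) = 0 := by
  conv_lhs => rw [homog_eq hf]
  rw [map_sum, LinearMap.sum_apply, Finset.sum_eq_zero]
  intro w hw
  rw [map_smul, LinearMap.smul_apply, ev_wd, ad_one w, smul_zero]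
  intro h
  rw [mem_wdsN] at hw
  subst h
  simp at hw
  omega

end SW

open SW in
/-- **(S2)** -/
theorem S2_holds : S2 := by
  intro n f hn hf hp
  obtain ⟨q, hq, hqe⟩ := exists_lie hn hf
  have h1 := ad_one_homog hn hf
  rw [prim_split hp, LinearMap.add_apply] at h1 hqe
  rw [ev_aR f eul] at hqe
  rw [ev_aL] at h1 hqe
  have h2 : ev (aR 0) (aR 1) f (1 : R) = -Lf f := by
    have h3 : Lf f * 1 + ev (aR 0) (aR 1) f (1 : R) = 0 := h1
    rw [mul_one] at h3
    exact eq_neg_of_add_eq_zero_right h3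
  rw [h2] at hqe
  have h4 : Lf f * eul + eul * -Lf f = -Lf (iota q) := hqe
  have h5 := LinearMap.congr_fun h4 (1 : F)
  simp only [LinearMap.add_apply, Module.End.mul_apply, LinearMap.neg_apply, Lf_apply, mul_one,
    eul_one, mul_zero, zero_add, map_neg, eul_homog hf] at h5
  have h6 : iota q = (n : ℚ) • f := (neg_injective h5).symm
  have hn0 : (n : ℚ) ≠ 0 := by positivity
  refine ⟨(n : ℚ)⁻¹ • q, Submodule.smul_mem _ _ hq, ?_⟩
  rw [map_smul, h6, smul_smul, inv_mul_cancel₀ hn0, one_smul]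

end Crest.Agent.R010
end
end

-- ▼ part R010/EB0
section

/-!
Row 10, module (E-B), part 0: elementary facts on the substitution `gtSubst`.
-/

set_option autoImplicit false

noncomputable section

open Crest.NumberTheoryR.GT

namespace Crest.Agent.R010.EB

section subst

variable {M : Type*} [LieRing M] [LieAlgebra ℚ M]

@[simp] theorem gtSubst_gx (a b : M) : gtSubst a b gx = a := by
  simp [gtSubst, gx, FreeLieAlgebra.lift_of_apply]

@[simp] theorem gtSubst_gy (a b : M) : gtSubst a b gy = b := by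
  simp [gtSubst, gy, FreeLieAlgebra.lift_of_apply]

/-- Uniqueness of substitution. -/
theorem gtLie_hom_ext {f g : GTLie →ₗ⁅ℚ⁆ M} (hx : f gx = g gx) (hy : f gy = g gy) : f = g := by
  apply FreeLieAlgebra.hom_ext
  intro i
  fin_cases i
  · exact hx
  · exact hy


/-- Substitution commutes with Lie homomorphisms. -/
theorem map_gtSubst {M' : Type*} [LieRing M'] [LieAlgebra ℚ M'] (f : M →ₗ⁅ℚ⁆ M') (a b : M)
    (p : GTLie) : f (gtSubst a b p) = gtSubst (f a) (f b) p := by
  have h : f.comp (gtSubst a b) = gtSubst (f a) (f b) :=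
    gtLie_hom_ext (by simp) (by simp)
  exact congrArg (fun g : GTLie →ₗ⁅ℚ⁆ M' => g p) h

theorem gtSubst_gtSubst (a b : M) (u v : GTLie) (p : GTLie) :
    gtSubst a b (gtSubst u v p) = gtSubst (gtSubst a b u) (gtSubst a b v) p :=
  map_gtSubst (gtSubst a b) u v p

theorem gtSubst_id (p : GTLie) : gtSubst gx gy p = p := by
  have h : (gtSubst gx gy : GTLie →ₗ⁅ℚ⁆ GTLie) = LieHom.id :=
    gtLie_hom_ext (by simp) (by simp)
  rw [h]; rfl

/-- Induction principle for a weight subspace (both letters of weight one). -/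
theorem weight_induction {n : ℕ} {P : GTLie → Prop}
    (hm : ∀ q, IsBracketMonomial (fun _ : Fin 2 => 1) n q → P q)
    (h0 : P 0) (hadd : ∀ q q', P q → P q' → P (q + q')) (hsmul : ∀ (c : ℚ) q, P q → P (c • q))
    {p : GTLie} (hp : p ∈ weightSubspace (fun _ : Fin 2 => 1) n) : P p := by
  unfold weightSubspace at hp
  induction hp using Submodule.span_induction with
  | mem x hx => exact hm x hx
  | zero => exact h0
  | add x y _ _ hx hy => exact hadd _ _ hx hy
  | smul c x _ hx => exact hsmul _ _ hx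


/-- An element commuting with `a` and `b` commutes with everything substituted. -/
theorem lie_gtSubst_of_comm {a b c : M} (ha : ⁅c, a⁆ = 0) (hb : ⁅c, b⁆ = 0) {n : ℕ} {q : GTLie}
    (hq : IsBracketMonomial (fun _ : Fin 2 => 1) n q) : ⁅c, gtSubst a b q⁆ = 0 := by
  induction hq with
  | of i =>
    fin_cases i
    · have := gtSubst_gx a b
      simp only [gx] at this
      simp [this, ha]
    · have := gtSubst_gy a b
      simp only [gy] at this
      simp [this, hb]
  | lie _ _ h1 h2 => rw [LieHom.map_lie, leibniz_lie, h1, h2]; simp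

theorem lie_gtSubst_eq_zero {a b c : M} (ha : ⁅c, a⁆ = 0) (hb : ⁅c, b⁆ = 0) {n : ℕ} {p : GTLie}
    (hp : p ∈ weightSubspace (fun _ : Fin 2 => 1) n) : ⁅c, gtSubst a b p⁆ = 0 := by
  refine weight_induction (P := fun p => ⁅c, gtSubst a b p⁆ = 0)
    (fun q hq => lie_gtSubst_of_comm ha hb hq) (by simp) ?_ ?_ hp
  · intro q q' h h'; simp only [map_add, lie_add, h, h', add_zero]
  · intro r q h; simp only [map_smul, lie_smul, h, smul_zero]


/-- Adding elements that commute with everything in sight changes only the linear part. -/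
theorem gtSubst_shift_mono {a b c c' : M} (hca : ⁅c, a⁆ = 0) (hcb : ⁅c, b⁆ = 0)
    (hca' : ⁅c', a⁆ = 0) (hcb' : ⁅c', b⁆ = 0) (hcc : ⁅c, c'⁆ = 0) {n : ℕ} {q : GTLie}
    (hq : IsBracketMonomial (fun _ : Fin 2 => 1) n q) :
    ∃ s s' : ℚ, gtSubst (a + c) (b + c') q = gtSubst a b q + (s • c + s' • c') ∧
      (2 ≤ n → s = 0 ∧ s' = 0) := by
  induction hq with
  | of i =>
    fin_cases i
    · refine ⟨1, 0, ?_, fun h => absurd h (by norm_num)⟩
      have h1 := gtSubst_gx a b
      have h2 := gtSubst_gx (a + c) (b + c')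
      simp only [gx] at h1 h2
      simp [h1, h2]
    · refine ⟨0, 1, ?_, fun h => absurd h (by norm_num)⟩
      have h1 := gtSubst_gy a b
      have h2 := gtSubst_gy (a + c) (b + c')
      simp only [gy] at h1 h2
      simp [h1, h2]
  | @lie m n q1 q2 hq1 hq2 h1 h2 =>
    obtain ⟨s, s', h1, -⟩ := h1
    obtain ⟨t, t', h2, -⟩ := h2
    refine ⟨0, 0, ?_, fun _ => ⟨rfl, rfl⟩⟩
    have e1 := lie_gtSubst_of_comm hca hcb hq2
    have e2 := lie_gtSubst_of_comm hca' hcb' hq2
    have e3 : ⁅gtSubst a b q1, c⁆ = 0 := by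
      rw [← lie_skew, lie_gtSubst_of_comm hca hcb hq1, neg_zero]
    have e4 : ⁅gtSubst a b q1, c'⁆ = 0 := by
      rw [← lie_skew, lie_gtSubst_of_comm hca' hcb' hq1, neg_zero]
    have e5 : ⁅c', c⁆ = 0 := by rw [← lie_skew, hcc, neg_zero]
    rw [LieHom.map_lie, LieHom.map_lie, h1, h2]
    simp only [lie_add, add_lie, lie_smul, smul_lie, e1, e2, e3, e4, e5, hcc, lie_self,
      smul_zero, add_zero, zero_smul]

theorem gtSubst_shift {a b c c' : M} (hca : ⁅c, a⁆ = 0) (hcb : ⁅c, b⁆ = 0)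
    (hca' : ⁅c', a⁆ = 0) (hcb' : ⁅c', b⁆ = 0) (hcc : ⁅c, c'⁆ = 0) {n : ℕ} (hn : 2 ≤ n)
    {p : GTLie} (hp : p ∈ weightSubspace (fun _ : Fin 2 => 1) n) :
    gtSubst (a + c) (b + c') p = gtSubst a b p := by
  refine weight_induction (P := fun p => gtSubst (a + c) (b + c') p = gtSubst a b p)
    (fun q hq => ?_) (by simp) ?_ ?_ hp
  · obtain ⟨s, s', h, h'⟩ := gtSubst_shift_mono hca hcb hca' hcb' hcc hq
    obtain ⟨rfl, rfl⟩ := h' hn
    rw [h]; simp
  · intro q q' h h'; rw [map_add, map_add, h, h']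
  · intro r q h; rw [map_smul, map_smul, h]

theorem gtSubst_smul (k : ℚ) (a b : M) {n : ℕ} {p : GTLie}
    (hp : p ∈ weightSubspace (fun _ : Fin 2 => 1) n) :
    gtSubst (k • a) (k • b) p = k ^ n • gtSubst a b p := by
  refine weight_induction
    (P := fun p => gtSubst (k • a) (k • b) p = k ^ n • gtSubst a b p)
    (fun q hq => ?_) (by simp) ?_ ?_ hp
  · clear hp
    induction hq with
    | of i =>
      fin_cases i
      · have h1 := gtSubst_gx a b
        have h2 := gtSubst_gx (k • a) (k • b)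
        simp only [gx] at h1 h2
        simp [h1, h2]
      · have h1 := gtSubst_gy a b
        have h2 := gtSubst_gy (k • a) (k • b)
        simp only [gy] at h1 h2
        simp [h1, h2]
    | @lie m n q1 q2 hq1 hq2 h1 h2 =>
      rw [LieHom.map_lie, LieHom.map_lie, h1, h2, smul_lie, lie_smul, smul_smul, pow_add]
  · intro q q' h h'; rw [map_add, map_add, h, h', smul_add]
  · intro r q h; rw [map_smul, map_smul, h, smul_comm]

theorem gtSubst_zero_zero {n : ℕ} (hn : 1 ≤ n) {p : GTLie}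
    (hp : p ∈ weightSubspace (fun _ : Fin 2 => 1) n) : gtSubst (0 : M) (0 : M) p = 0 := by
  have := gtSubst_smul 0 (0 : M) (0 : M) hp
  rw [smul_zero, zero_pow (by omega), zero_smul] at this
  exact this

theorem gtSubst_comm {a b : M} (hab : ⁅a, b⁆ = 0) {n : ℕ} (hn : 2 ≤ n) {p : GTLie}
    (hp : p ∈ weightSubspace (fun _ : Fin 2 => 1) n) : gtSubst a b p = 0 := by
  have h := gtSubst_shift (a := (0 : M)) (b := 0) (c := a) (c' := b) (by simp) (by simp)
    (by simp) (by simp) hab hn hp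
  rw [zero_add, zero_add, gtSubst_zero_zero (by omega) hp] at h
  exact h

/-- Antisymmetry in every Lie algebra. -/
theorem gtSubst_swap {p : GTLie} (hp : antisymDefect p = 0) (a b : M) :
    gtSubst b a p = - gtSubst a b p := by
  have h : gtSubst a b (antisymDefect p) = 0 := by rw [hp]; simp
  have e : antisymDefect p = p + gtSubst gy gx p := rfl
  rw [e, map_add, gtSubst_gtSubst, gtSubst_gy, gtSubst_gx] at h
  exact (neg_eq_of_add_eq_zero_right h).symm

/-- The three-term expression in a Lie algebra. -/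
def T3 (p : GTLie) (a b : M) : M :=
  gtSubst a b p + gtSubst b (-a - b) p + gtSubst (-a - b) a p

theorem gtSubst_threeTerm (p : GTLie) (a b : M) :
    gtSubst a b (threeTermDefect p) = T3 p a b := by
  have e : threeTermDefect p = p + gtSubst gy (-gx - gy) p + gtSubst (-gx - gy) gx p := rfl
  rw [e, map_add, map_add, gtSubst_gtSubst, gtSubst_gtSubst, map_sub, map_neg, gtSubst_gx,
    gtSubst_gy]
  rfl

theorem map_T3 {M' : Type*} [LieRing M'] [LieAlgebra ℚ M'] (f : M →ₗ⁅ℚ⁆ M') (p : GTLie)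
    (a b : M) : f (T3 p a b) = T3 p (f a) (f b) := by
  simp only [T3, map_add, map_gtSubst, map_sub, map_neg]

theorem T3_gx_gy (p : GTLie) : T3 p gx gy = threeTermDefect p := by
  rw [← gtSubst_threeTerm, gtSubst_id]

end subst

end Crest.Agent.R010.EB
end
end

-- ▼ part R010/EBConf
section

/-!
Row 10, module (E-B), part 1: 5-configurations `X : Fin 5 → Fin 5 → M` in a Lie algebra over ℚ, the
homomorphism from `braidLie4`, and the pentagon for all 5-cycles.
-/

set_option autoImplicit false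
set_option linter.unusedSectionVars false
set_option linter.unusedVariables false

noncomputable section

open Crest.NumberTheoryR.GT

namespace Crest.Agent.R010.EB

variable {M : Type*} [LieRing M] [LieAlgebra ℚ M]

/-- A 5-configuration (with vanishing row sums). -/
structure Conf (X : Fin 5 → Fin 5 → M) : Prop where
  symm : ∀ a b, X a b = X b a
  comm : ∀ a b c d, a ≠ b → a ≠ c → a ≠ d → b ≠ c → b ≠ d → c ≠ d → ⁅X a b, X c d⁆ = 0
  sum3 : ∀ a b c d e, a ≠ b → a ≠ c → a ≠ d → a ≠ e → b ≠ c → b ≠ d → b ≠ e → c ≠ d → c ≠ e →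
    d ≠ e → X a b + X b c + X a c = X d e

namespace Conf

variable {X : Fin 5 → Fin 5 → M}

theorem comp (hX : Conf X) (π : Fin 5 → Fin 5) (hπ : Function.Injective π) :
    Conf (fun a b => X (π a) (π b)) where
  symm a b := hX.symm _ _
  comm a b c d h1 h2 h3 h4 h5 h6 := hX.comm _ _ _ _ (hπ.ne h1) (hπ.ne h2) (hπ.ne h3) (hπ.ne h4)
    (hπ.ne h5) (hπ.ne h6)
  sum3 a b c d e h1 h2 h3 h4 h5 h6 h7 h8 h9 h10 := hX.sum3 _ _ _ _ _ (hπ.ne h1) (hπ.ne h2)
    (hπ.ne h3) (hπ.ne h4) (hπ.ne h5) (hπ.ne h6) (hπ.ne h7) (hπ.ne h8) (hπ.ne h9) (hπ.ne h10)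

/-- The homomorphism `FreeBraid4 → M` of a configuration. -/
def free (X : Fin 5 → Fin 5 → M) : FreeBraid4 →ₗ⁅ℚ⁆ M :=
  FreeLieAlgebra.lift ℚ (fun g : BraidGen4 => X g.1.1.castSucc g.1.2.castSucc)

theorem free_tFree (hX : Conf X) {i j : Fin 4} (hij : i ≠ j) :
    free X (tFree i j) = X i.castSucc j.castSucc := by
  unfold free tFree
  by_cases h : i < j
  · rw [dif_pos h, FreeLieAlgebra.lift_of_apply]
  · have h' : j < i := lt_of_le_of_ne (not_lt.mp h) (Ne.symm hij)
    rw [dif_neg h, dif_pos h', FreeLieAlgebra.lift_of_apply]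
    exact hX.symm _ _

theorem free_rel (hX : Conf X) {r : FreeBraid4} (hr : r ∈ braidRelations4) : free X r = 0 := by
  have inj : Function.Injective (Fin.castSucc : Fin 4 → Fin 5) := Fin.castSucc_injective 4
  rcases hr with ⟨i, j, k, l, h1, h2, h3, h4, h5, h6, rfl⟩ | ⟨i, j, k, h1, h2, h3, rfl⟩
  · rw [LieHom.map_lie, free_tFree hX h1, free_tFree hX h6]
    exact hX.comm _ _ _ _ (inj.ne h1) (inj.ne h2) (inj.ne h3) (inj.ne h4) (inj.ne h5) (inj.ne h6)
  · rw [LieHom.map_lie, map_add, free_tFree hX h1, free_tFree hX h2, free_tFree hX h3]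
    obtain ⟨l, hl⟩ : ∃ l : Fin 4, i ≠ l ∧ j ≠ l ∧ k ≠ l := by
      revert i j k; decide
    obtain ⟨h4, h5, h6⟩ := hl
    have hlast : ∀ i : Fin 4, i.castSucc ≠ Fin.last 4 := fun i => Fin.castSucc_ne_last i
    have e : X i.castSucc k.castSucc + X j.castSucc k.castSucc =
        X l.castSucc (Fin.last 4) - X i.castSucc j.castSucc := by
      rw [← hX.sum3 i.castSucc j.castSucc k.castSucc l.castSucc (Fin.last 4) (inj.ne h1)
        (inj.ne h2) (inj.ne h4) (hlast _) (inj.ne h3) (inj.ne h5) (hlast _) (inj.ne h6) (hlast _)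
        (hlast _)]
      abel
    rw [e, lie_sub, lie_self, sub_zero]
    exact hX.comm _ _ _ _ (inj.ne h1) (inj.ne h4) (hlast _) (inj.ne h5) (hlast _) (hlast _)

/-- The homomorphism `braidLie4 → M` of a configuration. -/
theorem exists_braidHom (hX : Conf X) :
    ∃ θ : braidLie4 →ₗ⁅ℚ⁆ M, ∀ i j : Fin 4, i ≠ j → θ (tB i j) = X i.castSucc j.castSucc := by
  have hker : braidIdeal4 ≤ (free X).ker := by
    unfold braidIdeal4
    rw [LieSubmodule.lieSpan_le]
    intro r hr
    exact free_rel hX hr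
  let θl : braidLie4 →ₗ[ℚ] M := Submodule.liftQ braidIdeal4.toSubmodule
    (free X).toLinearMap (fun x hx => hker hx)
  have hmk : ∀ x : FreeBraid4, θl (LieSubmodule.Quotient.mk x) = free X x := fun x => rfl
  refine ⟨{ toLinearMap := θl, map_lie' := ?_ }, ?_⟩
  · intro x y
    obtain ⟨x, rfl⟩ := LieSubmodule.Quotient.surjective_mk' braidIdeal4 x
    obtain ⟨y, rfl⟩ := LieSubmodule.Quotient.surjective_mk' braidIdeal4 y
    exact LieHom.map_lie (free X) x y
  · intro i j hij
    exact free_tFree hX hij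

end Conf

end Crest.Agent.R010.EB
end
end

-- ▼ part R010/EBLin
section

/-!
Row 10, module (E-B), part 2: the linear algebra of the pentagons in a configuration.
-/

set_option autoImplicit false
set_option linter.unusedSectionVars false
set_option linter.unusedVariables false
set_option linter.unusedSimpArgs false

noncomputable section

open Crest.NumberTheoryR.GT

namespace Crest.Agent.R010.EB

section sums

variable {M : Type*} [AddCommGroup M] [Module ℚ M]

/-- The signed sum of the twelve pentagons. -/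
theorem sumS_aux (Q : Fin 5 → Fin 5 → Fin 5 → M)
    (anti : ∀ a b c, a ≠ b → b ≠ c → a ≠ c → Q c b a = - Q a b c)
    (pent : ∀ a b c d e : Fin 5, Function.Injective ![b, a, e, d, c] →
      Q a b c + Q b c d + Q c d e + Q d e a + Q e a b = 0) :
    (Q 0 1 2 + Q 1 2 0 + Q 2 0 1) + (Q 0 1 3 + Q 1 3 0 + Q 3 0 1) +
      (Q 0 1 4 + Q 1 4 0 + Q 4 0 1) = 0 := by
  have p0 := pent 0 1 2 3 4 (by decide)
  have p1 := pent 0 1 2 4 3 (by decide)
  have p2 := pent 0 1 3 2 4 (by decide)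
  have p3 := pent 0 1 3 4 2 (by decide)
  have p4 := pent 0 1 4 2 3 (by decide)
  have p5 := pent 0 1 4 3 2 (by decide)
  have p6 := pent 0 2 3 1 4 (by decide)
  have p7 := pent 0 2 4 1 3 (by decide)
  have p8 := pent 0 3 2 1 4 (by decide)
  have p9 := pent 0 2 1 3 4 (by decide)
  have p10 := pent 0 2 1 4 3 (by decide)
  have p11 := pent 0 3 1 2 4 (by decide)
  have a0 : Q 2 1 0 = - Q 0 1 2 := anti 0 1 2 (by decide) (by decide) (by decide)
  have a1 : Q 3 1 0 = - Q 0 1 3 := anti 0 1 3 (by decide) (by decide) (by decide)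
  have a2 : Q 4 1 0 = - Q 0 1 4 := anti 0 1 4 (by decide) (by decide) (by decide)
  have a3 : Q 1 2 0 = - Q 0 2 1 := anti 0 2 1 (by decide) (by decide) (by decide)
  have a4 : Q 3 2 0 = - Q 0 2 3 := anti 0 2 3 (by decide) (by decide) (by decide)
  have a5 : Q 4 2 0 = - Q 0 2 4 := anti 0 2 4 (by decide) (by decide) (by decide)
  have a6 : Q 1 3 0 = - Q 0 3 1 := anti 0 3 1 (by decide) (by decide) (by decide)
  have a7 : Q 2 3 0 = - Q 0 3 2 := anti 0 3 2 (by decide) (by decide) (by decide)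
  have a8 : Q 4 3 0 = - Q 0 3 4 := anti 0 3 4 (by decide) (by decide) (by decide)
  have a9 : Q 1 4 0 = - Q 0 4 1 := anti 0 4 1 (by decide) (by decide) (by decide)
  have a10 : Q 2 4 0 = - Q 0 4 2 := anti 0 4 2 (by decide) (by decide) (by decide)
  have a11 : Q 3 4 0 = - Q 0 4 3 := anti 0 4 3 (by decide) (by decide) (by decide)
  have a12 : Q 2 0 1 = - Q 1 0 2 := anti 1 0 2 (by decide) (by decide) (by decide)
  have a13 : Q 3 0 1 = - Q 1 0 3 := anti 1 0 3 (by decide) (by decide) (by decide)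
  have a14 : Q 4 0 1 = - Q 1 0 4 := anti 1 0 4 (by decide) (by decide) (by decide)
  have a15 : Q 3 2 1 = - Q 1 2 3 := anti 1 2 3 (by decide) (by decide) (by decide)
  have a16 : Q 4 2 1 = - Q 1 2 4 := anti 1 2 4 (by decide) (by decide) (by decide)
  have a17 : Q 2 3 1 = - Q 1 3 2 := anti 1 3 2 (by decide) (by decide) (by decide)
  have a18 : Q 4 3 1 = - Q 1 3 4 := anti 1 3 4 (by decide) (by decide) (by decide)
  have a19 : Q 2 4 1 = - Q 1 4 2 := anti 1 4 2 (by decide) (by decide) (by decide)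
  have a20 : Q 3 4 1 = - Q 1 4 3 := anti 1 4 3 (by decide) (by decide) (by decide)
  have a21 : Q 3 0 2 = - Q 2 0 3 := anti 2 0 3 (by decide) (by decide) (by decide)
  have a22 : Q 4 0 2 = - Q 2 0 4 := anti 2 0 4 (by decide) (by decide) (by decide)
  have a23 : Q 3 1 2 = - Q 2 1 3 := anti 2 1 3 (by decide) (by decide) (by decide)
  have a24 : Q 4 1 2 = - Q 2 1 4 := anti 2 1 4 (by decide) (by decide) (by decide)
  have a25 : Q 4 3 2 = - Q 2 3 4 := anti 2 3 4 (by decide) (by decide) (by decide)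
  have a26 : Q 3 4 2 = - Q 2 4 3 := anti 2 4 3 (by decide) (by decide) (by decide)
  have a27 : Q 4 0 3 = - Q 3 0 4 := anti 3 0 4 (by decide) (by decide) (by decide)
  have a28 : Q 4 1 3 = - Q 3 1 4 := anti 3 1 4 (by decide) (by decide) (by decide)
  have a29 : Q 4 2 3 = - Q 3 2 4 := anti 3 2 4 (by decide) (by decide) (by decide)
  simp only [a0, a1, a2, a3, a4, a5, a6, a7, a8, a9, a10, a11, a12, a13, a14, a15, a16, a17, a18, a19, a20, a21, a22, a23, a24, a25, a26, a27, a28, a29] at p0 p1 p2 p3 p4 p5 p6 p7 p8 p9 p10 p11 ⊢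
  refine (smul_right_injective M (two_ne_zero (α := ℚ))) ?_
  simp only [smul_zero, two_smul]
  have key : ∀ x y : M, y = 0 → x = y → x = 0 := fun x y h1 h2 => h2.trans h1
  refine key _ (0 + (Q 0 1 2 + Q 1 2 3 + Q 2 3 4 + -Q 0 4 3 + -Q 1 0 4) + (Q 0 1 2 + Q 1 2 4 + Q 2 4 3 + -Q 0 3 4 + -Q 1 0 3) + (Q 0 1 3 + Q 1 3 2 + Q 3 2 4 + -Q 0 4 2 + -Q 1 0 4) + (Q 0 1 3 + Q 1 3 4 + -Q 2 4 3 + -Q 0 2 4 + -Q 1 0 2) + (Q 0 1 4 + Q 1 4 2 + -Q 3 2 4 + -Q 0 3 2 + -Q 1 0 3) + (Q 0 1 4 + Q 1 4 3 + -Q 2 3 4 + -Q 0 2 3 + -Q 1 0 2) + (Q 0 2 3 + -Q 1 3 2 + Q 3 1 4 + -Q 0 4 1 + -Q 2 0 4) + (Q 0 2 4 + -Q 1 4 2 + -Q 3 1 4 + -Q 0 3 1 + -Q 2 0 3) + (Q 0 3 2 + -Q 1 2 3 + Q 2 1 4 + -Q 0 4 1 + -Q 3 0 4) - (Q 0 2 1 + Q 2 1 3 + Q 1 3 4 + -Q 0 4 3 + -Q 2 0 4) - (Q 0 2 1 + Q 2 1 4 + Q 1 4 3 + -Q 0 3 4 + -Q 2 0 3) - (Q 0 3 1 + -Q 2 1 3 + Q 1 2 4 + -Q 0 4 2 + -Q 3 0 4)) ?_ ?_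
  · rw [p0, p1, p2, p3, p4, p5, p6, p7, p8, p9, p10, p11]; simp
  · abel

end sums


section coc

variable {M : Type*} [LieRing M] [LieAlgebra ℚ M]

/-- The expression `σ_{abc} = [X_bc, Q_abc] + [X_ac, Q_bac]`. -/
def sig (X : Fin 5 → Fin 5 → M) (Q : Fin 5 → Fin 5 → Fin 5 → M) (a b c : Fin 5) : M :=
  ⁅X b c, Q a b c⁆ + ⁅X a c, Q b a c⁆

/-- The cocycle identity from the brackets of the pentagons. -/
theorem coc_aux {X : Fin 5 → Fin 5 → M} (hX : Conf X) (Q : Fin 5 → Fin 5 → Fin 5 → M)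
    (anti : ∀ a b c, a ≠ b → b ≠ c → a ≠ c → Q c b a = - Q a b c)
    (three : ∀ a b c, a ≠ b → b ≠ c → a ≠ c → Q a b c + Q b c a + Q c a b = 0)
    (comm : ∀ a b c d e : Fin 5, a ≠ b → b ≠ c → a ≠ c → d ≠ e → d ≠ a → d ≠ b → d ≠ c →
      e ≠ a → e ≠ b → e ≠ c → ⁅X d e, Q a b c⁆ = 0)
    (pent : ∀ a b c d e : Fin 5, Function.Injective ![b, a, e, d, c] →
      Q a b c + Q b c d + Q c d e + Q d e a + Q e a b = 0) :
    sig X Q 1 2 3 + sig X Q 1 0 4 = sig X Q 1 2 4 + sig X Q 1 0 3 := by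
  rw [← sub_eq_zero]
  unfold sig
  have p0 : ⁅X 1 2, Q 0 1 2 + Q 1 2 3 + Q 2 3 4 + Q 3 4 0 + Q 4 0 1⁆ = 0 := by rw [pent 0 1 2 3 4 (by decide), lie_zero]
  have p1 : ⁅X 1 2, Q 0 1 2 + Q 1 2 4 + Q 2 4 3 + Q 4 3 0 + Q 3 0 1⁆ = 0 := by rw [pent 0 1 2 4 3 (by decide), lie_zero]
  have p2 : ⁅X 1 3, Q 0 1 3 + Q 1 3 2 + Q 3 2 4 + Q 2 4 0 + Q 4 0 1⁆ = 0 := by rw [pent 0 1 3 2 4 (by decide), lie_zero]
  have p3 : ⁅X 0 1, Q 0 1 4 + Q 1 4 2 + Q 4 2 3 + Q 2 3 0 + Q 3 0 1⁆ = 0 := by rw [pent 0 1 4 2 3 (by decide), lie_zero]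
  have p4 : ⁅X 1 2, Q 0 1 4 + Q 1 4 2 + Q 4 2 3 + Q 2 3 0 + Q 3 0 1⁆ = 0 := by rw [pent 0 1 4 2 3 (by decide), lie_zero]
  have p5 : ⁅X 1 3, Q 0 1 4 + Q 1 4 2 + Q 4 2 3 + Q 2 3 0 + Q 3 0 1⁆ = 0 := by rw [pent 0 1 4 2 3 (by decide), lie_zero]
  have c0 : ⁅X 2 4, Q 0 1 3⁆ = 0 := comm 0 1 3 2 4 (by decide) (by decide) (by decide) (by decide) (by decide) (by decide) (by decide) (by decide) (by decide) (by decide)
  have c1 : ⁅X 2 4, Q 1 3 0⁆ = 0 := comm 1 3 0 2 4 (by decide) (by decide) (by decide) (by decide) (by decide) (by decide) (by decide) (by decide) (by decide) (by decide)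
  have c2 : ⁅X 2 3, Q 0 1 4⁆ = 0 := comm 0 1 4 2 3 (by decide) (by decide) (by decide) (by decide) (by decide) (by decide) (by decide) (by decide) (by decide) (by decide)
  have c3 : ⁅X 2 3, Q 1 4 0⁆ = 0 := comm 1 4 0 2 3 (by decide) (by decide) (by decide) (by decide) (by decide) (by decide) (by decide) (by decide) (by decide) (by decide)
  have c4 : ⁅X 1 4, Q 2 3 0⁆ = 0 := comm 2 3 0 1 4 (by decide) (by decide) (by decide) (by decide) (by decide) (by decide) (by decide) (by decide) (by decide) (by decide)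
  have c5 : ⁅X 1 3, Q 2 4 0⁆ = 0 := comm 2 4 0 1 3 (by decide) (by decide) (by decide) (by decide) (by decide) (by decide) (by decide) (by decide) (by decide) (by decide)
  have c6 : ⁅X 1 2, Q 0 3 4⁆ = 0 := comm 0 3 4 1 2 (by decide) (by decide) (by decide) (by decide) (by decide) (by decide) (by decide) (by decide) (by decide) (by decide)
  have c7 : ⁅X 1 2, Q 3 4 0⁆ = 0 := comm 3 4 0 1 2 (by decide) (by decide) (by decide) (by decide) (by decide) (by decide) (by decide) (by decide) (by decide) (by decide)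
  have c8 : ⁅X 0 4, Q 1 2 3⁆ = 0 := comm 1 2 3 0 4 (by decide) (by decide) (by decide) (by decide) (by decide) (by decide) (by decide) (by decide) (by decide) (by decide)
  have c9 : ⁅X 0 3, Q 1 2 4⁆ = 0 := comm 1 2 4 0 3 (by decide) (by decide) (by decide) (by decide) (by decide) (by decide) (by decide) (by decide) (by decide) (by decide)
  have c10 : ⁅X 0 1, Q 2 3 4⁆ = 0 := comm 2 3 4 0 1 (by decide) (by decide) (by decide) (by decide) (by decide) (by decide) (by decide) (by decide) (by decide) (by decide)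
  have c11 : ⁅X 0 1, Q 3 4 2⁆ = 0 := comm 3 4 2 0 1 (by decide) (by decide) (by decide) (by decide) (by decide) (by decide) (by decide) (by decide) (by decide) (by decide)
  have n0 : Q 2 0 1 = - Q 0 1 2 - Q 1 2 0 := by
    have := three 0 1 2 (by decide) (by decide) (by decide)
    rw [← sub_eq_zero, ← this]; abel
  have n1 : Q 2 1 0 = - Q 0 1 2 := anti _ _ _ (by decide) (by decide) (by decide)
  have n2 : Q 0 2 1 = - Q 1 2 0 := anti _ _ _ (by decide) (by decide) (by decide)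
  have n3 : Q 1 0 2 = - Q 2 0 1 := anti _ _ _ (by decide) (by decide) (by decide)
  have n4 : Q 3 0 1 = - Q 0 1 3 - Q 1 3 0 := by
    have := three 0 1 3 (by decide) (by decide) (by decide)
    rw [← sub_eq_zero, ← this]; abel
  have n5 : Q 3 1 0 = - Q 0 1 3 := anti _ _ _ (by decide) (by decide) (by decide)
  have n6 : Q 0 3 1 = - Q 1 3 0 := anti _ _ _ (by decide) (by decide) (by decide)
  have n7 : Q 1 0 3 = - Q 3 0 1 := anti _ _ _ (by decide) (by decide) (by decide)
  have n8 : Q 4 0 1 = - Q 0 1 4 - Q 1 4 0 := by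
    have := three 0 1 4 (by decide) (by decide) (by decide)
    rw [← sub_eq_zero, ← this]; abel
  have n9 : Q 4 1 0 = - Q 0 1 4 := anti _ _ _ (by decide) (by decide) (by decide)
  have n10 : Q 0 4 1 = - Q 1 4 0 := anti _ _ _ (by decide) (by decide) (by decide)
  have n11 : Q 1 0 4 = - Q 4 0 1 := anti _ _ _ (by decide) (by decide) (by decide)
  have n12 : Q 3 0 2 = - Q 0 2 3 - Q 2 3 0 := by
    have := three 0 2 3 (by decide) (by decide) (by decide)
    rw [← sub_eq_zero, ← this]; abel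
  have n13 : Q 3 2 0 = - Q 0 2 3 := anti _ _ _ (by decide) (by decide) (by decide)
  have n14 : Q 0 3 2 = - Q 2 3 0 := anti _ _ _ (by decide) (by decide) (by decide)
  have n15 : Q 2 0 3 = - Q 3 0 2 := anti _ _ _ (by decide) (by decide) (by decide)
  have n16 : Q 4 0 2 = - Q 0 2 4 - Q 2 4 0 := by
    have := three 0 2 4 (by decide) (by decide) (by decide)
    rw [← sub_eq_zero, ← this]; abel
  have n17 : Q 4 2 0 = - Q 0 2 4 := anti _ _ _ (by decide) (by decide) (by decide)
  have n18 : Q 0 4 2 = - Q 2 4 0 := anti _ _ _ (by decide) (by decide) (by decide)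
  have n19 : Q 2 0 4 = - Q 4 0 2 := anti _ _ _ (by decide) (by decide) (by decide)
  have n20 : Q 4 0 3 = - Q 0 3 4 - Q 3 4 0 := by
    have := three 0 3 4 (by decide) (by decide) (by decide)
    rw [← sub_eq_zero, ← this]; abel
  have n21 : Q 4 3 0 = - Q 0 3 4 := anti _ _ _ (by decide) (by decide) (by decide)
  have n22 : Q 0 4 3 = - Q 3 4 0 := anti _ _ _ (by decide) (by decide) (by decide)
  have n23 : Q 3 0 4 = - Q 4 0 3 := anti _ _ _ (by decide) (by decide) (by decide)
  have n24 : Q 3 1 2 = - Q 1 2 3 - Q 2 3 1 := by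
    have := three 1 2 3 (by decide) (by decide) (by decide)
    rw [← sub_eq_zero, ← this]; abel
  have n25 : Q 3 2 1 = - Q 1 2 3 := anti _ _ _ (by decide) (by decide) (by decide)
  have n26 : Q 1 3 2 = - Q 2 3 1 := anti _ _ _ (by decide) (by decide) (by decide)
  have n27 : Q 2 1 3 = - Q 3 1 2 := anti _ _ _ (by decide) (by decide) (by decide)
  have n28 : Q 4 1 2 = - Q 1 2 4 - Q 2 4 1 := by
    have := three 1 2 4 (by decide) (by decide) (by decide)
    rw [← sub_eq_zero, ← this]; abel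
  have n29 : Q 4 2 1 = - Q 1 2 4 := anti _ _ _ (by decide) (by decide) (by decide)
  have n30 : Q 1 4 2 = - Q 2 4 1 := anti _ _ _ (by decide) (by decide) (by decide)
  have n31 : Q 2 1 4 = - Q 4 1 2 := anti _ _ _ (by decide) (by decide) (by decide)
  have n32 : Q 4 1 3 = - Q 1 3 4 - Q 3 4 1 := by
    have := three 1 3 4 (by decide) (by decide) (by decide)
    rw [← sub_eq_zero, ← this]; abel
  have n33 : Q 4 3 1 = - Q 1 3 4 := anti _ _ _ (by decide) (by decide) (by decide)
  have n34 : Q 1 4 3 = - Q 3 4 1 := anti _ _ _ (by decide) (by decide) (by decide)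
  have n35 : Q 3 1 4 = - Q 4 1 3 := anti _ _ _ (by decide) (by decide) (by decide)
  have n36 : Q 4 2 3 = - Q 2 3 4 - Q 3 4 2 := by
    have := three 2 3 4 (by decide) (by decide) (by decide)
    rw [← sub_eq_zero, ← this]; abel
  have n37 : Q 4 3 2 = - Q 2 3 4 := anti _ _ _ (by decide) (by decide) (by decide)
  have n38 : Q 2 4 3 = - Q 3 4 2 := anti _ _ _ (by decide) (by decide) (by decide)
  have n39 : Q 3 2 4 = - Q 4 2 3 := anti _ _ _ (by decide) (by decide) (by decide)
  have s01 : X 1 0 = X 0 1 := hX.symm _ _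
  have s02 : X 2 0 = X 0 2 := hX.symm _ _
  have s03 : X 3 0 = X 0 3 := hX.symm _ _
  have s04 : X 4 0 = X 0 4 := hX.symm _ _
  have s12 : X 2 1 = X 1 2 := hX.symm _ _
  have s13 : X 3 1 = X 1 3 := hX.symm _ _
  have s14 : X 4 1 = X 1 4 := hX.symm _ _
  have s23 : X 3 2 = X 2 3 := hX.symm _ _
  have s24 : X 4 2 = X 2 4 := hX.symm _ _
  have s34 : X 4 3 = X 3 4 := hX.symm _ _
  have x02 : X 0 2 = X 3 4 - X 0 1 - X 1 2 := by
    have := hX.sum3 0 1 2 3 4 (by decide) (by decide) (by decide) (by decide) (by decide) (by decide) (by decide) (by decide) (by decide) (by decide)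
    try simp only [s01, s02, s03, s04, s12, s13, s14, s23, s24, s34] at this
    rw [← this]; abel
  have x13 : X 1 3 = X 0 4 - X 1 2 - X 2 3 := by
    have := hX.sum3 1 2 3 0 4 (by decide) (by decide) (by decide) (by decide) (by decide) (by decide) (by decide) (by decide) (by decide) (by decide)
    try simp only [s01, s02, s03, s04, s12, s13, s14, s23, s24, s34] at this
    rw [← this]; abel
  have x24 : X 2 4 = X 0 1 - X 2 3 - X 3 4 := by
    have := hX.sum3 2 3 4 0 1 (by decide) (by decide) (by decide) (by decide) (by decide) (by decide) (by decide) (by decide) (by decide) (by decide)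
    try simp only [s01, s02, s03, s04, s12, s13, s14, s23, s24, s34] at this
    rw [← this]; abel
  have x03 : X 0 3 = X 1 2 - X 3 4 - X 0 4 := by
    have := hX.sum3 3 4 0 1 2 (by decide) (by decide) (by decide) (by decide) (by decide) (by decide) (by decide) (by decide) (by decide) (by decide)
    try simp only [s01, s02, s03, s04, s12, s13, s14, s23, s24, s34] at this
    rw [← this]; abel
  have x14 : X 1 4 = X 2 3 - X 0 4 - X 0 1 := by
    have := hX.sum3 4 0 1 2 3 (by decide) (by decide) (by decide) (by decide) (by decide) (by decide) (by decide) (by decide) (by decide) (by decide)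
    try simp only [s01, s02, s03, s04, s12, s13, s14, s23, s24, s34] at this
    rw [← this]; abel
  have key : ∀ x y : M, y = 0 → x = y → x = 0 := fun x y h1 h2 => h2.trans h1
  refine key _ (0 - ⁅X 1 2, Q 0 1 2 + Q 1 2 3 + Q 2 3 4 + Q 3 4 0 + Q 4 0 1⁆ + ⁅X 1 2, Q 0 1 2 + Q 1 2 4 + Q 2 4 3 + Q 4 3 0 + Q 3 0 1⁆ - ⁅X 1 3, Q 0 1 3 + Q 1 3 2 + Q 3 2 4 + Q 2 4 0 + Q 4 0 1⁆ - ⁅X 0 1, Q 0 1 4 + Q 1 4 2 + Q 4 2 3 + Q 2 3 0 + Q 3 0 1⁆ - ⁅X 1 2, Q 0 1 4 + Q 1 4 2 + Q 4 2 3 + Q 2 3 0 + Q 3 0 1⁆ - ⁅X 1 3, Q 0 1 4 + Q 1 4 2 + Q 4 2 3 + Q 2 3 0 + Q 3 0 1⁆ - ⁅X 2 4, Q 0 1 3⁆ - ⁅X 2 4, Q 1 3 0⁆ + ⁅X 2 3, Q 0 1 4⁆ + ⁅X 2 3, Q 1 4 0⁆ - ⁅X 1 4, Q 2 3 0⁆ + ⁅X 1 3, Q 2 4 0⁆ + ⁅X 1 2, Q 0 3 4⁆ + ⁅X 1 2, Q 3 4 0⁆ + ⁅X 0 4, Q 1 2 3⁆ - ⁅X 0 3, Q 1 2 4⁆ - ⁅X 0 1, Q 2 3 4⁆ - ⁅X 0 1, Q 3 4 2⁆) ?_ ?_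
  · rw [p0, p1, p2, p3, p4, p5, c0, c1, c2, c3, c4, c5, c6, c7, c8, c9, c10, c11]; simp
  · simp only [n0, n1, n2, n3, n4, n5, n6, n7, n8, n9, n10, n11, n12, n13, n14, n15, n16, n17, n18, n19, n20, n21, n22, n23, n24, n25, n26, n27, n28, n29, n30, n31, n32, n33, n34, n35, n36, n37, n38, n39, s01, s02, s03, s04, s12, s13, s14, s23, s24, s34]
    simp only [x02, x13, x24, x03, x14]
    simp only [lie_add, lie_sub, lie_neg, add_lie, sub_lie, neg_lie, neg_neg, neg_sub]
    abel

end coc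

end Crest.Agent.R010.EB
end
end

-- ▼ part R010/EBFib
section

/-!
Row 10, module (E-B), part 3: configurations from five elements `r`, and the fibre configuration
`(-(y₂+y₃+y₄), y₂, D, D', y₂+y₃+D)` on the free associative algebra.
-/

set_option autoImplicit false
set_option linter.unusedSectionVars false
set_option linter.unusedVariables false
set_option linter.unusedSimpArgs false

noncomputable section

open Crest.NumberTheoryR.GT

namespace Crest.Agent.R010.EB

section ofR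

variable {M : Type*} [LieRing M] [LieAlgebra ℚ M]

/-- The configuration of five elements `r₀,…,r₄` (`X_{i,i+1} = r_i`). -/
def XR (r : Fin 5 → M) : Fin 5 → Fin 5 → M :=
  ![![0, r 0, r 3 - r 0 - r 1, r 1 - r 3 - r 4, r 4],
    ![r 0, 0, r 1, r 4 - r 1 - r 2, r 2 - r 4 - r 0],
    ![r 3 - r 0 - r 1, r 1, 0, r 2, r 0 - r 2 - r 3],
    ![r 1 - r 3 - r 4, r 4 - r 1 - r 2, r 2, 0, r 3],
    ![r 4, r 2 - r 4 - r 0, r 0 - r 2 - r 3, r 3, 0]]

/-- The relations on five elements. -/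
def RConf (r : Fin 5 → M) : Prop :=
  (∀ i, ⁅r i, r (i + 2)⁆ = 0) ∧ ∑ i, ⁅r i, r (i + 1)⁆ = 0

theorem RConf.rot {r : Fin 5 → M} (h : RConf r) (k : Fin 5) : RConf (fun i => r (i + k)) := by
  refine ⟨fun i => ?_, ?_⟩
  · have := h.1 (i + k)
    rw [add_right_comm i k 2] at this
    exact this
  · rw [← h.2]
    refine Fintype.sum_equiv (Equiv.addRight (k : Fin 5)) _ _ (fun i => ?_)
    simp only [Equiv.coe_addRight]
    rw [add_right_comm i 1 k]

theorem XR_rot (r : Fin 5 → M) (k a b : Fin 5) :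
    XR r (a + k) (b + k) = XR (fun i => r (i + k)) a b := by
  fin_cases k <;> fin_cases a <;> fin_cases b <;> rfl

theorem XR_rot' (r : Fin 5 → M) (k a b : Fin 5) :
    XR r a b = XR (fun i => r (i + k)) (a - k) (b - k) := by
  rw [← XR_rot, sub_add_cancel, sub_add_cancel]

theorem XR_symm (r : Fin 5 → M) (a b : Fin 5) : XR r a b = XR r b a := by
  fin_cases a <;> fin_cases b <;> rfl

theorem XR_comm0 {r : Fin 5 → M} (h : RConf r) (b c d : Fin 5) (h1 : 0 ≠ b) (h2 : 0 ≠ c)
    (h3 : 0 ≠ d) (h4 : b ≠ c) (h5 : b ≠ d) (h6 : c ≠ d) : ⁅XR r 0 b, XR r c d⁆ = 0 := by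
  have c02 : ⁅r 0, r 2⁆ = 0 := h.1 0
  have c13 : ⁅r 1, r 3⁆ = 0 := h.1 1
  have c24 : ⁅r 2, r 4⁆ = 0 := h.1 2
  have c30 : ⁅r 3, r 0⁆ = 0 := h.1 3
  have c41 : ⁅r 4, r 1⁆ = 0 := h.1 4
  have c20 : ⁅r 2, r 0⁆ = 0 := by rw [← lie_skew, c02, neg_zero]
  have c31 : ⁅r 3, r 1⁆ = 0 := by rw [← lie_skew, c13, neg_zero]
  have c42 : ⁅r 4, r 2⁆ = 0 := by rw [← lie_skew, c24, neg_zero]
  have c03 : ⁅r 0, r 3⁆ = 0 := by rw [← lie_skew, c30, neg_zero]
  have c14 : ⁅r 1, r 4⁆ = 0 := by rw [← lie_skew, c41, neg_zero]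
  have k10 : ⁅r 1, r 0⁆ = -⁅r 0, r 1⁆ := (lie_skew _ _).symm
  have k21 : ⁅r 2, r 1⁆ = -⁅r 1, r 2⁆ := (lie_skew _ _).symm
  have k32 : ⁅r 3, r 2⁆ = -⁅r 2, r 3⁆ := (lie_skew _ _).symm
  have k43 : ⁅r 4, r 3⁆ = -⁅r 3, r 4⁆ := (lie_skew _ _).symm
  have k04 : ⁅r 0, r 4⁆ = -⁅r 4, r 0⁆ := (lie_skew _ _).symm
  have om : ⁅r 0, r 1⁆ + ⁅r 1, r 2⁆ + ⁅r 2, r 3⁆ + ⁅r 3, r 4⁆ + ⁅r 4, r 0⁆ = 0 := by
    have := h.2
    rw [Fin.sum_univ_five] at this
    exact this
  have e : ⁅r 4, r 0⁆ = -⁅r 0, r 1⁆ - ⁅r 1, r 2⁆ - ⁅r 2, r 3⁆ - ⁅r 3, r 4⁆ := by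
    rw [← sub_eq_zero, ← om]; abel
  have f123 : ⁅r 0, r 2⁆ = 0 := c02
  have f134 : ⁅r 0, r 3⁆ = 0 := c03
  have f124 : ⁅r 0, r 0 - r 2 - r 3⁆ = 0 := by
    simp only [lie_sub, lie_self, c02, c03]; abel
  have f234 : ⁅r 3 - r 0 - r 1, r 3⁆ = 0 := by
    simp only [sub_lie, lie_self, c03, c13]; abel
  have f213 : ⁅r 3 - r 0 - r 1, r 4 - r 1 - r 2⁆ = 0 := by
    simp only [sub_lie, lie_sub, lie_self, c31, c14, c02, k32, k04, e]; abel
  have f214 : ⁅r 3 - r 0 - r 1, r 2 - r 4 - r 0⁆ = 0 := by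
    simp only [sub_lie, lie_sub, lie_self, c30, c14, c02, k32, k04, k10, e]; abel
  have f312 : ⁅r 1 - r 3 - r 4, r 1⁆ = 0 := by
    simp only [sub_lie, lie_self, c31, c41]; abel
  have f314 : ⁅r 1 - r 3 - r 4, r 2 - r 4 - r 0⁆ = 0 := by
    simp only [sub_lie, lie_sub, lie_self, c30, c14, c42, k32, k10, e]; abel
  have f324 : ⁅r 1 - r 3 - r 4, r 0 - r 2 - r 3⁆ = 0 := by
    simp only [sub_lie, lie_sub, lie_self, c30, c13, c42, k32, k10, k43, e]; abel
  have f412 : ⁅r 4, r 1⁆ = 0 := c41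
  have f423 : ⁅r 4, r 2⁆ = 0 := c42
  have f413 : ⁅r 4, r 4 - r 1 - r 2⁆ = 0 := by
    simp only [lie_sub, lie_self, c41, c42]; abel
  fin_cases b
  · exact absurd rfl h1
  · fin_cases c <;> fin_cases d <;>
      first
      | exact absurd rfl h2
      | exact absurd rfl h3
      | exact absurd rfl h4
      | exact absurd rfl h5
      | exact absurd rfl h6
      | exact f123
      | exact f134
      | exact f124
  · fin_cases c <;> fin_cases d <;>
      first
      | exact absurd rfl h2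
      | exact absurd rfl h3
      | exact absurd rfl h4
      | exact absurd rfl h5
      | exact absurd rfl h6
      | exact f234
      | exact f213
      | exact f214
  · fin_cases c <;> fin_cases d <;>
      first
      | exact absurd rfl h2
      | exact absurd rfl h3
      | exact absurd rfl h4
      | exact absurd rfl h5
      | exact absurd rfl h6
      | exact f312
      | exact f314
      | exact f324
  · fin_cases c <;> fin_cases d <;>
      first
      | exact absurd rfl h2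
      | exact absurd rfl h3
      | exact absurd rfl h4
      | exact absurd rfl h5
      | exact absurd rfl h6
      | exact f412
      | exact f423
      | exact f413

theorem XR_sum0 (r : Fin 5 → M) (b c d e : Fin 5) (h1 : 0 ≠ b) (h2 : 0 ≠ c)
    (h3 : 0 ≠ d) (h3' : 0 ≠ e) (h4 : b ≠ c) (h5 : b ≠ d) (h5' : b ≠ e) (h6 : c ≠ d) (h6' : c ≠ e)
    (h7 : d ≠ e) : XR r 0 b + XR r b c + XR r 0 c = XR r d e := by
  have f12 : r 0 + r 1 + (r 3 - r 0 - r 1) = r 3 := by abel
  have f21 : (r 3 - r 0 - r 1) + r 1 + r 0 = r 3 := by abel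
  have f13 : r 0 + (r 4 - r 1 - r 2) + (r 1 - r 3 - r 4) = r 0 - r 2 - r 3 := by abel
  have f31 : (r 1 - r 3 - r 4) + (r 4 - r 1 - r 2) + r 0 = r 0 - r 2 - r 3 := by abel
  have f14 : r 0 + (r 2 - r 4 - r 0) + r 4 = r 2 := by abel
  have f41 : r 4 + (r 2 - r 4 - r 0) + r 0 = r 2 := by abel
  have f23 : (r 3 - r 0 - r 1) + r 2 + (r 1 - r 3 - r 4) = r 2 - r 4 - r 0 := by abel
  have f32 : (r 1 - r 3 - r 4) + r 2 + (r 3 - r 0 - r 1) = r 2 - r 4 - r 0 := by abel
  have f24 : (r 3 - r 0 - r 1) + (r 0 - r 2 - r 3) + r 4 = r 4 - r 1 - r 2 := by abel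
  have f42 : r 4 + (r 0 - r 2 - r 3) + (r 3 - r 0 - r 1) = r 4 - r 1 - r 2 := by abel
  have f34 : (r 1 - r 3 - r 4) + r 3 + r 4 = r 1 := by abel
  have f43 : r 4 + r 3 + (r 1 - r 3 - r 4) = r 1 := by abel
  fin_cases b
  · exact absurd rfl h1
  all_goals fin_cases c <;> first | exact absurd rfl h2 | exact absurd rfl h4 | skip
  all_goals fin_cases d <;>
    first | exact absurd rfl h3 | exact absurd rfl h5 | exact absurd rfl h6 | skip
  all_goals fin_cases e <;>
    first
    | exact absurd rfl h3'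
    | exact absurd rfl h5'
    | exact absurd rfl h6'
    | exact absurd rfl h7
    | exact f12 | exact f21 | exact f13 | exact f31 | exact f14 | exact f41
    | exact f23 | exact f32 | exact f24 | exact f42 | exact f34 | exact f43

theorem RConf.conf {r : Fin 5 → M} (h : RConf r) : Conf (XR r) where
  symm := XR_symm r
  comm a b c d h1 h2 h3 h4 h5 h6 := by
    rw [XR_rot' r a a b, XR_rot' r a c d, sub_self]
    refine XR_comm0 (h.rot a) _ _ _ ?_ ?_ ?_ ?_ ?_ ?_
    · rw [← sub_self a]; exact (sub_left_injective).ne h1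
    · rw [← sub_self a]; exact (sub_left_injective).ne h2
    · rw [← sub_self a]; exact (sub_left_injective).ne h3
    · exact (sub_left_injective).ne h4
    · exact (sub_left_injective).ne h5
    · exact (sub_left_injective).ne h6
  sum3 a b c d e h1 h2 h3 h4 h5 h6 h7 h8 h9 h10 := by
    rw [XR_rot' r a a b, XR_rot' r a b c, XR_rot' r a a c, XR_rot' r a d e, sub_self]
    refine XR_sum0 _ _ _ _ _ ?_ ?_ ?_ ?_ ?_ ?_ ?_ ?_ ?_ ?_
    · rw [← sub_self a]; exact (sub_left_injective).ne h1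
    · rw [← sub_self a]; exact (sub_left_injective).ne h2
    · rw [← sub_self a]; exact (sub_left_injective).ne h3
    · rw [← sub_self a]; exact (sub_left_injective).ne h4
    · exact (sub_left_injective).ne h5
    · exact (sub_left_injective).ne h6
    · exact (sub_left_injective).ne h7
    · exact (sub_left_injective).ne h8
    · exact (sub_left_injective).ne h9
    · exact (sub_left_injective).ne h10

/-- The fibre configuration. -/
theorem rconf_fib {y2 y3 y4 D D' : M} (h1 : ⁅D, y2⁆ = ⁅y2, y3⁆) (h2 : ⁅D, y3⁆ = ⁅y3, y2⁆)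
    (h3 : ⁅D, y4⁆ = 0) (h4 : ⁅D', y2⁆ = 0) (h5 : ⁅D', y3⁆ = ⁅y3, y4⁆)
    (h6 : ⁅D', y4⁆ = ⁅y4, y3⁆) :
    RConf ![-(y2 + y3 + y4), y2, D, D', y2 + y3 + D] := by
  have g1 : ⁅y2, D⁆ = -⁅y2, y3⁆ := by rw [← lie_skew, h1]
  have g2 : ⁅y3, D⁆ = ⁅y2, y3⁆ := by rw [← lie_skew, h2, lie_skew]
  have g3 : ⁅y4, D⁆ = 0 := by rw [← lie_skew, h3, neg_zero]
  have g4 : ⁅y2, D'⁆ = 0 := by rw [← lie_skew, h4, neg_zero]
  have g5 : ⁅y3, D'⁆ = -⁅y3, y4⁆ := by rw [← lie_skew, h5]
  have g6 : ⁅y4, D'⁆ = ⁅y3, y4⁆ := by rw [← lie_skew, h6, lie_skew]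
  have k32 : ⁅y3, y2⁆ = -⁅y2, y3⁆ := (lie_skew _ _).symm
  have k42 : ⁅y4, y2⁆ = -⁅y2, y4⁆ := (lie_skew _ _).symm
  have k43 : ⁅y4, y3⁆ = -⁅y3, y4⁆ := (lie_skew _ _).symm
  have kD : ⁅D', D⁆ = -⁅D, D'⁆ := (lie_skew _ _).symm
  constructor
  · intro i
    fin_cases i
    · change ⁅-(y2 + y3 + y4), D⁆ = 0
      simp only [lie_add, add_lie, lie_neg, neg_lie, lie_self, g1, g2, g3]
      abel
    · change ⁅y2, D'⁆ = 0
      exact g4
    · change ⁅D, y2 + y3 + D⁆ = 0
      simp only [lie_add, add_lie, lie_neg, neg_lie, lie_self, h1, h2, k32]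
      abel
    · change ⁅D', -(y2 + y3 + y4)⁆ = 0
      simp only [lie_add, add_lie, lie_neg, neg_lie, lie_self, h4, h5, h6, k43]
      abel
    · change ⁅y2 + y3 + D, y2⁆ = 0
      simp only [lie_add, add_lie, lie_neg, neg_lie, lie_self, h1, k32]
      abel
  · rw [Fin.sum_univ_five]
    change ⁅-(y2 + y3 + y4), y2⁆ + ⁅y2, D⁆ + ⁅D, D'⁆ + ⁅D', y2 + y3 + D⁆ +
      ⁅y2 + y3 + D, -(y2 + y3 + y4)⁆ = 0
    simp only [lie_add, add_lie, lie_neg, neg_lie, lie_self, h1, h2, h3, h4, h5, h6, g1, g2, g3,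
      g4, g5, g6, k32, k42, k43, kD]
    abel

end ofR

end Crest.Agent.R010.EB
end
end

-- ▼ part R010/EBPent
section

/-!
Row 10, module (E-B), part 4: the functions `Q a b c = p(X_ab, X_bc)` of a configuration.
-/

set_option autoImplicit false
set_option linter.unusedSectionVars false
set_option linter.unusedVariables false
set_option linter.unusedSimpArgs false

noncomputable section

open Crest.NumberTheoryR.GT

namespace Crest.Agent.R010.EB

variable {M : Type*} [LieRing M] [LieAlgebra ℚ M]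

/-- `p(X_ab, X_bc)`. -/
def Qf (X : Fin 5 → Fin 5 → M) (p : GTLie) (a b c : Fin 5) : M :=
  gtSubst (X a b) (X b c) p

theorem exists_compl (a b c : Fin 5) (hab : a ≠ b) (hbc : b ≠ c) (hac : a ≠ c) :
    ∃ d e : Fin 5, a ≠ d ∧ a ≠ e ∧ b ≠ d ∧ b ≠ e ∧ c ≠ d ∧ c ≠ e ∧ d ≠ e := by
  revert a b c; decide

section

variable {X : Fin 5 → Fin 5 → M} (hX : Conf X) {n : ℕ} (hn : 2 ≤ n) {p : GTLie}
  (hp : p ∈ weightSubspace (fun _ : Fin 2 => 1) n)

include hX

theorem Q_anti (ha : antisymDefect p = 0) (a b c : Fin 5) :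
    Qf X p c b a = - Qf X p a b c := by
  unfold Qf
  rw [hX.symm c b, hX.symm b a, gtSubst_swap ha]

include hp

theorem Q_comm (a b c d e : Fin 5) (hab : a ≠ b) (hbc : b ≠ c) (hac : a ≠ c) (hde : d ≠ e)
    (hda : d ≠ a) (hdb : d ≠ b) (hdc : d ≠ c) (hea : e ≠ a) (heb : e ≠ b) (hec : e ≠ c) :
    ⁅X d e, Qf X p a b c⁆ = 0 := by
  unfold Qf
  exact lie_gtSubst_eq_zero (hX.comm _ _ _ _ hde hda hdb hea heb hab)
    (hX.comm _ _ _ _ hde hdb hdc heb hec hbc) hp

include hn

/-- Replacing `X_ac` by `-X_ab-X_bc` inside `p`. -/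
theorem subst_third (a b c : Fin 5) (hab : a ≠ b) (hbc : b ≠ c) (hac : a ≠ c) :
    gtSubst (X b c) (X c a) p = gtSubst (X b c) (-X a b - X b c) p ∧
    gtSubst (X c a) (X a b) p = gtSubst (-X a b - X b c) (X a b) p ∧
    gtSubst (X a b) (X a c) p = gtSubst (X a b) (-X a b - X b c) p := by
  obtain ⟨d, e, had, hae, hbd, hbe, hcd, hce, hde⟩ := exists_compl a b c hab hbc hac
  have e1 : X a c = (-X a b - X b c) + X d e := by
    rw [← hX.sum3 a b c d e hab hac had hae hbc hbd hbe hcd hce hde]; abel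
  have e2 : X c a = (-X a b - X b c) + X d e := by rw [hX.symm c a, e1]
  have k1 : ⁅X d e, X a b⁆ = 0 :=
    hX.comm _ _ _ _ hde had.symm hbd.symm hae.symm hbe.symm hab
  have k2 : ⁅X d e, X b c⁆ = 0 :=
    hX.comm _ _ _ _ hde hbd.symm hcd.symm hbe.symm hce.symm hbc
  have k3 : ⁅X d e, -X a b - X b c⁆ = 0 := by rw [lie_sub, lie_neg, k1, k2]; simp
  refine ⟨?_, ?_, ?_⟩
  · have := gtSubst_shift (a := X b c) (b := -X a b - X b c) (c := 0) (c' := X d e)
      (zero_lie _) (zero_lie _) k2 k3 (zero_lie _) hn hp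
    rw [add_zero] at this
    rw [e2, this]
  · have := gtSubst_shift (a := -X a b - X b c) (b := X a b) (c := X d e) (c' := 0)
      k3 k1 (zero_lie _) (zero_lie _) (lie_zero _) hn hp
    rw [add_zero] at this
    rw [e2, this]
  · have := gtSubst_shift (a := X a b) (b := -X a b - X b c) (c := 0) (c' := X d e)
      (zero_lie _) (zero_lie _) k1 k3 (zero_lie _) hn hp
    rw [add_zero] at this
    rw [e1, this]

theorem Q_T3 (a b c : Fin 5) (hab : a ≠ b) (hbc : b ≠ c) (hac : a ≠ c) :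
    Qf X p a b c + Qf X p b c a + Qf X p c a b = T3 p (X a b) (X b c) := by
  obtain ⟨h1, h2, -⟩ := subst_third hX hn hp a b c hab hbc hac
  unfold Qf T3
  rw [h1, h2]

/-- The pentagon for the identity labelling. -/
theorem pent_id (ha : antisymDefect p = 0) (hpent : pentagonDefect p = 0) :
    Qf X p 1 0 4 + Qf X p 0 4 3 + Qf X p 4 3 2 + Qf X p 3 2 1 + Qf X p 2 1 0 = 0 := by
  obtain ⟨θ, hθ⟩ := hX.exists_braidHom
  have h01 : θ (tB 0 1) = X 0 1 := hθ 0 1 (by decide)
  have h02 : θ (tB 0 2) = X 0 2 := hθ 0 2 (by decide)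
  have h12 : θ (tB 1 2) = X 1 2 := hθ 1 2 (by decide)
  have h13 : θ (tB 1 3) = X 1 3 := hθ 1 3 (by decide)
  have h23 : θ (tB 2 3) = X 2 3 := hθ 2 3 (by decide)
  have h : θ (pentagonDefect p) = 0 := by rw [hpent, map_zero]
  have e : pentagonDefect p = gtSubst (tB 0 1) (tB 1 2 + tB 1 3) p +
      gtSubst (tB 0 2 + tB 1 2) (tB 2 3) p - gtSubst (tB 1 2) (tB 2 3) p -
      gtSubst (tB 0 1 + tB 0 2) (tB 1 3 + tB 2 3) p - gtSubst (tB 0 1) (tB 1 2) p := rfl
  rw [e] at h
  simp only [map_sub, map_add, map_gtSubst, h01, h02, h12, h13, h23] at h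
  have z : ∀ x y : M, ⁅(0 : M), x⁆ = 0 := fun x _ => zero_lie x
  have a1 : X 1 2 + X 1 3 = X 0 4 + -X 2 3 := by
    have := hX.sum3 1 2 3 0 4 (by decide) (by decide) (by decide) (by decide) (by decide)
      (by decide) (by decide) (by decide) (by decide) (by decide)
    rw [← this]; abel
  have a2 : X 0 2 + X 1 2 = X 3 4 + -X 0 1 := by
    have := hX.sum3 0 1 2 3 4 (by decide) (by decide) (by decide) (by decide) (by decide)
      (by decide) (by decide) (by decide) (by decide) (by decide)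
    rw [← this]; abel
  have a3 : X 0 1 + X 0 2 = X 3 4 + -X 1 2 := by
    have := hX.sum3 0 1 2 3 4 (by decide) (by decide) (by decide) (by decide) (by decide)
      (by decide) (by decide) (by decide) (by decide) (by decide)
    rw [← this]; abel
  have a4 : X 1 3 + X 2 3 = X 0 4 + -X 1 2 := by
    have := hX.sum3 1 2 3 0 4 (by decide) (by decide) (by decide) (by decide) (by decide)
      (by decide) (by decide) (by decide) (by decide) (by decide)
    rw [← this]; abel
  have b1 : gtSubst (X 0 1) (X 0 4 + -X 2 3) p = gtSubst (X 0 1) (X 0 4) p := by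
    have := gtSubst_shift (a := X 0 1) (b := X 0 4) (c := 0) (c' := -X 2 3)
      (zero_lie _) (zero_lie _)
      (by rw [neg_lie, hX.comm 2 3 0 1 (by decide) (by decide) (by decide) (by decide) (by decide) (by decide), neg_zero])
      (by rw [neg_lie, hX.comm 2 3 0 4 (by decide) (by decide) (by decide) (by decide) (by decide) (by decide), neg_zero])
      (zero_lie _) hn hp
    rw [add_zero] at this
    exact this
  have b2 : gtSubst (X 3 4 + -X 0 1) (X 2 3) p = gtSubst (X 3 4) (X 2 3) p := by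
    have := gtSubst_shift (a := X 3 4) (b := X 2 3) (c := -X 0 1) (c' := 0)
      (by rw [neg_lie, hX.comm 0 1 3 4 (by decide) (by decide) (by decide) (by decide) (by decide) (by decide), neg_zero])
      (by rw [neg_lie, hX.comm 0 1 2 3 (by decide) (by decide) (by decide) (by decide) (by decide) (by decide), neg_zero])
      (zero_lie _) (zero_lie _)
      (lie_zero _) hn hp
    rw [add_zero] at this
    exact this
  have b3 : gtSubst (X 3 4 + -X 1 2) (X 0 4 + -X 1 2) p = gtSubst (X 3 4) (X 0 4) p := by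
    have k1 : ⁅-X 1 2, X 3 4⁆ = 0 := by
      rw [neg_lie, hX.comm 1 2 3 4 (by decide) (by decide) (by decide) (by decide) (by decide) (by decide), neg_zero]
    have k2 : ⁅-X 1 2, X 0 4⁆ = 0 := by
      rw [neg_lie, hX.comm 1 2 0 4 (by decide) (by decide) (by decide) (by decide) (by decide) (by decide), neg_zero]
    exact gtSubst_shift k1 k2 k1 k2 (lie_self _) hn hp
  rw [a1, a2, a3, a4, b1, b2, b3] at h
  have q1 : Qf X p 1 0 4 = gtSubst (X 0 1) (X 0 4) p := by
    unfold Qf; rw [hX.symm 1 0]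
  have q2 : Qf X p 0 4 3 = - gtSubst (X 3 4) (X 0 4) p := by
    unfold Qf; rw [hX.symm 4 3, gtSubst_swap ha]
  have q3 : Qf X p 4 3 2 = gtSubst (X 3 4) (X 2 3) p := by
    unfold Qf; rw [hX.symm 4 3, hX.symm 3 2]
  have q4 : Qf X p 3 2 1 = - gtSubst (X 1 2) (X 2 3) p := by
    unfold Qf; rw [hX.symm 3 2, hX.symm 2 1, gtSubst_swap ha]
  have q5 : Qf X p 2 1 0 = - gtSubst (X 0 1) (X 1 2) p := by
    unfold Qf; rw [hX.symm 2 1, hX.symm 1 0, gtSubst_swap ha]
  rw [q1, q2, q3, q4, q5, ← h]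
  abel

/-- The pentagon for all 5-cycles. -/
theorem pent_all (ha : antisymDefect p = 0) (hpent : pentagonDefect p = 0) (a b c d e : Fin 5)
    (h : Function.Injective ![b, a, e, d, c]) :
    Qf X p a b c + Qf X p b c d + Qf X p c d e + Qf X p d e a + Qf X p e a b = 0 :=
  pent_id (hX.comp _ h) hn hp ha hpent

end

end Crest.Agent.R010.EB
end
end

-- ▼ part R010/EBDer
section

/-!
Row 10, module (E-B), part 5: derivations of the free associative algebra, the fibre
configuration, and `EB1`.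
-/

set_option autoImplicit false
set_option linter.unusedSectionVars false
set_option linter.unusedVariables false
set_option linter.unusedSimpArgs false

noncomputable section

open Crest.NumberTheoryR.GT

namespace Crest.Agent.R010.EB

attribute [local instance 100] LieRing.ofAssociativeRing

/-- The free associative algebra on three letters. -/
abbrev T3alg : Type := FreeAlgebra ℚ (Fin 3)

/-- The homomorphism to dual numbers attached to the values `δ` of a derivation. -/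
def derHom (δ : Fin 3 → T3alg) : T3alg →ₐ[ℚ] TrivSqZeroExt T3alg T3alg :=
  FreeAlgebra.lift ℚ (fun i => TrivSqZeroExt.inl (FreeAlgebra.ι ℚ i) + TrivSqZeroExt.inr (δ i))

theorem derHom_fst (δ : Fin 3 → T3alg) (f : T3alg) : (derHom δ f).fst = f := by
  induction f using FreeAlgebra.induction with
  | grade0 r => rw [AlgHom.commutes]; rfl
  | grade1 x => simp [derHom]
  | mul a b ha hb => rw [map_mul, TrivSqZeroExt.fst_mul, ha, hb]
  | add a b ha hb => rw [map_add, TrivSqZeroExt.fst_add, ha, hb]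

/-- The derivation with values `δ` on the letters. -/
def der (δ : Fin 3 → T3alg) : Module.End ℚ T3alg where
  toFun f := (derHom δ f).snd
  map_add' f g := by rw [map_add, TrivSqZeroExt.snd_add]
  map_smul' c f := by rw [map_smul, TrivSqZeroExt.snd_smul, RingHom.id_apply]

theorem der_ι (δ : Fin 3 → T3alg) (i : Fin 3) : der δ (FreeAlgebra.ι ℚ i) = δ i := by
  change (derHom δ (FreeAlgebra.ι ℚ i)).snd = δ i
  simp [derHom]

theorem der_mul (δ : Fin 3 → T3alg) (f g : T3alg) :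
    der δ (f * g) = f * der δ g + der δ f * g := by
  change (derHom δ (f * g)).snd = f * (derHom δ g).snd + (derHom δ f).snd * g
  rw [map_mul, TrivSqZeroExt.snd_mul, derHom_fst, derHom_fst]
  rfl

/-- Left multiplication as a Lie homomorphism. -/
def Lm : T3alg →ₗ⁅ℚ⁆ Module.End ℚ T3alg := AlgHom.toLieHom (Algebra.lmul ℚ T3alg)

theorem Lm_apply (f g : T3alg) : Lm f g = f * g := rfl

theorem Lm_inj {f : T3alg} (h : Lm f = 0) : f = 0 := by
  have := congrArg (fun u : Module.End ℚ T3alg => u 1) h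
  simpa [Lm_apply] using this

theorem der_Lm (δ : Fin 3 → T3alg) (f : T3alg) : ⁅der δ, Lm f⁆ = Lm (der δ f) := by
  ext g
  change der δ (f * g) - f * der δ g = der δ f * g
  rw [der_mul]; abel

/-- The three letters. -/
def y2 : T3alg := FreeAlgebra.ι ℚ 0
def y3 : T3alg := FreeAlgebra.ι ℚ 1
def y4 : T3alg := FreeAlgebra.ι ℚ 2

def Dop : Module.End ℚ T3alg := der ![⁅y2, y3⁆, ⁅y3, y2⁆, 0]
def Dop' : Module.End ℚ T3alg := der ![0, ⁅y3, y4⁆, ⁅y4, y3⁆]

theorem rconf_T : RConf (M := Module.End ℚ T3alg)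
    ![-(Lm y2 + Lm y3 + Lm y4), Lm y2, Dop, Dop', Lm y2 + Lm y3 + Dop] := by
  apply rconf_fib
  · rw [Dop, der_Lm, y2, der_ι]; exact LieHom.map_lie Lm _ _
  · rw [Dop, der_Lm, y3, der_ι]; exact LieHom.map_lie Lm _ _
  · rw [Dop, der_Lm, y4, der_ι]; exact map_zero Lm
  · rw [Dop', der_Lm, y2, der_ι]; exact map_zero Lm
  · rw [Dop', der_Lm, y3, der_ι]; exact LieHom.map_lie Lm _ _
  · rw [Dop', der_Lm, y4, der_ι]; exact LieHom.map_lie Lm _ _

/-- The fibre configuration. -/
def XT : Fin 5 → Fin 5 → Module.End ℚ T3alg :=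
  XR ![-(Lm y2 + Lm y3 + Lm y4), Lm y2, Dop, Dop', Lm y2 + Lm y3 + Dop]

theorem conf_XT : Conf XT := rconf_T.conf

theorem XT_01 : XT 0 1 = Lm (-(y2 + y3 + y4)) := by
  rw [map_neg, map_add, map_add]; rfl

theorem XT_12 : XT 1 2 = Lm y2 := rfl

theorem XT_13 : XT 1 3 = Lm y3 := by
  change (Lm y2 + Lm y3 + Dop) - Lm y2 - Dop = Lm y3
  abel

theorem XT_14 : XT 1 4 = Lm y4 := by
  change Dop - (Lm y2 + Lm y3 + Dop) - (-(Lm y2 + Lm y3 + Lm y4)) = Lm y4
  abel

/-- Specialisation of the three letters. -/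
def spec {B : Type*} [Ring B] [Algebra ℚ B] (a b c : B) : T3alg →ₐ[ℚ] B :=
  FreeAlgebra.lift ℚ ![a, b, c]

theorem spec_y2 {B : Type*} [Ring B] [Algebra ℚ B] (a b c : B) : spec a b c y2 = a := by
  simp [spec, y2]

theorem spec_y3 {B : Type*} [Ring B] [Algebra ℚ B] (a b c : B) : spec a b c y3 = b := by
  simp [spec, y3]

theorem spec_y4 {B : Type*} [Ring B] [Algebra ℚ B] (a b c : B) : spec a b c y4 = c := by
  simp [spec, y4]

section

variable {n : ℕ} (hn : 2 ≤ n) {p : GTLie} (hp : p ∈ weightSubspace (fun _ : Fin 2 => 1) n)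
  (ha : antisymDefect p = 0) (hpent : pentagonDefect p = 0)

include hn hp ha hpent

theorem sumT3_T :
    T3 p (-(y2 + y3 + y4)) y2 + T3 p (-(y2 + y3 + y4)) y3 + T3 p (-(y2 + y3 + y4)) y4 = 0 := by
  apply Lm_inj
  rw [map_add, map_add, map_T3, map_T3, map_T3, ← XT_01, ← XT_12, ← XT_13, ← XT_14]
  rw [← Q_T3 conf_XT hn hp 0 1 2 (by decide) (by decide) (by decide),
    ← Q_T3 conf_XT hn hp 0 1 3 (by decide) (by decide) (by decide),
    ← Q_T3 conf_XT hn hp 0 1 4 (by decide) (by decide) (by decide)]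
  exact sumS_aux (Qf XT p) (fun a b c _ _ _ => Q_anti conf_XT ha a b c)
    (pent_all conf_XT hn hp ha hpent)

theorem sumT3 {B : Type*} [Ring B] [Algebra ℚ B] (a b c : B) :
    T3 p (-(a + b + c)) a + T3 p (-(a + b + c)) b + T3 p (-(a + b + c)) c = 0 := by
  have h := congrArg (AlgHom.toLieHom (spec a b c)) (sumT3_T hn hp ha hpent)
  rw [map_add, map_add, map_T3, map_T3, map_T3, map_neg, map_add, map_add, map_zero] at h
  have e2 : (AlgHom.toLieHom (spec a b c)) y2 = a := spec_y2 a b c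
  have e3 : (AlgHom.toLieHom (spec a b c)) y3 = b := spec_y3 a b c
  have e4 : (AlgHom.toLieHom (spec a b c)) y4 = c := spec_y4 a b c
  rw [e2, e3, e4] at h
  exact h

end

end Crest.Agent.R010.EB
end
end

-- ▼ part R010/EBMain
section

/-!
Row 10, module (E-B), part 6: `EB1` and `EB2` from the injectivity `S1` of `iota`.
-/

set_option autoImplicit false
set_option linter.unusedSectionVars false
set_option linter.unusedVariables false
set_option linter.unusedSimpArgs false

noncomputable section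

open Crest.NumberTheoryR.GT

namespace Crest.Agent.R010.EB

attribute [local instance 100] LieRing.ofAssociativeRing

section general

variable {M : Type*} [LieRing M] [LieAlgebra ℚ M] {n : ℕ} {p : GTLie}

theorem T3_smul (k : ℚ) (hp : p ∈ weightSubspace (fun _ : Fin 2 => 1) n) (a b : M) :
    T3 p (k • a) (k • b) = k ^ n • T3 p a b := by
  unfold T3
  have e : -(k • a) - k • b = k • (-a - b) := by rw [smul_sub, smul_neg]
  rw [e, gtSubst_smul k a b hp, gtSubst_smul k b _ hp, gtSubst_smul k _ a hp, smul_add, smul_add]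

theorem T3_swap (ha : antisymDefect p = 0) (a b : M) : T3 p b a = - T3 p a b := by
  unfold T3
  have e : -b - a = -a - b := by abel
  rw [e, gtSubst_swap ha a b, gtSubst_swap ha (-a - b) a, gtSubst_swap ha b (-a - b)]
  abel

theorem T3_zero_right (hn : 2 ≤ n) (hp : p ∈ weightSubspace (fun _ : Fin 2 => 1) n) (a : M) :
    T3 p a 0 = 0 := by
  unfold T3
  rw [gtSubst_comm (lie_zero _) hn hp, gtSubst_comm (zero_lie _) hn hp,
    gtSubst_comm (by rw [sub_zero, neg_lie, lie_self, neg_zero]) hn hp]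
  simp

end general

/-- `EB1` from the injectivity of `iota`. -/
theorem EB1_of (hS1 : S1) : EB1 := by
  intro n p hn3 hp ha hpent
  have hn : 2 ≤ n := by omega
  have two : ∀ x y : FreeAlgebra ℚ (Fin 2), T3 p x ((2 : ℚ) • y) = (2 : ℚ) • T3 p x y := by
    intro x y
    have h1 := sumT3 hn hp ha hpent y (-x - y) 0
    have h2 := sumT3 hn hp ha hpent y y (-x - (2 : ℚ) • y)
    have h3 := sumT3 hn hp ha hpent ((2 : ℚ) • y) (-x - (2 : ℚ) • y) 0
    have e1 : -(y + (-x - y) + 0) = x := by abel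
    have e2 : -(y + y + (-x - (2 : ℚ) • y)) = x := by rw [two_smul]; abel
    have e3 : -((2 : ℚ) • y + (-x - (2 : ℚ) • y) + 0) = x := by abel
    rw [e1, T3_zero_right hn hp, add_zero] at h1
    rw [e2] at h2
    rw [e3, T3_zero_right hn hp, add_zero] at h3
    rw [two_smul ℚ (T3 p x y)]
    have h4 : T3 p x ((2 : ℚ) • y) = - T3 p x (-x - (2 : ℚ) • y) := by
      rw [← sub_eq_zero, sub_neg_eq_add]; exact h3
    rw [h4, ← sub_eq_zero, ← neg_eq_zero, ← h2]; abel
  have two' : ∀ x y : FreeAlgebra ℚ (Fin 2), T3 p ((2 : ℚ) • x) y = (2 : ℚ) • T3 p x y := by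
    intro x y
    rw [T3_swap ha y ((2 : ℚ) • x), two, T3_swap ha x y]
    simp
  have key : ∀ x y : FreeAlgebra ℚ (Fin 2), T3 p x y = 0 := by
    intro x y
    have h := T3_smul (2 : ℚ) hp x y
    rw [two, two', smul_smul] at h
    have hne : (2 : ℚ) ^ n - 2 * 2 ≠ 0 := by
      have : (2 : ℚ) ^ 3 ≤ 2 ^ n := pow_le_pow_right₀ (by norm_num) hn3
      have h8 : (2 : ℚ) ^ 3 = 8 := by norm_num
      rw [h8] at this
      intro h0
      linarith
    have h' : ((2 : ℚ) ^ n - 2 * 2) • T3 p x y = 0 := by rw [sub_smul, ← h, sub_self]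
    exact (smul_eq_zero.mp h').resolve_left hne
  apply hS1
  rw [map_zero, ← T3_gx_gy, map_T3]
  exact key _ _

section spec

variable {M : Type*} [LieRing M] [LieAlgebra ℚ M] {n : ℕ} {p : GTLie}

/-- The special derivation expression. -/
def sg (p : GTLie) (u v : M) : M :=
  ⁅v, gtSubst u v p⁆ + ⁅-u - v, gtSubst u (-u - v) p⁆

theorem map_sg {M' : Type*} [LieRing M'] [LieAlgebra ℚ M'] (f : M →ₗ⁅ℚ⁆ M') (u v : M) :
    f (sg p u v) = sg p (f u) (f v) := by
  unfold sg
  rw [map_add, LieHom.map_lie, LieHom.map_lie, map_gtSubst, map_gtSubst, map_sub, map_neg]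

theorem three_all (h3 : threeTermDefect p = 0) (a b : M) :
    gtSubst a b p + gtSubst b (-a - b) p + gtSubst (-a - b) a p = 0 := by
  have := gtSubst_threeTerm p a b
  rw [h3, map_zero] at this
  exact this.symm

theorem sg_third (ha : antisymDefect p = 0) (h3 : threeTermDefect p = 0) (u v : M) :
    sg p (-u - v) v = sg p u v := by
  unfold sg
  have e : -(-u - v) - v = u := by abel
  have t := three_all h3 u v
  have t1 : gtSubst (-u - v) v p = gtSubst u v p + gtSubst (-u - v) u p := by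
    rw [gtSubst_swap ha v (-u - v), ← sub_eq_zero, ← neg_eq_zero, ← t]; abel
  have t2 : gtSubst u (-u - v) p = - gtSubst (-u - v) u p := gtSubst_swap ha _ _
  rw [e, t1, t2]
  simp only [lie_add, sub_lie, neg_lie, lie_neg]
  abel

theorem sg_symm (ha : antisymDefect p = 0) (h3 : threeTermDefect p = 0) (u v : M) :
    sg p v u = sg p u v := by
  unfold sg
  have e : -v - u = -u - v := by abel
  have t := three_all h3 u v
  have t1 : gtSubst v (-u - v) p = - gtSubst u v p - gtSubst (-u - v) u p := by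
    rw [← sub_eq_zero, ← t]; abel
  have t2 : gtSubst u (-u - v) p = - gtSubst (-u - v) u p := gtSubst_swap ha _ _
  have t3 : gtSubst v u p = - gtSubst u v p := gtSubst_swap ha _ _
  rw [e, t1, t2, t3]
  simp only [lie_add, lie_sub, sub_lie, neg_lie, lie_neg]
  abel

theorem sg_self (hn : 2 ≤ n) (hp : p ∈ weightSubspace (fun _ : Fin 2 => 1) n) (u : M) :
    sg p u u = 0 := by
  unfold sg
  rw [gtSubst_comm (lie_self _) hn hp, gtSubst_comm (by simp) hn hp]
  simp

theorem sg_smul (k : ℚ) (hp : p ∈ weightSubspace (fun _ : Fin 2 => 1) n) (u v : M) :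
    sg p (k • u) (k • v) = k ^ (n + 1) • sg p u v := by
  unfold sg
  have e : -(k • u) - k • v = k • (-u - v) := by rw [smul_sub, smul_neg]
  rw [e, gtSubst_smul k u v hp, gtSubst_smul k u _ hp, smul_add]
  simp only [smul_lie, lie_smul, smul_smul]
  rw [pow_succ]

variable {X : Fin 5 → Fin 5 → M} (hX : Conf X) (hn : 2 ≤ n)
  (hp : p ∈ weightSubspace (fun _ : Fin 2 => 1) n)

include hX hn hp

theorem sig_eq_sg (a b c : Fin 5) (hab : a ≠ b) (hbc : b ≠ c) (hac : a ≠ c) :
    sig X (Qf X p) a b c = sg p (X a b) (X b c) := by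
  obtain ⟨d, e, had, hae, hbd, hbe, hcd, hce, hde⟩ := exists_compl a b c hab hbc hac
  obtain ⟨-, -, h3⟩ := subst_third hX hn hp a b c hab hbc hac
  have e1 : X a c = (-X a b - X b c) + X d e := by
    rw [← hX.sum3 a b c d e hab hac had hae hbc hbd hbe hcd hce hde]; abel
  have e2 : ⁅X d e, Qf X p b a c⁆ = 0 :=
    Q_comm hX hp b a c d e hab.symm hac hbc hde hbd.symm had.symm hcd.symm hbe.symm hae.symm
      hce.symm
  have e3 : Qf X p b a c = gtSubst (X a b) (-X a b - X b c) p := by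
    unfold Qf; rw [hX.symm b a, h3]
  unfold sig sg
  rw [e1, add_lie, e2, add_zero, e3]
  rfl

theorem coc_conf (ha : antisymDefect p = 0) (h3 : threeTermDefect p = 0)
    (hpent : pentagonDefect p = 0) :
    sg p (X 1 2) (X 1 3) + sg p (X 0 1) (X 1 4) = sg p (X 1 2) (X 1 4) + sg p (X 0 1) (X 1 3) := by
  have h := coc_aux hX (Qf X p) (fun a b c _ _ _ => Q_anti hX ha a b c)
    (fun a b c hab hbc hac => by
      rw [Q_T3 hX hn hp a b c hab hbc hac]; exact three_all h3 _ _)
    (fun a b c d e h1 h2 h3 h4 h5 h6 h7 h8 h9 h10 => Q_comm hX hp a b c d e h1 h2 h3 h4 h5 h6 h7 h8 h9 h10)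
    (pent_all hX hn hp ha hpent)
  have sw : ∀ a b c, sig X (Qf X p) a b c = sig X (Qf X p) b a c := by
    intro a b c; unfold sig; rw [add_comm]
  rw [sw 1 2 3, sw 1 0 4, sw 1 2 4, sw 1 0 3] at h
  rw [sig_eq_sg hX hn hp 2 1 3 (by decide) (by decide) (by decide),
    sig_eq_sg hX hn hp 0 1 4 (by decide) (by decide) (by decide),
    sig_eq_sg hX hn hp 2 1 4 (by decide) (by decide) (by decide),
    sig_eq_sg hX hn hp 0 1 3 (by decide) (by decide) (by decide), hX.symm 2 1] at h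
  exact h

end spec

section specAssoc

variable {n : ℕ} (hn : 2 ≤ n) {p : GTLie} (hp : p ∈ weightSubspace (fun _ : Fin 2 => 1) n)
  (ha : antisymDefect p = 0) (h3 : threeTermDefect p = 0) (hpent : pentagonDefect p = 0)

include hn hp ha h3 hpent

theorem coc_T : sg p y2 y3 + sg p (-(y2 + y3 + y4)) y4 =
    sg p y2 y4 + sg p (-(y2 + y3 + y4)) y3 := by
  rw [← sub_eq_zero]
  apply Lm_inj
  rw [map_sub, map_add, map_add, map_sg, map_sg, map_sg, map_sg, ← XT_01, ← XT_12, ← XT_13,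
    ← XT_14, sub_eq_zero]
  exact coc_conf conf_XT hn hp ha h3 hpent

theorem coc_B {B : Type*} [Ring B] [Algebra ℚ B] (a b c : B) :
    sg p a b + sg p (a + b) c = sg p a c + sg p (a + c) b := by
  have h := congrArg (AlgHom.toLieHom (spec a b c)) (coc_T hn hp ha h3 hpent)
  rw [map_add, map_add, map_sg, map_sg, map_sg, map_sg, map_neg, map_add, map_add] at h
  have e2 : (AlgHom.toLieHom (spec a b c)) y2 = a := spec_y2 a b c
  have e3 : (AlgHom.toLieHom (spec a b c)) y3 = b := spec_y3 a b c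
  have e4 : (AlgHom.toLieHom (spec a b c)) y4 = c := spec_y4 a b c
  rw [e2, e3, e4] at h
  have f1 : sg p (a + b) c = sg p (-(a + b + c)) c := by
    rw [← sg_third ha h3 (a + b) c]; congr 1; abel
  have f2 : sg p (a + c) b = sg p (-(a + b + c)) b := by
    rw [← sg_third ha h3 (a + c) b]; congr 1; abel
  rw [f1, f2, h]

theorem sg_B {B : Type*} [Ring B] [Algebra ℚ B] (a b : B) : sg p a b = 0 := by
  have C := coc_B (B := B) hn hp ha h3 hpent
  have sy : ∀ u v : B, sg p v u = sg p u v := fun u v => sg_symm ha h3 u v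
  have se : ∀ u : B, sg p u u = 0 := fun u => sg_self hn hp u
  -- `s(2a,b) = s(a,b) + s(a+b,a)`
  have h1 : sg p (a + a) b = sg p a b + sg p (a + b) a := by
    have := C a b a
    rw [se a, zero_add] at this
    exact this.symm
  -- `s(x,2b) = s(x,b) + s(x+b,b)`
  have h2 : ∀ x : B, sg p x (b + b) = sg p x b + sg p (x + b) b := by
    intro x
    have := C b x b
    rw [se b, zero_add, sy x b, add_comm b x] at this
    rw [sy (b + b) x]
    exact this.symm
  have h4 : sg p (a + a) (b + b) = sg p a b + sg p a b := by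
    rw [h2, h1]
    have := C (a + b) a b
    -- s(a+b,a) + s(2a+b,b) = s(a+b,b) + s(a+2b,a)
    have q1 := C a b (a + b)
    -- s(a,b) + s(a+b,a+b) = s(a,a+b) + s(2a+b,b)
    rw [se (a + b), add_zero, sy (a + b) a] at q1
    have e : a + (a + b) = a + a + b := by abel
    rw [e] at q1
    rw [add_assoc, ← q1]
  have h5 := sg_smul (2 : ℚ) hp a b
  rw [two_smul, two_smul, h4, ← two_smul ℚ (sg p a b)] at h5
  have hne : (2 : ℚ) ^ (n + 1) - 2 ≠ 0 := by
    have : (2 : ℚ) ^ 2 ≤ 2 ^ (n + 1) := pow_le_pow_right₀ (by norm_num) (by omega)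
    have h8 : (2 : ℚ) ^ 2 = 4 := by norm_num
    rw [h8] at this
    intro h0
    linarith
  have h' : ((2 : ℚ) ^ (n + 1) - 2) • sg p a b = 0 := by rw [sub_smul, ← h5, sub_self]
  exact (smul_eq_zero.mp h').resolve_left hne

end specAssoc

/-- (S): the special derivation property in every Lie algebra. -/
theorem sg_eq_zero (hS1 : S1) {n : ℕ} (hn : 2 ≤ n) {p : GTLie}
    (hp : p ∈ weightSubspace (fun _ : Fin 2 => 1) n)
    (ha : antisymDefect p = 0) (h3 : threeTermDefect p = 0) (hpent : pentagonDefect p = 0)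
    {M : Type*} [LieRing M] [LieAlgebra ℚ M] (u v : M) : sg p u v = 0 := by
  have h0 : sg p gx gy = 0 := by
    apply hS1
    rw [map_zero, map_sg]
    exact sg_B hn hp ha h3 hpent _ _
  have := congrArg (gtSubst u v) h0
  rw [map_sg, gtSubst_gx, gtSubst_gy, map_zero] at this
  exact this

end Crest.Agent.R010.EB
end
end

-- ▼ part R010/EB
section

/-!
Row 10, module (E-B), part 7: `EB2` from the injectivity `S1` of `iota`.
-/

set_option autoImplicit false
set_option linter.unusedSectionVars false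
set_option linter.unusedVariables false
set_option linter.unusedSimpArgs false

noncomputable section

open Crest.NumberTheoryR.GT

namespace Crest.Agent.R010.EB

variable {M : Type*} [LieRing M] [LieAlgebra ℚ M]

theorem rconf_of_conf5 {R : Fin 5 → M} (h : Conf5 R) : RConf (fun i => R (3 * i)) := by
  obtain ⟨h1, h2⟩ := h
  refine ⟨fun i => ?_, ?_⟩
  · have e : (3 : Fin 5) * (i + 2) = 3 * i + 1 := by revert i; decide
    simp only [e]
    exact h1 _
  · rw [Fin.sum_univ_five] at h2 ⊢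
    change ⁅R 0, R 3⁆ + ⁅R 3, R 1⁆ + ⁅R 1, R 4⁆ + ⁅R 4, R 2⁆ + ⁅R 2, R 0⁆ = 0
    change ⁅R 0, R 2⁆ + ⁅R 1, R 3⁆ + ⁅R 2, R 4⁆ + ⁅R 3, R 0⁆ + ⁅R 4, R 1⁆ = 0 at h2
    rw [← neg_eq_zero, ← h2, ← lie_skew (R 0) (R 3), ← lie_skew (R 3) (R 1), ← lie_skew (R 1) (R 4),
      ← lie_skew (R 4) (R 2), ← lie_skew (R 2) (R 0)]
    abel

/-- Identity `(*)`. -/
theorem star {X : Fin 5 → Fin 5 → M} (hX : Conf X) (Q : Fin 5 → Fin 5 → Fin 5 → M)
    (anti : ∀ a b c, a ≠ b → b ≠ c → a ≠ c → Q c b a = - Q a b c)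
    (three : ∀ a b c, a ≠ b → b ≠ c → a ≠ c → Q a b c + Q b c a + Q c a b = 0)
    (comm : ∀ a b c d e : Fin 5, a ≠ b → b ≠ c → a ≠ c → d ≠ e → d ≠ a → d ≠ b → d ≠ c →
      e ≠ a → e ≠ b → e ≠ c → ⁅X d e, Q a b c⁆ = 0)
    (pent : ∀ a b c d e : Fin 5, Function.Injective ![b, a, e, d, c] →
      Q a b c + Q b c d + Q c d e + Q d e a + Q e a b = 0)
    (S : ∀ a b c, a ≠ b → b ≠ c → a ≠ c → ⁅X b c, Q a b c⁆ + ⁅X a c, Q b a c⁆ = 0) :
    ⁅Q 2 1 0, X 1 2⁆ + ⁅Q 4 3 2 + Q 1 0 4, X 0 4⁆ = ⁅Q 2 4 3 + Q 3 0 1, X 0 3⁆ := by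
  have p1 : ⁅X 0 4, Q 0 1 2 + Q 1 2 3 + Q 2 3 4 + Q 3 4 0 + Q 4 0 1⁆ = 0 := by
    rw [pent 0 1 2 3 4 (by decide), lie_zero]
  have p2 : ⁅X 0 3, Q 0 1 2 + Q 1 2 4 + Q 2 4 3 + Q 4 3 0 + Q 3 0 1⁆ = 0 := by
    rw [pent 0 1 2 4 3 (by decide), lie_zero]
  have c1 : ⁅X 0 4, Q 1 2 3⁆ = 0 := comm 1 2 3 0 4 (by decide) (by decide) (by decide)
    (by decide) (by decide) (by decide) (by decide) (by decide) (by decide) (by decide)
  have c2 : ⁅X 0 3, Q 1 2 4⁆ = 0 := comm 1 2 4 0 3 (by decide) (by decide) (by decide)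
    (by decide) (by decide) (by decide) (by decide) (by decide) (by decide) (by decide)
  have s1 : ⁅X 4 0, Q 3 4 0⁆ + ⁅X 3 0, Q 4 3 0⁆ = 0 := S 3 4 0 (by decide) (by decide) (by decide)
  have s2 : ⁅X 2 0, Q 1 2 0⁆ + ⁅X 1 0, Q 2 1 0⁆ = 0 := S 1 2 0 (by decide) (by decide) (by decide)
  have s3 : ⁅X 1 2, Q 0 1 2⁆ + ⁅X 0 2, Q 1 0 2⁆ = 0 := S 0 1 2 (by decide) (by decide) (by decide)
  have rs : X 0 4 = - X 0 1 - X 0 2 - X 0 3 := by
    have a1 := hX.sum3 0 1 2 3 4 (by decide) (by decide) (by decide) (by decide) (by decide)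
      (by decide) (by decide) (by decide) (by decide) (by decide)
    have a2 := hX.sum3 0 3 4 1 2 (by decide) (by decide) (by decide) (by decide) (by decide)
      (by decide) (by decide) (by decide) (by decide) (by decide)
    rw [← a2] at a1
    rw [← sub_eq_zero]
    have : X 0 4 - (-X 0 1 - X 0 2 - X 0 3) =
        (X 0 1 + (X 0 3 + X 3 4 + X 0 4) + X 0 2) - X 3 4 := by abel
    rw [this, a1, sub_self]
  have t1 : Q 2 0 1 = - Q 0 1 2 - Q 1 2 0 := by
    have := three 0 1 2 (by decide) (by decide) (by decide)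
    rw [← sub_eq_zero, ← this]; abel
  have n1 : Q 2 1 0 = - Q 0 1 2 := anti 0 1 2 (by decide) (by decide) (by decide)
  have n2 : Q 1 0 2 = - Q 2 0 1 := anti 2 0 1 (by decide) (by decide) (by decide)
  have n3 : Q 4 3 2 = - Q 2 3 4 := anti 2 3 4 (by decide) (by decide) (by decide)
  have n4 : Q 1 0 4 = - Q 4 0 1 := anti 4 0 1 (by decide) (by decide) (by decide)
  have y1 : X 4 0 = X 0 4 := hX.symm _ _
  have y2 : X 3 0 = X 0 3 := hX.symm _ _
  have y3 : X 2 0 = X 0 2 := hX.symm _ _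
  have y4 : X 1 0 = X 0 1 := hX.symm _ _
  rw [← sub_eq_zero]
  have key : ⁅Q 2 1 0, X 1 2⁆ + ⁅Q 4 3 2 + Q 1 0 4, X 0 4⁆ - ⁅Q 2 4 3 + Q 3 0 1, X 0 3⁆ =
      (⁅X 1 2, Q 0 1 2⁆ + ⁅X 0 2, Q 1 0 2⁆)
      + ⁅X 0 4, Q 0 1 2 + Q 1 2 3 + Q 2 3 4 + Q 3 4 0 + Q 4 0 1⁆
      + ⁅X 0 3, Q 0 1 2 + Q 1 2 4 + Q 2 4 3 + Q 4 3 0 + Q 3 0 1⁆
      - ⁅X 0 4, Q 1 2 3⁆ - ⁅X 0 3, Q 1 2 4⁆
      - (⁅X 4 0, Q 3 4 0⁆ + ⁅X 3 0, Q 4 3 0⁆)
      - (⁅X 2 0, Q 1 2 0⁆ + ⁅X 1 0, Q 2 1 0⁆) := by
    rw [y1, y2, y3, y4, n1, n2, n3, n4, t1, rs]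
    rw [← lie_skew (-Q 0 1 2) (X 1 2), ← lie_skew (-Q 2 3 4 + -Q 4 0 1) (-X 0 1 - X 0 2 - X 0 3),
      ← lie_skew (Q 2 4 3 + Q 3 0 1) (X 0 3)]
    simp only [lie_add, lie_sub, lie_neg, add_lie, sub_lie, neg_lie, neg_neg, neg_sub]
    abel
  rw [key, p1, p2, c1, c2, s1, s2, s3]
  simp

/-- `EB2` from the injectivity of `iota`. -/
theorem EB2_of (hS1 : S1) : EB2 := by
  intro n p hn3 hpW M _ _ R hR
  have hn : 2 ≤ n := by omega
  obtain ⟨hgrt, hp⟩ := hpW
  obtain ⟨⟨ha, h3⟩, hpent⟩ := hgrt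
  have ha : antisymDefect p = 0 := ha
  have h3 : threeTermDefect p = 0 := h3
  have hpent : pentagonDefect p = 0 := hpent
  have hX : Conf (XR (fun i => R (3 * i))) := (rconf_of_conf5 hR).conf
  set X := XR (fun i => R (3 * i)) with hXdef
  have r01 : X 0 1 = R 0 := rfl
  have r23 : X 2 3 = R 1 := rfl
  have r04 : X 0 4 = R 2 := rfl
  have r12 : X 1 2 = R 3 := rfl
  have r34 : X 3 4 = R 4 := rfl
  have x03 : X 0 3 = R 3 - R 4 - R 2 := rfl
  have x24 : X 2 4 = R 0 - R 1 - R 4 := rfl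
  -- the five `p_i`
  have q0 : gtSubst (R 4) (R 1) p = Qf X p 4 3 2 := by
    unfold Qf; rw [hX.symm 4 3, hX.symm 3 2, r34, r23]
  have q1 : gtSubst (R 0) (R 2) p = Qf X p 1 0 4 := by
    unfold Qf; rw [hX.symm 1 0, r01, r04]
  have q2 : gtSubst (R 1) (R 3) p = Qf X p 3 2 1 := by
    unfold Qf; rw [hX.symm 3 2, hX.symm 2 1, r23, r12]
  have q3 : gtSubst (R 2) (R 4) p = Qf X p 0 4 3 := by
    unfold Qf; rw [hX.symm 4 3, r04, r34]
  have q4 : gtSubst (R 3) (R 0) p = Qf X p 2 1 0 := by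
    unfold Qf; rw [hX.symm 2 1, hX.symm 1 0, r12, r01]
  have hpen := pent_id hX hn hp ha hpent
  refine ⟨?_, ?_⟩
  · rw [Fin.sum_univ_five]
    change gtSubst (R 4) (R 1) p + gtSubst (R 0) (R 2) p + gtSubst (R 1) (R 3) p +
      gtSubst (R 2) (R 4) p + gtSubst (R 3) (R 0) p = 0
    rw [q0, q1, q2, q3, q4, ← hpen]
    abel
  · intro u hu
    have comm : ∀ i, ⁅R i, gtSubst (R (i - 1)) (R (i + 1)) p⁆ = 0 := by
      intro i
      refine lie_gtSubst_eq_zero ?_ (hR.1 i) hp
      have := hR.1 (i - 1)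
      rw [sub_add_cancel] at this
      rw [← lie_skew, this, neg_zero]
    have hui : ∀ i, ⁅u i, R i⁆ = ⁅u (i + 1), R i⁆ := by
      intro i
      have := hu i
      rw [this, sub_lie, ← lie_skew (gtSubst (R (i - 1)) (R (i + 1)) p) (R i), comm i]
      simp
    have adj : ∀ i, ⁅⁅u i, R i⁆, R (i + 1)⁆ + ⁅R i, ⁅u (i + 1), R (i + 1)⁆⁆ = 0 := by
      intro i
      rw [hui i, ← leibniz_lie, hR.1 i, lie_zero]
    refine ⟨adj, ?_⟩
    -- the `d_i`
    obtain ⟨d, hd⟩ : ∃ d : Fin 5 → M, d = fun i => ⁅u i, R i⁆ := ⟨_, rfl⟩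
    have hdi : ∀ i, ⁅u i, R i⁆ = d i := by intro i; rw [hd]
    have adj' : ∀ i, ⁅d i, R (i + 1)⁆ + ⁅R i, d (i + 1)⁆ = 0 := by
      intro i; rw [← hdi, ← hdi]; exact adj i
    have u0 : u 1 = u 0 - Qf X p 4 3 2 := by rw [← q0]; exact hu 0
    have u1 : u 2 = u 1 - Qf X p 1 0 4 := by rw [← q1]; exact hu 1
    have u2 : u 3 = u 2 - Qf X p 3 2 1 := by rw [← q2]; exact hu 2
    have u3 : u 4 = u 3 - Qf X p 0 4 3 := by rw [← q3]; exact hu 3
    have u4 : u 0 = u 4 - Qf X p 2 1 0 := by rw [← q4]; exact hu 4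
    have cm : ∀ a b c d e : Fin 5, a ≠ b → b ≠ c → a ≠ c → d ≠ e → d ≠ a → d ≠ b → d ≠ c →
      e ≠ a → e ≠ b → e ≠ c → ⁅X d e, Qf X p a b c⁆ = 0 :=
      fun a b c d e h1 h2 h3 h4 h5 h6 h7 h8 h9 h10 =>
        Q_comm hX hp a b c d e h1 h2 h3 h4 h5 h6 h7 h8 h9 h10
    have cm' : ∀ a b c d e : Fin 5, a ≠ b → b ≠ c → a ≠ c → d ≠ e → d ≠ a → d ≠ b → d ≠ c →
      e ≠ a → e ≠ b → e ≠ c → ⁅Qf X p a b c, X d e⁆ = 0 :=
      fun a b c d e h1 h2 h3 h4 h5 h6 h7 h8 h9 h10 => by
        rw [← lie_skew, cm a b c d e h1 h2 h3 h4 h5 h6 h7 h8 h9 h10, neg_zero]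
    have S : ∀ a b c, a ≠ b → b ≠ c → a ≠ c →
        ⁅X b c, Qf X p a b c⁆ + ⁅X a c, Qf X p b a c⁆ = 0 := by
      intro a b c hab hbc hac
      have := sig_eq_sg hX hn hp a b c hab hbc hac
      rw [sg_eq_zero hS1 hn hp ha h3 hpent] at this
      exact this
    have st := star hX (Qf X p) (fun a b c _ _ _ => Q_anti hX ha a b c)
      (fun a b c hab hbc hac => by
        rw [Q_T3 hX hn hp a b c hab hbc hac]; exact three_all h3 _ _)
      cm (pent_all hX hn hp ha hpent) S
    have d0 : d 0 = ⁅u 0, X 0 1⁆ := by rw [← hdi, r01]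
    have d1 : d 1 = ⁅u 0 - Qf X p 4 3 2, X 2 3⁆ := by rw [← hdi, u0, r23]
    have d2 : d 2 = ⁅u 0 - Qf X p 4 3 2 - Qf X p 1 0 4, X 0 4⁆ := by rw [← hdi, u1, u0, r04]
    have e4 : u 4 = u 0 + Qf X p 2 1 0 := by rw [u4]; abel
    have e3 : u 3 = u 0 + Qf X p 2 1 0 + Qf X p 0 4 3 := by
      have : u 3 = u 4 + Qf X p 0 4 3 := by rw [u3]; abel
      rw [this, e4]
    have d3 : d 3 = ⁅u 0 + Qf X p 2 1 0, X 1 2⁆ := by
      rw [← hdi, e3, ← r12, add_lie (u 0 + Qf X p 2 1 0), cm' 0 4 3 1 2 (by decide) (by decide)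
        (by decide) (by decide) (by decide) (by decide) (by decide) (by decide) (by decide)
        (by decide), add_zero]
    have d4 : d 4 = ⁅u 0, X 3 4⁆ := by
      rw [← hdi, e4, ← r34, add_lie, cm' 2 1 0 3 4 (by decide) (by decide)
        (by decide) (by decide) (by decide) (by decide) (by decide) (by decide) (by decide)
        (by decide), add_zero]
    obtain ⟨V, hV⟩ : ∃ V : M, V = u 0 + (Qf X p 2 4 3 + Qf X p 3 0 1) := ⟨_, rfl⟩
    -- `δ X_03 = [V, X_03]`
    have dX03 : d 3 - d 4 - d 2 = ⁅V, X 0 3⁆ := by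
      rw [hV, add_lie (u 0), ← st, d3, d4, d2]
      have e : X 0 3 = X 1 2 - X 3 4 - X 0 4 := by rw [x03, r12, r34, r04]
      rw [e]
      simp only [add_lie, sub_lie, lie_sub]
      abel
    -- `δ X_24 = [V, X_24]`
    have dX24 : d 0 - d 1 - d 4 = ⁅V, X 2 4⁆ := by
      have s := S 4 3 2 (by decide) (by decide) (by decide)
      have g1 : ⁅Qf X p 3 0 1, X 2 4⁆ = 0 := cm' 3 0 1 2 4 (by decide) (by decide)
        (by decide) (by decide) (by decide) (by decide) (by decide) (by decide) (by decide)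
        (by decide)
      have g2 : Qf X p 2 4 3 = - Qf X p 3 4 2 := Q_anti hX ha 3 4 2
      have g3 : ⁅Qf X p 4 3 2, X 2 3⁆ = ⁅Qf X p 2 4 3, X 2 4⁆ := by
        rw [g2, neg_lie, lie_skew, ← sub_eq_zero, ← neg_eq_zero, ← s, hX.symm 3 2, hX.symm 4 2,
          ← lie_skew (Qf X p 4 3 2) (X 2 3)]
        abel
      rw [hV, add_lie (u 0), add_lie (Qf X p 2 4 3), g1, add_zero, ← g3, d0, d1, d4]
      have e : X 2 4 = X 0 1 - X 2 3 - X 3 4 := by rw [x24, r01, r23, r34]
      rw [e]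
      simp only [add_lie, sub_lie, lie_sub]
      abel
    have main : ⁅d 3 - d 4 - d 2, X 2 4⁆ + ⁅X 0 3, d 0 - d 1 - d 4⁆ = 0 := by
      rw [dX03, dX24, ← leibniz_lie, hX.comm 0 3 2 4 (by decide) (by decide) (by decide)
        (by decide) (by decide) (by decide), lie_zero]
    have a12 := adj' 1
    have a34 := adj' 3
    have a40 := adj' 4
    have b44 : ⁅d 4, R 4⁆ + ⁅R 4, d 4⁆ = 0 := by rw [← lie_skew (R 4) (d 4)]; abel
    change ⁅d 1, R 2⁆ + ⁅R 1, d 2⁆ = 0 at a12
    change ⁅d 3, R 4⁆ + ⁅R 3, d 4⁆ = 0 at a34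
    change ⁅d 4, R 0⁆ + ⁅R 4, d 0⁆ = 0 at a40
    rw [x24, x03] at main
    simp only [hdi]
    rw [Fin.sum_univ_five]
    change (⁅d 0, R 2⁆ + ⁅R 0, d 2⁆) + (⁅d 1, R 3⁆ + ⁅R 1, d 3⁆) + (⁅d 2, R 4⁆ + ⁅R 2, d 4⁆) +
      (⁅d 3, R 0⁆ + ⁅R 3, d 0⁆) + (⁅d 4, R 1⁆ + ⁅R 4, d 1⁆) = 0
    have key : (⁅d 0, R 2⁆ + ⁅R 0, d 2⁆) + (⁅d 1, R 3⁆ + ⁅R 1, d 3⁆) + (⁅d 2, R 4⁆ + ⁅R 2, d 4⁆) +
      (⁅d 3, R 0⁆ + ⁅R 3, d 0⁆) + (⁅d 4, R 1⁆ + ⁅R 4, d 1⁆) =
      (⁅d 3 - d 4 - d 2, R 0 - R 1 - R 4⁆ + ⁅R 3 - R 4 - R 2, d 0 - d 1 - d 4⁆) +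
      (⁅d 3, R 4⁆ + ⁅R 3, d 4⁆) + (⁅d 4, R 0⁆ + ⁅R 4, d 0⁆) - (⁅d 4, R 4⁆ + ⁅R 4, d 4⁆) +
      (⁅d 1, R 2⁆ + ⁅R 1, d 2⁆) := by
      rw [← lie_skew (d 0) (R 2), ← lie_skew (R 0) (d 2), ← lie_skew (R 1) (d 3),
        ← lie_skew (d 1) (R 3)]
      simp only [lie_sub, sub_lie, lie_add, add_lie]
      rw [← lie_skew (R 1) (d 2), ← lie_skew (R 2) (d 1)]
      abel
    rw [key, main, a12, a34, a40, b44]
    simp

end Crest.Agent.R010.EB
end
end

-- ▼ part R010/EBHolds
section

/-! Row 10: `EB1` and `EB2` hold. -/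

set_option autoImplicit false

namespace Crest.Agent.R010

theorem EB1_holds : EB1 := EB.EB1_of Witt.S1_holds

theorem EB2_holds : EB2 := EB.EB2_of Witt.S1_holds

end Crest.Agent.R010
end

-- ▼ part R010/EHolds
section

/-! Row 10: (ED), (EE1), (EE) proved; (EC) modulo (S4) (helper450). -/

set_option autoImplicit false

namespace Crest.Agent.R010

theorem ED_holds : ED := ED_of EB2_holds

theorem EE1_holds : EE1 := EE1_of Witt.S1_holds S2_holds EB1_holds

/-- existence of the generators -/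
theorem EE_holds : EE := EE_of EA_holds ED_holds EE1_holds

/-- closure, from (S4) -/
theorem EC_holds_of (hS4 : S4) : EC := EC_of hS4 EB1_holds EB2_holds

end Crest.Agent.R010
end

-- ▼ part R010/ES4

/-! Row 10, (S4): `grtSpace` is graded and lives in weights `≥ 3` (helper379). -/

set_option autoImplicit false

noncomputable section

namespace Crest.Agent.R010.ES4

open Crest.NumberTheoryR.GT Crest.Agent.R010
open Crest.Agent.R010.Witt (WS exists_hom_sum weightSubspace_eq)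

attribute [local instance 100] LieRing.ofAssociativeRing

section family

variable {L : Type*} [LieRing L] [LieAlgebra ℚ L]

/-- a zero of the pentagon defect satisfies the pentagon for every family with the braid
relations -/
theorem pent_family {t : Fin 4 → Fin 4 → L} (ht : DynB.BraidRel t) {p : GTLie}
    (hp : pentagonDefect p = 0) :
    gtSubst (t 0 1) (t 1 2 + t 1 3) p + gtSubst (t 0 2 + t 1 2) (t 2 3) p
      - gtSubst (t 1 2) (t 2 3) p - gtSubst (t 0 1 + t 0 2) (t 1 3 + t 2 3) p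
      - gtSubst (t 0 1) (t 1 2) p = 0 := by
  let φ : FreeBraid4 →ₗ⁅ℚ⁆ L := FreeLieAlgebra.lift ℚ (fun g : BraidGen4 => t g.1.1 g.1.2)
  have hφ : ∀ i j : Fin 4, i ≠ j → φ (tFree i j) = t i j := by
    intro i j hij
    unfold tFree
    split_ifs with h h'
    · simp only [φ, FreeLieAlgebra.lift_of_apply]
    · simp only [φ, FreeLieAlgebra.lift_of_apply]
      exact ht.symm j i
    · exact absurd (le_antisymm (not_lt.mp h') (not_lt.mp h)) hij
  have h1 : U.pentFree p ∈ braidIdeal4 := by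
    have h2 := U.mkB_pentFree p
    rw [hp, U.mkB_apply] at h2
    exact (LieSubmodule.Quotient.mk_eq_zero').mp h2
  have h3 : φ (U.pentFree p) = 0 := by
    refine U.lift_zero_on_ideal φ ?_ _ h1
    rintro r (⟨i, j, k, l, h1, h2, h3, h4, h5, h6, rfl⟩ | ⟨i, j, k, h1, h2, h3, rfl⟩)
    · rw [LieHom.map_lie, hφ _ _ h1, hφ _ _ h6]
      exact ht.comm i j k l h1 h2 h3 h4 h5 h6
    · rw [LieHom.map_lie, map_add, hφ _ _ h1, hφ _ _ h2, hφ _ _ h3]
      exact ht.three i j k h1 h2 h3
  simp only [U.pentFree, map_add, map_sub, U.gtSubst_comp] at h3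
  rw [hφ 0 1 (by decide), hφ 1 2 (by decide), hφ 1 3 (by decide), hφ 0 2 (by decide),
    hφ 2 3 (by decide)] at h3
  exact h3

theorem gtSubst_smul {n : ℕ} {p : GTLie} (hp : p ∈ weightSubspace (fun _ : Fin 2 => 1) n)
    (q : ℚ) (a b : L) : gtSubst (q • a) (q • b) p = q ^ n • gtSubst a b p := by
  induction hp using Submodule.span_induction with
  | mem x hx =>
    have hx' : IsBracketMonomial (fun _ : Fin 2 => 1) n x := hx
    clear hx
    induction hx' with
    | of i =>
      rw [pow_one]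
      fin_cases i
      · show gtSubst (q • a) (q • b) gx = q • gtSubst a b gx
        rw [gtSubst_gx, gtSubst_gx]
      · show gtSubst (q • a) (q • b) gy = q • gtSubst a b gy
        rw [gtSubst_gy, gtSubst_gy]
    | lie _ _ h1 h2 =>
      rw [LieHom.map_lie, LieHom.map_lie, h1, h2, smul_lie, lie_smul, smul_smul, pow_add]
  | zero => simp
  | add x y _ _ hx hy => rw [map_add, map_add, hx, hy, smul_add]
  | smul r x _ hx => rw [map_smul, map_smul, hx, smul_comm]

end family

theorem vand {V : Type*} [AddCommGroup V] [Module ℚ V] (s : Finset ℕ) (v : ℕ → V)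
    (h : ∀ q : ℚ, ∑ n ∈ s, q ^ n • v n = 0) : ∀ n ∈ s, v n = 0 := by
  classical
  intro n hn
  rw [← Module.forall_dual_apply_eq_zero_iff ℚ]
  intro φ
  have hP : ∑ m ∈ s, Polynomial.monomial m (φ (v m)) = 0 := by
    apply Polynomial.funext
    intro q
    have := congrArg φ (h q)
    rw [map_sum, map_zero] at this
    rw [Polynomial.eval_finsetSum, Polynomial.eval_zero, ← this]
    refine Finset.sum_congr rfl fun m _ => ?_
    rw [Polynomial.eval_monomial, map_smul, smul_eq_mul, mul_comm]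
  have h1 := congrArg (fun P => Polynomial.coeff P n) hP
  simp only [Polynomial.finsetSum_coeff, Polynomial.coeff_monomial, Polynomial.coeff_zero] at h1
  rw [Finset.sum_ite_eq' s n] at h1
  rwa [if_pos hn] at h1

theorem antisym_apply (p : GTLie) : antisymDefect p = gtSubst gx gy p + gtSubst gy gx p := by
  rw [gtSubst_gx_gy']; rfl
where
  gtSubst_gx_gy' : gtSubst gx gy p = p := by
    have : (gtSubst gx gy : GTLie →ₗ⁅ℚ⁆ GTLie) = LieHom.id := by
      apply gt_hom_ext
      · rw [gtSubst_gx]; rfl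
      · rw [gtSubst_gy]; rfl
    rw [this]; rfl

theorem three_apply (p : GTLie) : threeTermDefect p =
    gtSubst gx gy p + gtSubst gy (-gx - gy) p + gtSubst (-gx - gy) gx p := by
  rw [antisym_apply.gtSubst_gx_gy']; rfl

theorem pent_apply (p : GTLie) : pentagonDefect p =
    gtSubst (tB 0 1) (tB 1 2 + tB 1 3) p + gtSubst (tB 0 2 + tB 1 2) (tB 2 3) p
      - gtSubst (tB 1 2) (tB 2 3) p - gtSubst (tB 0 1 + tB 0 2) (tB 1 3 + tB 2 3) p
      - gtSubst (tB 0 1) (tB 1 2) p := rfl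

/-- homogeneous components of an element of `grtSpace` are in `grtSpace` -/
theorem comp_mem {p : GTLie} (hp : p ∈ grtSpace) (s : Finset ℕ) (f : ℕ → GTLie)
    (hf : ∀ n, f n ∈ weightSubspace (fun _ : Fin 2 => 1) n) (hs : p = ∑ n ∈ s, f n) :
    ∀ n ∈ s, f n ∈ grtSpace := by
  have ha : antisymDefect p = 0 := hp.1.1
  have ht : threeTermDefect p = 0 := hp.1.2
  have hpe : pentagonDefect p = 0 := hp.2
  have h1 : ∀ n ∈ s, antisymDefect (f n) = 0 := by
    apply vand
    intro q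
    have e : (gtSubst (q • gx) (q • gy) : GTLie →ₗ⁅ℚ⁆ GTLie) (antisymDefect p) = 0 := by
      rw [ha, map_zero]
    rw [antisym_apply, map_add, U.gtSubst_comp, U.gtSubst_comp, gtSubst_gx, gtSubst_gy, hs,
      map_sum, map_sum, ← Finset.sum_add_distrib] at e
    rw [← e]
    refine Finset.sum_congr rfl fun n _ => ?_
    rw [gtSubst_smul (hf n), gtSubst_smul (hf n), antisym_apply, smul_add]
  have h2 : ∀ n ∈ s, threeTermDefect (f n) = 0 := by
    apply vand
    intro q
    have e : (gtSubst (q • gx) (q • gy) : GTLie →ₗ⁅ℚ⁆ GTLie) (threeTermDefect p) = 0 := by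
      rw [ht, map_zero]
    have e2 : -(q • gx) - q • gy = q • (-gx - gy) := by
      rw [smul_sub, smul_neg]
    rw [three_apply, map_add, map_add, U.gtSubst_comp, U.gtSubst_comp, U.gtSubst_comp, map_sub,
      map_neg, gtSubst_gx, gtSubst_gy, e2, hs, map_sum, map_sum, map_sum,
      ← Finset.sum_add_distrib, ← Finset.sum_add_distrib] at e
    rw [← e]
    refine Finset.sum_congr rfl fun n _ => ?_
    rw [gtSubst_smul (hf n), gtSubst_smul (hf n), gtSubst_smul (hf n), three_apply, smul_add,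
      smul_add]
  have h3 : ∀ n ∈ s, pentagonDefect (f n) = 0 := by
    apply vand
    intro q
    have hq : DynB.BraidRel (fun i j => q • tB i j) := by
      refine ⟨fun i j => ?_, fun i j k l h1 h2 h3 h4 h5 h6 => ?_, fun i j k h1 h2 h3 => ?_⟩
      · rw [DynB.tB_symm i j]
      · rw [smul_lie, lie_smul, DynB.tB_comm h1 h2 h3 h4 h5 h6, smul_zero, smul_zero]
      · rw [← smul_add, smul_lie, lie_smul, DynB.tB_three h1 h2 h3, smul_zero, smul_zero]
    have e := pent_family hq hpe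
    simp only [← smul_add] at e
    rw [hs] at e
    simp only [map_sum] at e
    rw [← Finset.sum_add_distrib, ← Finset.sum_sub_distrib, ← Finset.sum_sub_distrib,
      ← Finset.sum_sub_distrib] at e
    rw [← e]
    refine Finset.sum_congr rfl fun n _ => ?_
    rw [gtSubst_smul (hf n), gtSubst_smul (hf n), gtSubst_smul (hf n), gtSubst_smul (hf n),
      gtSubst_smul (hf n), pent_apply, smul_sub, smul_sub, smul_sub, smul_add]
  intro n hn
  exact ⟨⟨h1 n hn, h2 n hn⟩, h3 n hn⟩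

theorem mono_pos {m : ℕ} {x : GTLie} (h : IsBracketMonomial (fun _ : Fin 2 => 1) m x) : 1 ≤ m := by
  induction h with
  | of i => exact le_rfl
  | lie _ _ h1 h2 => omega

theorem weight_zero {x : GTLie} (h : x ∈ weightSubspace (fun _ : Fin 2 => 1) 0) : x = 0 := by
  induction h using Submodule.span_induction with
  | mem x hx => exact absurd (mono_pos hx) (by omega)
  | zero => rfl
  | add x y _ _ hx hy => rw [hx, hy, add_zero]
  | smul r x _ hx => rw [hx, smul_zero]

theorem weight_one {x : GTLie} (h : x ∈ weightSubspace (fun _ : Fin 2 => 1) 1) :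
    ∃ a b : ℚ, x = a • gx + b • gy := by
  induction h using Submodule.span_induction with
  | mem x hx =>
    have key : ∀ (n : ℕ) (x : GTLie), IsBracketMonomial (fun _ : Fin 2 => 1) n x → n = 1 →
        ∃ a b : ℚ, x = a • gx + b • gy := by
      intro n x hx hn
      induction hx with
      | of i =>
        fin_cases i
        · exact ⟨1, 0, by rw [one_smul, zero_smul, add_zero]; rfl⟩
        · exact ⟨0, 1, by rw [one_smul, zero_smul, zero_add]; rfl⟩
      | lie h1 h2 _ _ =>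
        have := mono_pos h1; have := mono_pos h2; omega
    exact key 1 x hx rfl
  | zero => exact ⟨0, 0, by simp⟩
  | add x y _ _ hx hy =>
    obtain ⟨a, b, rfl⟩ := hx
    obtain ⟨c, d, rfl⟩ := hy
    exact ⟨a + c, b + d, by rw [add_smul, add_smul]; abel⟩
  | smul r x _ hx =>
    obtain ⟨a, b, rfl⟩ := hx
    exact ⟨r * a, r * b, by rw [smul_add, smul_smul, smul_smul]⟩

theorem weight_two {x : GTLie} (h : x ∈ weightSubspace (fun _ : Fin 2 => 1) 2) :
    ∃ a : ℚ, x = a • ⁅gx, gy⁆ := by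
  induction h using Submodule.span_induction with
  | mem x hx =>
    have key : ∀ (n : ℕ) (x : GTLie), IsBracketMonomial (fun _ : Fin 2 => 1) n x → n = 2 →
        ∃ a : ℚ, x = a • ⁅gx, gy⁆ := by
      intro n x hx hn
      cases hx with
      | of i => simp at hn
      | @lie m n u v h1 h2 =>
        have g1 := mono_pos h1
        have g2 := mono_pos h2
        have e1 : m = 1 := by omega
        have e2 : n = 1 := by omega
        subst e1 e2
        obtain ⟨a, b, rfl⟩ := weight_one (Submodule.subset_span h1)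
        obtain ⟨c, d, rfl⟩ := weight_one (Submodule.subset_span h2)
        refine ⟨a * d - b * c, ?_⟩
        have hs : ⁅gy, gx⁆ = -⁅gx, gy⁆ := (lie_skew gy gx).symm
        simp only [add_lie, lie_add, smul_lie, lie_smul, lie_self, hs, smul_neg, smul_zero,
          zero_add, add_zero, smul_smul, sub_smul]
        rw [mul_comm d a, mul_comm c b]
        abel
    exact key 2 x hx rfl
  | zero => exact ⟨0, by simp⟩
  | add x y _ _ hx hy =>
    obtain ⟨a, rfl⟩ := hx
    obtain ⟨c, rfl⟩ := hy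
    exact ⟨a + c, by rw [add_smul]⟩
  | smul r x _ hx =>
    obtain ⟨a, rfl⟩ := hx
    exact ⟨r * a, by rw [smul_smul]⟩

theorem grt_one {x : GTLie} (hx : x ∈ grtSpace)
    (h : x ∈ weightSubspace (fun _ : Fin 2 => 1) 1) : x = 0 := by
  obtain ⟨a, b, rfl⟩ := weight_one h
  have ha : antisymDefect (a • gx + b • gy) = 0 := hx.1.1
  have hpe : pentagonDefect (a • gx + b • gy) = 0 := hx.2
  let t : Fin 4 → Fin 4 → ℚ := fun i j => if (i = 0 ∧ j = 1) ∨ (i = 1 ∧ j = 0) then 1 else 0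
  have hlie : ∀ x y : ℚ, ⁅x, y⁆ = 0 := fun x y => by
    rw [LieRing.of_associative_ring_bracket, mul_comm, sub_self]
  have ht : DynB.BraidRel t := by
    refine ⟨fun i j => ?_, fun i j k l _ _ _ _ _ _ => hlie _ _, fun i j k _ _ _ => hlie _ _⟩
    simp only [t]
    congr 1
    apply propext
    constructor <;> rintro (⟨h1, h2⟩ | ⟨h1, h2⟩) <;> simp [h1, h2]
  have h1 := pent_family ht hpe
  have t01 : t 0 1 = 1 := by simp [t]
  have t12 : t 1 2 = 0 := by simp [t]
  have t13 : t 1 3 = 0 := by simp [t]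
  have t02 : t 0 2 = 0 := by simp [t]
  have t23 : t 2 3 = 0 := by simp [t]
  rw [t01, t12, t13, t02, t23] at h1
  simp only [map_add, map_smul, gtSubst_gx, gtSubst_gy] at h1
  norm_num at h1
  have h2 : (gtSubst (1 : ℚ) 0 : GTLie →ₗ⁅ℚ⁆ ℚ) (antisymDefect (a • gx + b • gy)) = 0 := by
    rw [ha, map_zero]
  rw [antisym_apply] at h2
  simp only [map_add, map_smul, gtSubst_gx, gtSubst_gy] at h2
  norm_num at h2
  have h3 : a = 0 := by linarith
  have h4 : b = 0 := by linarith
  rw [h3, h4]; simp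

theorem grt_two {x : GTLie} (hx : x ∈ grtSpace)
    (h : x ∈ weightSubspace (fun _ : Fin 2 => 1) 2) : x = 0 := by
  obtain ⟨a, rfl⟩ := weight_two h
  have ht : threeTermDefect (a • ⁅gx, gy⁆) = 0 := hx.1.2
  rw [three_apply] at ht
  have hs : ⁅gy, gx⁆ = -⁅gx, gy⁆ := (lie_skew gy gx).symm
  simp only [map_smul, LieHom.map_lie, gtSubst_gx, gtSubst_gy, lie_sub, sub_lie, lie_neg, neg_lie,
    lie_self, hs, neg_neg, sub_zero, neg_zero, zero_sub] at ht
  have h3 : (3 : ℚ) • (a • ⁅gx, gy⁆) = 0 := by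
    rw [← ht, show (3 : ℚ) = 1 + 1 + 1 by norm_num, add_smul, add_smul, one_smul]
  exact (smul_eq_zero.1 h3).resolve_left (by norm_num)

end Crest.Agent.R010.ES4

namespace Crest.Agent.R010

open Crest.NumberTheoryR.GT in
/-- (S4) -/
theorem S4_holds : S4 := by
  classical
  intro p hp
  obtain ⟨f, hf, hs⟩ := Witt.exists_hom_sum (fun _ : Fin 2 => 1) p
  have hf' : ∀ n, f n ∈ weightSubspace (fun _ : Fin 2 => 1) n := by
    intro n; rw [Witt.weightSubspace_eq]; exact hf n
  have hmem := ES4.comp_mem hp f.support f hf' hs.symm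
  refine ⟨f.support.filter (fun n => 3 ≤ n), f, ?_, ?_⟩
  · intro n hn
    rw [Finset.mem_filter] at hn
    exact ⟨hn.2, hmem n hn.1, hf' n⟩
  · rw [← hs, Finset.sum_filter]
    refine Finset.sum_congr rfl fun n hn => ?_
    by_cases h3 : 3 ≤ n
    · rw [if_pos h3]
    · rw [if_neg h3]
      have h4 : n = 0 ∨ n = 1 ∨ n = 2 := by omega
      rcases h4 with rfl | rfl | rfl
      · exact ES4.weight_zero (hf' 0)
      · exact ES4.grt_one (hmem 1 hn) (hf' 1)
      · exact ES4.grt_two (hmem 2 hn) (hf' 2)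

end Crest.Agent.R010

end
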