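import Crest.Agent.R010.EDefs
import Crest.Agent.R010.CDefs
import Crest.Agent.R010.Witt
import Crest.Agent.R010.Witt2
import Crest.Agent.R010.CConv
import Crest.Agent.R010.ECmain
import Crest.Agent.R010.UBridge
import Crest.Agent.R010.UBridge2

-- ▼ part R010/GlueA
section

/-! Row 10, module (cC) GLUE, part A (helper379): word coefficients, base change, homogeneity. -/

set_option autoImplicit false

noncomputable section

namespace Crest.Agent.R010.G

open Crest.NumberTheoryR.GT Crest.Agent.R010 Crest.Agent.R010.C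

attribute [local instance 100] LieRing.ofAssociativeRing

/-- the word `l` as an element of the free algebra -/
def wd (R : Type*) [CommRing R] {T : Type*} (l : List T) : FreeAlgebra R T :=
  (l.map (FreeAlgebra.ι R)).prod

section words

variable {R : Type*} [CommRing R] {T : Type*}

@[simp] theorem wd_nil : wd R ([] : List T) = 1 := rfl

@[simp] theorem wd_cons (i : T) (l : List T) : wd R (i :: l) = FreeAlgebra.ι R i * wd R l := by
  simp [wd]

theorem wd_append (l l' : List T) : wd R (l ++ l') = wd R l * wd R l' := by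
  simp [wd]

theorem equiv_wd (l : List T) : FreeAlgebra.equivMonoidAlgebraFreeMonoid (wd R l) =
    MonoidAlgebra.single (FreeMonoid.ofList l) (1 : R) := by
  induction l with
  | nil => simp [MonoidAlgebra.one_def]
  | cons i l ih =>
    rw [wd_cons, map_mul, ih]
    have : FreeAlgebra.equivMonoidAlgebraFreeMonoid (FreeAlgebra.ι R i) =
        MonoidAlgebra.single (FreeMonoid.of i) (1 : R) := by
      simp [FreeAlgebra.equivMonoidAlgebraFreeMonoid]
    rw [this, MonoidAlgebra.single_mul_single]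
    simp

open Classical in
theorem cf_wd (l l' : List T) : cf l (wd R l') = if l' = l then (1 : R) else 0 := by
  show (FreeAlgebra.equivMonoidAlgebraFreeMonoid (wd R l')).coeff (FreeMonoid.ofList l) = _
  rw [equiv_wd, MonoidAlgebra.coeff_single, Finsupp.single_apply]
  by_cases h : l' = l
  · rw [if_pos h, if_pos (by rw [h])]
  · rw [if_neg h, if_neg (fun h' => h (FreeMonoid.ofList.injective h'))]


theorem cf_wd_ne {l l' : List T} (h : l' ≠ l) : cf l (wd R l') = (0 : R) := by
  classical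
  rw [cf_wd, if_neg h]

theorem ext_cf {a b : FreeAlgebra R T} (h : ∀ l : List T, cf l a = cf l b) : a = b := by
  apply FreeAlgebra.equivMonoidAlgebraFreeMonoid.injective
  apply MonoidAlgebra.ext
  ext l
  exact h (FreeMonoid.toList l)

/-- the words occurring in `a` -/
def supp (a : FreeAlgebra R T) : Finset (List T) :=
  (FreeAlgebra.equivMonoidAlgebraFreeMonoid a).coeff.support.map
    (FreeMonoid.toList (α := T)).toEmbedding

theorem mem_supp {a : FreeAlgebra R T} {l : List T} : l ∈ supp a ↔ cf l a ≠ 0 := by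
  rw [supp, Finset.mem_map]
  constructor
  · rintro ⟨m, hm, rfl⟩
    exact Finsupp.mem_support_iff.1 hm
  · intro h
    exact ⟨FreeMonoid.ofList l, Finsupp.mem_support_iff.2 h, rfl⟩

theorem eq_sum (a : FreeAlgebra R T) : a = ∑ l ∈ supp a, cf l a • wd R l := by
  classical
  apply ext_cf
  intro l
  rw [map_sum]
  have : ∀ m ∈ supp a, cf l (cf m a • wd R m) = if m = l then cf l a else 0 := by
    intro m _
    rw [map_smul, cf_wd]
    split_ifs with h
    · subst h; simp
    · simp
  rw [Finset.sum_congr rfl this, Finset.sum_ite_eq']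
  split_ifs with h
  · rfl
  · rw [mem_supp, not_not] at h
    exact h

/-- span of the words satisfying `p` -/
def sw (R : Type*) [CommRing R] {T : Type*} (p : List T → Prop) : Submodule R (FreeAlgebra R T) :=
  Submodule.span R {a | ∃ l : List T, p l ∧ a = wd R l}

theorem wd_mem_sw {p : List T → Prop} {l : List T} (h : p l) : wd R l ∈ sw R p :=
  Submodule.subset_span ⟨l, h, rfl⟩

theorem mem_sw_iff {p : List T → Prop} {a : FreeAlgebra R T} :
    a ∈ sw R p ↔ ∀ l, cf l a ≠ 0 → p l := by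
  constructor
  · intro h
    induction h using Submodule.span_induction with
    | mem x hx =>
      obtain ⟨l, hl, rfl⟩ := hx
      intro m hm
      by_contra hp
      have : l ≠ m := fun h => hp (h ▸ hl)
      exact hm (cf_wd_ne this)
    | zero => intro l hl; simp at hl
    | add x y _ _ hx hy =>
      intro l hl
      rw [map_add] at hl
      by_contra hp
      have h1 : cf l x = 0 := by by_contra h1; exact hp (hx l h1)
      have h2 : cf l y = 0 := by by_contra h2; exact hp (hy l h2)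
      rw [h1, h2, add_zero] at hl
      exact hl rfl
    | smul r x _ hx =>
      intro l hl
      rw [map_smul] at hl
      refine hx l fun h => hl ?_
      rw [h, smul_zero]
  · intro h
    rw [eq_sum a]
    refine Submodule.sum_mem _ fun l hl => Submodule.smul_mem _ _ (wd_mem_sw (h l (mem_supp.1 hl)))

theorem sw_mono {p q : List T → Prop} (h : ∀ l, p l → q l) : sw R p ≤ sw R q := by
  intro a ha
  rw [mem_sw_iff] at ha ⊢
  exact fun l hl => h l (ha l hl)


theorem wtA_eq_sw (w : T → ℕ) (N : ℕ) : wtA R w N = sw R (fun l => (l.map w).sum = N) := rfl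

theorem mem_wtA_iff {w : T → ℕ} {N : ℕ} {a : FreeAlgebra R T} :
    a ∈ wtA R w N ↔ ∀ l, cf l a ≠ 0 → (l.map w).sum = N := by
  rw [wtA_eq_sw, mem_sw_iff]

theorem sw_induction {p : List T → Prop} {C : FreeAlgebra R T → Prop}
    (hw : ∀ l, p l → C (wd R l)) (h0 : C 0) (ha : ∀ a b, C a → C b → C (a + b))
    (hs : ∀ (r : R) a, C a → C (r • a)) {a : FreeAlgebra R T} (h : a ∈ sw R p) : C a := by
  induction h using Submodule.span_induction with
  | mem x hx => obtain ⟨l, hl, rfl⟩ := hx; exact hw l hl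
  | zero => exact h0
  | add x y _ _ hx hy => exact ha x y hx hy
  | smul r x _ hx => exact hs r x hx

/-- words are a spanning set -/
theorem mem_sw_true (a : FreeAlgebra R T) : a ∈ sw R (fun _ : List T => True) := by
  rw [mem_sw_iff]; exact fun _ _ => trivial

/-- restriction of an element to the words with `p` -/
def res (p : List T → Prop) (a : FreeAlgebra R T) : FreeAlgebra R T :=
  open Classical in ∑ l ∈ (supp a).filter p, cf l a • wd R l

theorem cf_res (p : List T → Prop) (a : FreeAlgebra R T) (l : List T) :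
    cf l (res p a) = open Classical in if p l then cf l a else 0 := by
  classical
  rw [res, map_sum]
  have : ∀ m ∈ (supp a).filter p, cf l (cf m a • wd R m) = if m = l then cf l a else 0 := by
    intro m _
    rw [map_smul, cf_wd]
    split_ifs with h
    · subst h; simp
    · simp
  rw [Finset.sum_congr rfl this, Finset.sum_ite_eq']
  by_cases hp : p l
  · by_cases hl : l ∈ supp a
    · rw [if_pos (Finset.mem_filter.2 ⟨hl, hp⟩), if_pos hp]
    · rw [if_neg (fun h => hl (Finset.mem_filter.1 h).1), if_pos hp]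
      rw [mem_supp, not_not] at hl
      exact hl.symm
  · rw [if_neg (fun h => hp (Finset.mem_filter.1 h).2), if_neg hp]

theorem res_mem (p : List T → Prop) (a : FreeAlgebra R T) : res p a ∈ sw R p := by
  classical
  rw [mem_sw_iff]
  intro l hl
  rw [cf_res] at hl
  by_contra hp
  rw [if_neg hp] at hl
  exact hl rfl


theorem res_eq_self {p : List T → Prop} {a : FreeAlgebra R T} (h : a ∈ sw R p) :
    res p a = a := by
  classical
  apply ext_cf
  intro l
  rw [cf_res]
  split_ifs with hp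
  · rfl
  · by_contra hl
    exact hp (mem_sw_iff.1 h l (fun h => hl h.symm))

end words

section basechange

variable {R S : Type*} [CommRing R] [CommRing S] (f : R →+* S) {T : Type*}

theorem bc_wd (l : List T) : bc f T (wd R l) = wd S l := by
  induction l with
  | nil => simp
  | cons i l ih => rw [wd_cons, wd_cons, map_mul, bc_ι, ih]

theorem cf_bc (a : FreeAlgebra R T) (l : List T) : cf l (bc f T a) = f (cf l a) := by
  classical
  refine sw_induction (C := fun a => cf l (bc f T a) = f (cf l a)) ?_ ?_ ?_ ?_ (mem_sw_true a)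
  · intro m _
    rw [bc_wd, cf_wd, cf_wd]
    split_ifs <;> simp
  · simp
  · intro a b ha hb; simp [ha, hb]
  · intro r a ha
    rw [bc_smul, map_smul, map_smul, ha, smul_eq_mul, smul_eq_mul, map_mul]

theorem bc_injective (hf : Function.Injective f) : Function.Injective (bc f T) := by
  intro a b h
  apply ext_cf
  intro l
  apply hf
  rw [← cf_bc, ← cf_bc, h]

theorem bc_mem_sw {p : List T → Prop} {a : FreeAlgebra R T} (h : a ∈ sw R p) :
    bc f T a ∈ sw S p := by
  rw [mem_sw_iff] at h ⊢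
  intro l hl
  rw [cf_bc] at hl
  exact h l fun h0 => hl (by rw [h0, map_zero])

theorem mem_sw_of_bc (hf : Function.Injective f) {p : List T → Prop} {a : FreeAlgebra R T}
    (h : bc f T a ∈ sw S p) : a ∈ sw R p := by
  rw [mem_sw_iff] at h ⊢
  intro l hl
  refine h l fun h0 => hl ?_
  rw [cf_bc] at h0
  exact hf (by rw [h0, map_zero])

theorem bc_res (p : List T → Prop) (a : FreeAlgebra R T) :
    bc f T (res p a) = res p (bc f T a) := by
  classical
  apply ext_cf
  intro l
  rw [cf_bc, cf_res, cf_res, cf_bc]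
  split_ifs <;> simp


end basechange

section integers

variable {T : Type*}

/-- `ℤ → ℚ` -/
abbrev fQ : ℤ →+* ℚ := Int.castRingHom ℚ
/-- `ℤ → 𝔽₂` -/
abbrev f2 : ℤ →+* F2 := Int.castRingHom (ZMod 2)

theorem fQ_injective : Function.Injective fQ := Int.cast_injective

theorem bcQ_injective : Function.Injective (bc fQ T) := bc_injective _ fQ_injective

/-- kernel of reduction mod 2 -/
theorem exists_two_of_bc_eq_zero {a : FreeAlgebra ℤ T} (h : bc f2 T a = 0) :
    ∃ b, a = (2 : ℤ) • b := by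
  refine ⟨∑ l ∈ supp a, (cf l a / 2) • wd ℤ l, ?_⟩
  rw [Finset.smul_sum]
  conv_lhs => rw [eq_sum a]
  refine Finset.sum_congr rfl fun l _ => ?_
  rw [smul_smul]
  have h1 : f2 (cf l a) = 0 := by rw [← cf_bc, h, map_zero]
  have h2 : (2 : ℤ) ∣ cf l a := by
    have := (ZMod.intCast_zmod_eq_zero_iff_dvd (cf l a) 2).1 (by simpa using h1)
    simpa using this
  rw [Int.mul_ediv_cancel' h2]
  rfl

theorem smul_cancel {c : ℤ} (hc : c ≠ 0) {a b : FreeAlgebra ℤ T} (h : c • a = c • b) : a = b := by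
  apply ext_cf
  intro l
  have := congrArg (cf l) h
  rw [map_smul, map_smul, smul_eq_mul, smul_eq_mul] at this
  exact mul_left_cancel₀ hc this

end integers

end Crest.Agent.R010.G

end
end

-- ▼ part R010/GlueB
section

/-! Row 10, module (cC) GLUE, part B (helper379): Lie elements, gradings, lifts, saturation. -/

set_option autoImplicit false

noncomputable section

namespace Crest.Agent.R010.G

open Crest.NumberTheoryR.GT Crest.Agent.R010 Crest.Agent.R010.C
open Crest.Agent.R010.Witt (asso asso_of WS BM WS_induction fla_induction exists_hom_sum witt_div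
  witt_injective)

attribute [local instance 100] LieRing.ofAssociativeRing

section

variable {R : Type*} [CommRing R] {T : Type*}

theorem wtA_mul {w : T → ℕ} {m n : ℕ} {a b : FreeAlgebra R T} (ha : a ∈ wtA R w m)
    (hb : b ∈ wtA R w n) : a * b ∈ wtA R w (m + n) := by
  rw [wtA_eq_sw] at ha
  refine sw_induction (C := fun a => a * b ∈ wtA R w (m + n)) ?_ ?_ ?_ ?_ ha
  · intro l hl
    rw [wtA_eq_sw] at hb
    refine sw_induction (C := fun b => wd R l * b ∈ wtA R w (m + n)) ?_ ?_ ?_ ?_ hb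
    · intro l' hl'
      rw [← wd_append]
      exact wd_mem_sw (by rw [List.map_append, List.sum_append, hl, hl'])
    · simp
    · intro a b ha hb; rw [mul_add]; exact Submodule.add_mem _ ha hb
    · intro r a ha; rw [mul_smul_comm]; exact Submodule.smul_mem _ _ ha
  · simp
  · intro a b ha hb; rw [add_mul]; exact Submodule.add_mem _ ha hb
  · intro r a ha; rw [smul_mul_assoc]; exact Submodule.smul_mem _ _ ha

theorem ι_eq_wd (i : T) : FreeAlgebra.ι R i = wd R [i] := by simp

theorem ι_mem_wtA (w : T → ℕ) (i : T) : FreeAlgebra.ι R i ∈ wtA R w (w i) := by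
  rw [ι_eq_wd]
  exact wd_mem_sw (by simp)

theorem mem_LieX_iff {a : FreeAlgebra R T} : a ∈ LieX R T ↔ ∃ u, asso R T u = a := by
  constructor
  · intro h
    have : LieX R T ≤ (asso R T).range := by
      rw [LieX, LieSubalgebra.lieSpan_le]
      rintro _ ⟨i, rfl⟩
      exact ⟨FreeLieAlgebra.of R i, asso_of i⟩
    exact this h
  · rintro ⟨u, rfl⟩
    refine fla_induction (p := fun u => asso R T u ∈ LieX R T) ?_ ?_ ?_ ?_ ?_ u
    · intro i
      rw [asso_of]
      exact LieSubalgebra.subset_lieSpan ⟨i, rfl⟩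
    · rw [map_zero]; exact Submodule.zero_mem (LieX R T).toSubmodule
    · intro a b ha hb; rw [map_add]; exact add_mem ha hb
    · intro r a ha; rw [map_smul]; exact Submodule.smul_mem (LieX R T).toSubmodule r ha
    · intro a b ha hb; rw [LieHom.map_lie]; exact LieSubalgebra.lie_mem _ ha hb

theorem asso_mem_LieX (u : FreeLieAlgebra R T) : asso R T u ∈ LieX R T :=
  mem_LieX_iff.2 ⟨u, rfl⟩

theorem asso_mem_wtA {w : T → ℕ} {n : ℕ} {u : FreeLieAlgebra R T} (h : u ∈ WS R w n) :
    asso R T u ∈ wtA R w n := by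
  refine WS_induction (p := fun u => asso R T u ∈ wtA R w n) ?_ ?_ ?_ ?_ h
  · clear h u
    intro a ha
    induction ha with
    | of i => rw [asso_of]; exact ι_mem_wtA w i
    | @lie m n a b _ _ h1 h2 =>
      rw [LieHom.map_lie, LieRing.of_associative_ring_bracket]
      refine Submodule.sub_mem _ (wtA_mul h1 h2) ?_
      rw [add_comm]; exact wtA_mul h2 h1
  · rw [map_zero]; exact Submodule.zero_mem _
  · intro a b ha hb; rw [map_add]; exact Submodule.add_mem _ ha hb
  · intro r a ha; rw [map_smul]; exact Submodule.smul_mem _ _ ha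

theorem cf_eq_zero_of_mem {w : T → ℕ} {n : ℕ} {a : FreeAlgebra R T} (h : a ∈ wtA R w n)
    {l : List T} (hl : (l.map w).sum ≠ n) : cf l a = 0 := by
  by_contra h0
  exact hl (mem_wtA_iff.1 h l h0)

theorem res_asso_sum {w : T → ℕ} (f : ℕ →₀ FreeLieAlgebra R T) (hf : ∀ n, f n ∈ WS R w n)
    (n : ℕ) : res (fun l => (l.map w).sum = n) (asso R T (∑ n ∈ f.support, f n)) =
      asso R T (f n) := by
  classical
  apply ext_cf
  intro l
  rw [cf_res, map_sum, map_sum]
  by_cases hl : (l.map w).sum = n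
  · rw [if_pos hl]
    rw [Finset.sum_eq_single n]
    · intro m _ hm
      exact cf_eq_zero_of_mem (asso_mem_wtA (hf m)) (by omega)
    · intro hn
      rw [Finsupp.notMem_support_iff.1 hn]; simp
  · rw [if_neg hl]
    exact (cf_eq_zero_of_mem (asso_mem_wtA (hf n)) hl).symm

theorem res_LieX (w : T → ℕ) (n : ℕ) {a : FreeAlgebra R T} (h : a ∈ LieX R T) :
    res (fun l => (l.map w).sum = n) a ∈ LieX R T := by
  obtain ⟨u, rfl⟩ := mem_LieX_iff.1 h
  obtain ⟨f, hf, rfl⟩ := exists_hom_sum w u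
  rw [res_asso_sum f hf]
  exact asso_mem_LieX _

theorem mem_WS_of_asso {w : T → ℕ} {n : ℕ} {u : FreeLieAlgebra R T}
    (h : asso R T u ∈ wtA R w n) : u ∈ WS R w n := by
  obtain ⟨f, hf, hu⟩ := exists_hom_sum w u
  have h1 := res_asso_sum f hf n
  rw [hu] at h1
  have h2 : res (fun l : List T => (l.map w).sum = n) (asso R T u) = asso R T u :=
    res_eq_self h
  rw [h2] at h1
  rw [witt_injective h1]
  exact hf n


end

section lifts

variable {R S : Type*} [CommRing R] [CommRing S] (f : R →+* S) {T : Type*}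

theorem bc_lie (a b : FreeAlgebra R T) : bc f T ⁅a, b⁆ = ⁅bc f T a, bc f T b⁆ := by
  rw [LieRing.of_associative_ring_bracket, LieRing.of_associative_ring_bracket]
  simp

theorem bc_mem_LieX {a : FreeAlgebra R T} (h : a ∈ LieX R T) : bc f T a ∈ LieX S T := by
  obtain ⟨u, rfl⟩ := mem_LieX_iff.1 h
  refine fla_induction (p := fun u => bc f T (asso R T u) ∈ LieX S T) ?_ ?_ ?_ ?_ ?_ u
  · intro i
    rw [asso_of, bc_ι]
    exact LieSubalgebra.subset_lieSpan ⟨i, rfl⟩
  · rw [map_zero, map_zero]; exact Submodule.zero_mem (LieX S T).toSubmodule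
  · intro a b ha hb; rw [map_add, map_add]; exact add_mem ha hb
  · intro r a ha; rw [map_smul, bc_smul]; exact Submodule.smul_mem (LieX S T).toSubmodule _ ha
  · intro a b ha hb; rw [LieHom.map_lie, bc_lie]; exact LieSubalgebra.lie_mem _ ha hb

theorem exists_lift_LieX (hf : Function.Surjective f) {a : FreeAlgebra S T} (h : a ∈ LieX S T) :
    ∃ b ∈ LieX R T, bc f T b = a := by
  obtain ⟨u, rfl⟩ := mem_LieX_iff.1 h
  refine fla_induction (p := fun u => ∃ b ∈ LieX R T, bc f T b = asso S T u) ?_ ?_ ?_ ?_ ?_ u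
  · intro i
    exact ⟨FreeAlgebra.ι R i, LieSubalgebra.subset_lieSpan ⟨i, rfl⟩, by rw [asso_of, bc_ι]⟩
  · exact ⟨0, Submodule.zero_mem (LieX R T).toSubmodule, by simp⟩
  · rintro a b ⟨a', ha, h1⟩ ⟨b', hb, h2⟩
    exact ⟨a' + b', add_mem ha hb, by rw [map_add, map_add, h1, h2]⟩
  · rintro r a ⟨a', ha, h1⟩
    obtain ⟨r, rfl⟩ := hf r
    exact ⟨r • a', Submodule.smul_mem (LieX R T).toSubmodule _ ha, by
      rw [bc_smul, h1]; exact (LinearMap.map_smul (asso S T).toLinearMap _ _).symm⟩
  · rintro a b ⟨a', ha, h1⟩ ⟨b', hb, h2⟩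
    exact ⟨⁅a', b'⁆, LieSubalgebra.lie_mem _ ha hb, by rw [LieHom.map_lie, bc_lie, h1, h2]⟩

/-- bihomogeneous lift of a Lie element -/
theorem exists_lift_LieX_hom (hf : Function.Surjective f) {w w' : T → ℕ} {n n' : ℕ}
    {a : FreeAlgebra S T} (h : a ∈ LieX S T) (h1 : a ∈ wtA S w n) (h2 : a ∈ wtA S w' n') :
    ∃ b ∈ LieX R T, b ∈ wtA R w n ∧ b ∈ wtA R w' n' ∧ bc f T b = a := by
  classical
  obtain ⟨b, hb, rfl⟩ := exists_lift_LieX f hf h
  refine ⟨res (fun l => (l.map w').sum = n') (res (fun l => (l.map w).sum = n) b),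
    res_LieX w' n' (res_LieX w n hb), ?_, res_mem _ _, ?_⟩
  · rw [mem_wtA_iff]
    intro l hl
    rw [cf_res, cf_res] at hl
    by_contra h0
    rw [if_neg h0] at hl
    simp at hl
  · rw [bc_res, bc_res, res_eq_self h1, res_eq_self h2]

end lifts

section rational

variable {T : Type*}

theorem bc_zsmul {S : Type*} [CommRing S] (f : ℤ →+* S) (c : ℤ) (a : FreeAlgebra ℤ T) :
    bc f T (c • a) = f c • bc f T a := bc_smul f T c a

theorem f2_surjective : Function.Surjective f2 := ZMod.intCast_surjective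

/-- clearing denominators in the free algebra -/
theorem exists_clear (a : FreeAlgebra ℚ T) : ∃ (c : ℤ) (b : FreeAlgebra ℤ T), c ≠ 0 ∧
    bc fQ T b = fQ c • a := by
  refine sw_induction (C := fun a => ∃ (c : ℤ) (b : FreeAlgebra ℤ T), c ≠ 0 ∧
    bc fQ T b = fQ c • a) ?_ ?_ ?_ ?_ (mem_sw_true a)
  · intro l _
    exact ⟨1, wd ℤ l, one_ne_zero, by rw [bc_wd]; simp⟩
  · exact ⟨1, 0, one_ne_zero, by simp⟩
  · rintro a b ⟨c, a', hc, h1⟩ ⟨d, b', hd, h2⟩
    refine ⟨c * d, d • a' + c • b', mul_ne_zero hc hd, ?_⟩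
    rw [map_add, bc_zsmul, bc_zsmul, h1, h2, smul_smul, smul_smul, map_mul, smul_add,
      mul_comm (fQ d) (fQ c)]
  · rintro r a ⟨c, a', hc, h1⟩
    refine ⟨r.den * c, r.num • a', mul_ne_zero (by exact_mod_cast r.den_nz) hc, ?_⟩
    rw [bc_zsmul, h1, smul_smul, smul_smul]
    congr 1
    have hr : (r.den : ℚ) * r = r.num := Rat.den_mul_eq_num r
    have : fQ (r.den * c) = (r.den : ℚ) * c := by simp
    rw [this]
    have h3 : fQ r.num = (r.num : ℚ) := by simp
    have h4 : fQ c = (c : ℚ) := by simp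
    rw [h3, h4, ← hr]
    ring

/-- clearing denominators for Lie elements -/
theorem exists_clear_LieX {a : FreeAlgebra ℚ T} (h : a ∈ LieX ℚ T) :
    ∃ (c : ℤ) (b : FreeAlgebra ℤ T), c ≠ 0 ∧ b ∈ LieX ℤ T ∧ bc fQ T b = fQ c • a := by
  obtain ⟨u, rfl⟩ := mem_LieX_iff.1 h
  refine fla_induction (p := fun u => ∃ (c : ℤ) (b : FreeAlgebra ℤ T), c ≠ 0 ∧ b ∈ LieX ℤ T ∧
    bc fQ T b = fQ c • asso ℚ T u) ?_ ?_ ?_ ?_ ?_ u
  · intro i
    exact ⟨1, FreeAlgebra.ι ℤ i, one_ne_zero, LieSubalgebra.subset_lieSpan ⟨i, rfl⟩, by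
      rw [asso_of, bc_ι]; simp⟩
  · exact ⟨1, 0, one_ne_zero, Submodule.zero_mem (LieX ℤ T).toSubmodule, by simp⟩
  · rintro a b ⟨c, a', hc, ha, h1⟩ ⟨d, b', hd, hb, h2⟩
    refine ⟨c * d, d • a' + c • b', mul_ne_zero hc hd, add_mem
      (Submodule.smul_mem (LieX ℤ T).toSubmodule _ ha)
      (Submodule.smul_mem (LieX ℤ T).toSubmodule _ hb), ?_⟩
    rw [map_add, bc_zsmul, bc_zsmul, h1, h2, smul_smul, smul_smul, map_mul, map_add, smul_add,
      mul_comm (fQ d) (fQ c)]
  · rintro r a ⟨c, a', hc, ha, h1⟩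
    refine ⟨r.den * c, r.num • a', mul_ne_zero (by exact_mod_cast r.den_nz) hc,
      Submodule.smul_mem (LieX ℤ T).toSubmodule _ ha, ?_⟩
    rw [bc_zsmul, h1, map_smul, smul_smul, smul_smul]
    congr 1
    have hr : (r.den : ℚ) * r = r.num := Rat.den_mul_eq_num r
    have : fQ (r.den * c) = (r.den : ℚ) * c := by simp
    rw [this]
    have h3 : fQ r.num = (r.num : ℚ) := by simp
    have h4 : fQ c = (c : ℚ) := by simp
    rw [h3, h4, ← hr]
    ring
  · rintro a b ⟨c, a', hc, ha, h1⟩ ⟨d, b', hd, hb, h2⟩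
    refine ⟨c * d, ⁅a', b'⁆, mul_ne_zero hc hd, LieSubalgebra.lie_mem _ ha hb, ?_⟩
    rw [bc_lie, h1, h2, LieHom.map_lie, map_mul]
    simp only [LieRing.of_associative_ring_bracket, smul_mul_smul_comm, smul_sub,
      mul_comm (fQ d) (fQ c)]

/-- SATURATION: an integral element of `Lie_ℚ` is in `Lie_ℤ`. -/
theorem mem_LieX_of_bc {a : FreeAlgebra ℤ T} (h : bc fQ T a ∈ LieX ℚ T) : a ∈ LieX ℤ T := by
  obtain ⟨c, b, hc, hb, h1⟩ := exists_clear_LieX h
  rw [← bc_zsmul] at h1
  have h2 := bcQ_injective h1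
  obtain ⟨v, hv⟩ := mem_LieX_iff.1 hb
  obtain ⟨v', rfl⟩ := witt_div v c a (by rw [hv, h2]; rfl)
  rw [map_smul] at hv
  have h3 : a = asso ℤ T v' := smul_cancel hc (by rw [← h2, ← hv])
  rw [h3]
  exact asso_mem_LieX v'

end rational

end Crest.Agent.R010.G

end
end

-- ▼ part R010/CB
section

/-! Row 10, module (cB) (helper630): the Ihara bracket on free associative algebras. -/

set_option autoImplicit false

noncomputable section

namespace Crest.Agent.R010.C

open Crest.NumberTheoryR.GT Crest.Agent.R010 Crest.Agent.R010.Witt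

attribute [local instance 100] LieRing.ofAssociativeRing

section general

variable {R : Type*} [CommRing R] {X : Type*}

theorem der_unique (d : X → FreeAlgebra R X) (D : FreeAlgebra R X →ₗ[R] FreeAlgebra R X)
    (hm : ∀ a b, D (a * b) = D a * b + a * D b) (hι : ∀ i, D (FreeAlgebra.ι R i) = d i)
    (f : FreeAlgebra R X) : D f = der R d f := by
  have h1 : D 1 = 0 := by
    have := hm 1 1
    simpa using this
  induction f using FreeAlgebra.induction with
  | grade0 r =>
    rw [der_algebraMap, Algebra.algebraMap_eq_smul_one, map_smul, h1, smul_zero]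
  | grade1 i => rw [hι, der_ι]
  | mul a b ha hb => rw [hm, der_mul, ha, hb]
  | add a b ha hb => rw [map_add, map_add, ha, hb]

theorem mem_LieX_iff {X : Type*} (f : FreeAlgebra R X) :
    f ∈ LieX R X ↔ ∃ l, asso R X l = f := by
  constructor
  · intro h
    have : LieX R X ≤ (asso R X).range := by
      rw [LieX, LieSubalgebra.lieSpan_le]
      rintro _ ⟨i, rfl⟩
      exact ⟨FreeLieAlgebra.of R i, asso_of i⟩
    obtain ⟨l, hl⟩ := this h
    exact ⟨l, hl⟩
  · rintro ⟨l, rfl⟩
    induction l using fla_induction with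
    | hof x => rw [asso_of]; exact LieSubalgebra.subset_lieSpan ⟨x, rfl⟩
    | h0 => rw [map_zero]; exact zero_mem _
    | hadd a b ha hb => rw [map_add]; exact add_mem ha hb
    | hsmul r a ha => rw [map_smul]; exact (LieX R X).smul_mem r ha
    | hlie a b ha hb => rw [LieHom.map_lie]; exact (LieX R X).lie_mem ha hb

end general

section basic

variable {R : Type*} [CommRing R]

theorem dA_X (a : Alg R) : dA R a (X R) = 0 := by simp [dA, X]

theorem dA_Y (a : Alg R) : dA R a (Y R) = Y R * a - a * Y R := by simp [dA, Y]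

theorem dA_mul (a f g : Alg R) : dA R a (f * g) = dA R a f * g + f * dA R a g := der_mul _ f g

theorem dA_one (a : Alg R) : dA R a 1 = 0 := der_one _

theorem dA_unique (a : Alg R) (D : Alg R →ₗ[R] Alg R)
    (hm : ∀ f g, D (f * g) = D f * g + f * D g) (h0 : D (X R) = 0)
    (h1 : D (Y R) = Y R * a - a * Y R) (f : Alg R) : D f = dA R a f := by
  refine der_unique _ D hm (fun i => ?_) f
  fin_cases i
  · exact h0
  · exact h1

theorem dA_add (a b f : Alg R) : dA R (a + b) f = dA R a f + dA R b f := by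
  symm
  refine dA_unique (a + b) (dA R a + dA R b) (fun f g => ?_) ?_ ?_ f
  · simp only [LinearMap.add_apply, dA_mul]; noncomm_ring
  · simp only [LinearMap.add_apply, dA_X, add_zero]
  · simp only [LinearMap.add_apply, dA_Y]; noncomm_ring

theorem dA_smul (r : R) (a f : Alg R) : dA R (r • a) f = r • dA R a f := by
  symm
  refine dA_unique (r • a) (r • dA R a) (fun f g => ?_) ?_ ?_ f
  · simp only [LinearMap.smul_apply, dA_mul, smul_add, smul_mul_assoc, mul_smul_comm]
  · simp only [LinearMap.smul_apply, dA_X, smul_zero]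
  · simp only [LinearMap.smul_apply, dA_Y, smul_sub, smul_mul_assoc, mul_smul_comm]

theorem dA_comm (a b f : Alg R) :
    dA R a (dA R b f) - dA R b (dA R a f) = dA R (ih R a b) f := by
  refine dA_unique (ih R a b) (dA R a * dA R b - dA R b * dA R a) (fun f g => ?_) ?_ ?_ f
  · simp only [LinearMap.sub_apply, Module.End.mul_apply, dA_mul, map_add]; noncomm_ring
  · simp only [LinearMap.sub_apply, Module.End.mul_apply, dA_X, map_zero, sub_zero]
  · simp only [LinearMap.sub_apply, Module.End.mul_apply, dA_Y, map_sub, dA_mul, ih]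
    noncomm_ring

end basic

/-- `s_a = L_a + D_a`. -/
def opS (R : Type*) [CommRing R] (a : Alg R) : Module.End R (Alg R) :=
  LinearMap.mulLeft R a + dA R a

section opS

variable {R : Type*} [CommRing R]

theorem opS_apply (a f : Alg R) : opS R a f = a * f + dA R a f := rfl

theorem opS_one (a : Alg R) : opS R a 1 = a := by rw [opS_apply, dA_one, mul_one, add_zero]

theorem opS_comm (a b : Alg R) : opS R a * opS R b - opS R b * opS R a = opS R (ih R a b) := by
  apply LinearMap.ext
  intro f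
  simp only [LinearMap.sub_apply, Module.End.mul_apply, opS_apply, map_add, dA_mul, ← dA_comm]
  simp only [ih]
  noncomm_ring

theorem opS_add (a b : Alg R) : opS R (a + b) = opS R a + opS R b := by
  apply LinearMap.ext
  intro f
  simp only [LinearMap.add_apply, opS_apply, dA_add]; noncomm_ring

theorem opS_smul (r : R) (a : Alg R) : opS R (r • a) = r • opS R a := by
  apply LinearMap.ext
  intro f
  simp only [LinearMap.smul_apply, opS_apply, dA_smul, smul_add, smul_mul_assoc]









end opS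

section basechange

variable {R S : Type*} [CommRing R] [CommRing S] (f : R →+* S)

theorem bc_X : bc f (Fin 2) (X R) = X S := by simp [X]

theorem bc_Y : bc f (Fin 2) (Y R) = Y S := by simp [Y]

theorem bc_dA (a g : Alg R) :
    bc f (Fin 2) (dA R a g) = dA S (bc f (Fin 2) a) (bc f (Fin 2) g) := by
  induction g using FreeAlgebra.induction with
  | grade0 r =>
    rw [bc_algebraMap]
    simp only [dA, der_algebraMap, map_zero]
  | grade1 i =>
    fin_cases i
    · show bc f (Fin 2) (dA R a (X R)) = dA S (bc f (Fin 2) a) (bc f (Fin 2) (X R))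
      rw [bc_X, dA_X, dA_X, map_zero]
    · show bc f (Fin 2) (dA R a (Y R)) = dA S (bc f (Fin 2) a) (bc f (Fin 2) (Y R))
      rw [bc_Y, dA_Y, dA_Y, map_sub, map_mul, map_mul, bc_Y]
  | mul g h hg hh => rw [dA_mul, map_add, map_mul, map_mul, hg, hh, map_mul, dA_mul]
  | add g h hg hh => rw [map_add, map_add, hg, hh, map_add, map_add]

theorem bc_ih (a b : Alg R) :
    bc f (Fin 2) (ih R a b) = ih S (bc f (Fin 2) a) (bc f (Fin 2) b) := by
  simp only [ih, map_add, map_sub, map_mul, bc_dA]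

theorem bc_opS (a g : Alg R) :
    bc f (Fin 2) (opS R a g) = opS S (bc f (Fin 2) a) (bc f (Fin 2) g) := by
  rw [opS_apply, opS_apply, map_add, map_mul, bc_dA]


end basechange

section weights

variable {R : Type*} [CommRing R] {X : Type*}

/-- word monomials -/
def word (R : Type*) [CommRing R] {X : Type*} (l : List X) : FreeAlgebra R X :=
  (l.map (FreeAlgebra.ι R)).prod

theorem word_nil : word R ([] : List X) = 1 := rfl

theorem word_cons (i : X) (l : List X) : word R (i :: l) = FreeAlgebra.ι R i * word R l := by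
  simp [word]

theorem word_append (l l' : List X) : word R (l ++ l') = word R l * word R l' := by
  simp [word]

theorem word_mem_wtA (w : X → ℕ) (l : List X) : word R l ∈ wtA R w (l.map w).sum :=
  Submodule.subset_span ⟨l, rfl, rfl⟩


theorem ι_mem_wtA (w : X → ℕ) (i : X) : FreeAlgebra.ι R i ∈ wtA R w (w i) := by
  simpa [word] using word_mem_wtA (R := R) w [i]

theorem wtA_induction {w : X → ℕ} {n : ℕ} {p : FreeAlgebra R X → Prop}
    (hw : ∀ l : List X, (l.map w).sum = n → p (word R l)) (h0 : p 0)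
    (ha : ∀ a b, p a → p b → p (a + b)) (hs : ∀ (r : R) a, p a → p (r • a))
    {f : FreeAlgebra R X} (h : f ∈ wtA R w n) : p f := by
  refine Submodule.span_induction (p := fun f _ => p f) ?_ h0 (fun a b _ _ => ha a b)
    (fun r a _ => hs r a) h
  rintro _ ⟨l, hl, rfl⟩
  exact hw l hl

theorem mul_mem_wtA {w : X → ℕ} {m n : ℕ} {f g : FreeAlgebra R X} (hf : f ∈ wtA R w m)
    (hg : g ∈ wtA R w n) : f * g ∈ wtA R w (m + n) := by
  refine wtA_induction (p := fun f => f * g ∈ wtA R w (m + n)) ?_ ?_ ?_ ?_ hf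
  · intro l hl
    refine wtA_induction (p := fun g => word R l * g ∈ wtA R w (m + n)) ?_ ?_ ?_ ?_ hg
    · intro l' hl'
      rw [← word_append, ← hl, ← hl']
      simpa using word_mem_wtA (R := R) w (l ++ l')
    · simp
    · intro a b ha hb; rw [mul_add]; exact add_mem ha hb
    · intro r a ha; rw [mul_smul_comm]; exact Submodule.smul_mem _ _ ha
  · simp
  · intro a b ha hb; rw [add_mul]; exact add_mem ha hb
  · intro r a ha; rw [smul_mul_assoc]; exact Submodule.smul_mem _ _ ha

theorem lieA_mem_wtA {w : X → ℕ} {m n : ℕ} {f g : FreeAlgebra R X} (hf : f ∈ wtA R w m)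
    (hg : g ∈ wtA R w n) : f * g - g * f ∈ wtA R w (m + n) :=
  sub_mem (mul_mem_wtA hf hg) (add_comm n m ▸ mul_mem_wtA hg hf)

theorem equiv_word (l : List X) : FreeAlgebra.equivMonoidAlgebraFreeMonoid (word R l) =
    MonoidAlgebra.single (FreeMonoid.ofList l) (1 : R) := by
  induction l with
  | nil => rw [word_nil, map_one]; rfl
  | cons i l ih =>
    rw [word_cons, map_mul, ih]
    simp [FreeAlgebra.equivMonoidAlgebraFreeMonoid, MonoidAlgebra.single_mul_single]

open Classical in
theorem cf_word (v l : List X) : cf v (word R l) = if v = l then 1 else 0 := by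
  show (FreeAlgebra.equivMonoidAlgebraFreeMonoid (word R l)).coeff (FreeMonoid.ofList v) = _
  rw [equiv_word, MonoidAlgebra.coeff_single, Finsupp.single_apply]
  by_cases hv : v = l
  · subst hv; simp
  · rw [if_neg hv, if_neg]
    intro e; exact hv (FreeMonoid.ofList.injective e).symm

theorem mem_span_word (f : FreeAlgebra R X) :
    f ∈ Submodule.span R {g | ∃ l : List X, cf l f ≠ 0 ∧ g = word R l} := by
  have h : f = ∑ m ∈ (FreeAlgebra.equivMonoidAlgebraFreeMonoid f).coeff.support,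
      cf (FreeMonoid.toList m) f • word R (FreeMonoid.toList m) := by
    apply (FreeAlgebra.equivMonoidAlgebraFreeMonoid (R := R) (X := X)).injective
    rw [map_sum]
    conv_lhs => rw [← MonoidAlgebra.sum_coeff_single (FreeAlgebra.equivMonoidAlgebraFreeMonoid f)]
    refine Finset.sum_congr rfl fun m _ => ?_
    rw [map_smul, equiv_word, MonoidAlgebra.smul_single, smul_eq_mul, mul_one]
    rfl
  rw [h]
  refine Submodule.sum_mem _ fun m hm => ?_
  by_cases h0 : cf (FreeMonoid.toList m) f = 0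
  · rw [h0, zero_smul]; exact Submodule.zero_mem _
  · refine Submodule.smul_mem _ _ (Submodule.subset_span ⟨_, ?_, rfl⟩)
    rw [← h]; exact h0

theorem cf_eq_zero_of_mem_wtA {w : X → ℕ} {n : ℕ} {f : FreeAlgebra R X} (hf : f ∈ wtA R w n)
    {l : List X} (hl : (l.map w).sum ≠ n) : cf l f = 0 := by
  classical
  refine wtA_induction (p := fun f => cf l f = 0) ?_ ?_ ?_ ?_ hf
  · intro l' hl'
    rw [cf_word, if_neg]
    rintro rfl
    exact hl hl'
  · simp
  · intro a b ha hb; rw [map_add, ha, hb, add_zero]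
  · intro r a ha; rw [map_smul, ha, smul_zero]

theorem mem_wtA_iff {w : X → ℕ} {n : ℕ} {f : FreeAlgebra R X} :
    f ∈ wtA R w n ↔ ∀ l : List X, (l.map w).sum ≠ n → cf l f = 0 := by
  refine ⟨fun h l hl => cf_eq_zero_of_mem_wtA h hl, fun h => ?_⟩
  refine Submodule.span_le.2 ?_ (mem_span_word f)
  rintro _ ⟨l, hl, rfl⟩
  have : (l.map w).sum = n := by
    by_contra h'
    exact hl (h l h')
  rw [← this]
  exact word_mem_wtA w l

theorem asso_mem_wtA {w : X → ℕ} {n : ℕ} {l : FreeLieAlgebra R X} (h : l ∈ WS R w n) :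
    asso R X l ∈ wtA R w n := by
  refine WS_induction (p := fun l => asso R X l ∈ wtA R w n) ?_ ?_ ?_ ?_ h
  · clear h l
    intro l h
    induction h with
    | of i => rw [asso_of]; exact ι_mem_wtA w i
    | lie _ _ h1 h2 =>
      rw [LieHom.map_lie, LieRing.of_associative_ring_bracket]; exact lieA_mem_wtA h1 h2
  · rw [map_zero]; exact zero_mem _
  · intro a b ha hb; rw [map_add]; exact add_mem ha hb
  · intro r a ha; rw [map_smul]; exact Submodule.smul_mem _ _ ha



end weights

section weights2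

variable {R : Type*} [CommRing R]

theorem dA_mem_wtA {m n : ℕ} {a f : Alg R} (ha : a ∈ wtA R (fun _ => 1) m)
    (hf : f ∈ wtA R (fun _ => 1) n) : dA R a f ∈ wtA R (fun _ => 1) (m + n) := by
  refine wtA_induction (p := fun f => dA R a f ∈ wtA R (fun _ => 1) (m + n)) ?_ ?_ ?_ ?_ hf
  · clear hf f
    intro l hl
    subst hl
    induction l with
    | nil => rw [word_nil, dA_one]; exact zero_mem _
    | cons i l ih =>
      rw [word_cons, dA_mul]
      have e : m + ((i :: l).map fun _ => 1).sum = (m + 1) + (l.map fun _ => 1).sum := by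
        simp; ring
      rw [e]
      refine add_mem (mul_mem_wtA ?_ (word_mem_wtA _ l)) ?_
      · fin_cases i
        · show dA R a (X R) ∈ _
          rw [dA_X]; exact zero_mem _
        · show dA R a (Y R) ∈ _
          rw [dA_Y, add_comm]
          exact lieA_mem_wtA (ι_mem_wtA (fun _ => 1) 1) ha
      · have := mul_mem_wtA (ι_mem_wtA (R := R) (fun _ : Fin 2 => 1) i) ih
        have e2 : 1 + (m + (l.map fun _ => 1).sum) = m + 1 + (l.map fun _ : Fin 2 => 1).sum := by
          ring
        rwa [e2] at this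
  · rw [map_zero]; exact zero_mem _
  · intro a b ha hb; rw [map_add]; exact add_mem ha hb
  · intro r a ha; rw [map_smul]; exact Submodule.smul_mem _ _ ha

theorem ih_mem_wtA {m n : ℕ} {a b : Alg R} (ha : a ∈ wtA R (fun _ => 1) m)
    (hb : b ∈ wtA R (fun _ => 1) n) : ih R a b ∈ wtA R (fun _ => 1) (m + n) :=
  add_mem (sub_mem (dA_mem_wtA ha hb) (add_comm n m ▸ dA_mem_wtA hb ha)) (lieA_mem_wtA ha hb)


theorem lieA_mem_LieX {X : Type*} {a b : FreeAlgebra R X} (ha : a ∈ LieX R X)
    (hb : b ∈ LieX R X) : a * b - b * a ∈ LieX R X := by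
  rw [← LieRing.of_associative_ring_bracket]
  exact (LieX R X).lie_mem ha hb

theorem ι_mem_LieX {X : Type*} (i : X) : FreeAlgebra.ι R i ∈ LieX R X :=
  LieSubalgebra.subset_lieSpan ⟨i, rfl⟩

theorem dA_mem_LieX {a f : Alg R} (ha : a ∈ LieX R (Fin 2)) (hf : f ∈ LieX R (Fin 2)) :
    dA R a f ∈ LieX R (Fin 2) := by
  obtain ⟨l, rfl⟩ := (mem_LieX_iff f).1 hf
  clear hf
  induction l using fla_induction with
  | hof i =>
    rw [asso_of]
    fin_cases i
    · show dA R a (X R) ∈ _
      rw [dA_X]; exact zero_mem _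
    · show dA R a (Y R) ∈ _
      rw [dA_Y]; exact lieA_mem_LieX (ι_mem_LieX 1) ha
  | h0 => rw [map_zero, map_zero]; exact zero_mem _
  | hadd a b ha hb => rw [map_add, map_add]; exact add_mem ha hb
  | hsmul r a ha => rw [map_smul, map_smul]; exact (LieX R (Fin 2)).smul_mem r ha
  | hlie u v hu hv =>
    rw [LieHom.map_lie, LieRing.of_associative_ring_bracket, map_sub, dA_mul, dA_mul]
    have e : dA R a ((asso R (Fin 2)) u) * (asso R (Fin 2)) v
        + (asso R (Fin 2)) u * dA R a ((asso R (Fin 2)) v)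
        - (dA R a ((asso R (Fin 2)) v) * (asso R (Fin 2)) u
        + (asso R (Fin 2)) v * dA R a ((asso R (Fin 2)) u)) =
      (dA R a ((asso R (Fin 2)) u) * (asso R (Fin 2)) v
        - (asso R (Fin 2)) v * dA R a ((asso R (Fin 2)) u)) +
      ((asso R (Fin 2)) u * dA R a ((asso R (Fin 2)) v)
        - dA R a ((asso R (Fin 2)) v) * (asso R (Fin 2)) u) := by noncomm_ring
    rw [e]
    exact add_mem (lieA_mem_LieX hu ((mem_LieX_iff _).2 ⟨v, rfl⟩))
      (lieA_mem_LieX ((mem_LieX_iff _).2 ⟨u, rfl⟩) hv)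

theorem ih_mem_LieX {a b : Alg R} (ha : a ∈ LieX R (Fin 2)) (hb : b ∈ LieX R (Fin 2)) :
    ih R a b ∈ LieX R (Fin 2) :=
  add_mem (sub_mem (dA_mem_LieX ha hb) (dA_mem_LieX hb ha)) (lieA_mem_LieX ha hb)

end weights2

end Crest.Agent.R010.C

end
end

-- ▼ part R010/CB2
section

/-! Row 10, module (cB), part 2 (helper630): compatibility of the frozen Ihara bracket with the
bracket on the free associative algebra; depth one coefficients. -/

set_option autoImplicit false

noncomputable section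

namespace Crest.Agent.R010.C

open Crest.NumberTheoryR.GT Crest.Agent.R010 Crest.Agent.R010.Witt

attribute [local instance 100] LieRing.ofAssociativeRing

section iharaDer

/-- first component -/
def dualFst (v : DualGT) : GTLie := ((LieAlgebra.ofProd 0).symm v).1

theorem dualFst_add (v w : DualGT) : dualFst (v + w) = dualFst v + dualFst w := rfl

theorem dualFst_smul (r : ℚ) (v : DualGT) : dualFst (r • v) = r • dualFst v := rfl

theorem dualFst_lie (v w : DualGT) : dualFst ⁅v, w⁆ = ⁅dualFst v, dualFst w⁆ := rfl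

theorem dualSnd_lie (v w : DualGT) :
    dualSnd ⁅v, w⁆ = ⁅dualFst v, dualSnd w⁆ - ⁅dualFst w, dualSnd v⁆ := by
  show ((0 : LieModule.Cohomology.twoCocycle ℚ GTLie GTLie) : GTLie →ₗ[ℚ] GTLie →ₗ[ℚ] GTLie)
    (dualFst v) (dualFst w) + ⁅dualFst v, dualSnd w⁆ - ⁅dualFst w, dualSnd v⁆ = _
  simp

theorem gtSubst_x {M : Type*} [LieRing M] [LieAlgebra ℚ M] (a b : M) : gtSubst a b gx = a := by
  rw [gtSubst, gx, FreeLieAlgebra.lift_of_apply, if_pos rfl]

theorem gtSubst_y {M : Type*} [LieRing M] [LieAlgebra ℚ M] (a b : M) : gtSubst a b gy = b := by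
  rw [gtSubst, gy, FreeLieAlgebra.lift_of_apply, if_neg (by decide)]

/-- the homomorphism defining `iharaDer` -/
def dHom (ψ : GTLie) : GTLie →ₗ⁅ℚ⁆ DualGT := gtSubst (dualMk gx 0) (dualMk gy ⁅gy, ψ⁆)

theorem dHom_fst (ψ f : GTLie) : dualFst (dHom ψ f) = f := by
  induction f using fla_induction with
  | hof i =>
    fin_cases i
    · show dualFst (dHom ψ gx) = gx
      rw [dHom, gtSubst_x]; rfl
    · show dualFst (dHom ψ gy) = gy
      rw [dHom, gtSubst_y]; rfl
  | h0 => rw [map_zero]; rfl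
  | hadd a b ha hb => rw [map_add, dualFst_add, ha, hb]
  | hsmul r a ha => rw [map_smul, dualFst_smul, ha]
  | hlie a b ha hb => rw [LieHom.map_lie, dualFst_lie, ha, hb]

theorem iharaDer_eq (ψ f : GTLie) : iharaDer ψ f = dualSnd (dHom ψ f) := rfl

theorem iharaDer_x (ψ : GTLie) : iharaDer ψ gx = 0 := by
  rw [iharaDer_eq, dHom, gtSubst_x]; rfl

theorem iharaDer_y (ψ : GTLie) : iharaDer ψ gy = ⁅gy, ψ⁆ := by
  rw [iharaDer_eq, dHom, gtSubst_y]; rfl

theorem iharaDer_lie (ψ a b : GTLie) :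
    iharaDer ψ ⁅a, b⁆ = ⁅iharaDer ψ a, b⁆ + ⁅a, iharaDer ψ b⁆ := by
  rw [iharaDer_eq, LieHom.map_lie, dualSnd_lie, dHom_fst, dHom_fst, ← iharaDer_eq, ← iharaDer_eq,
    ← lie_skew b, sub_neg_eq_add, add_comm]

theorem iota_iharaDer (ψ f : GTLie) : iota (iharaDer ψ f) = dA ℚ (iota ψ) (iota f) := by
  induction f using fla_induction with
  | hof i =>
    fin_cases i
    · show iota (iharaDer ψ gx) = dA ℚ (iota ψ) (asso ℚ (Fin 2) gx)
      rw [iharaDer_x, map_zero, gx, asso_of]
      exact (dA_X _).symm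
    · show iota (iharaDer ψ gy) = dA ℚ (iota ψ) (asso ℚ (Fin 2) gy)
      rw [iharaDer_y, LieHom.map_lie, LieRing.of_associative_ring_bracket, gy, asso_of]
      show asso ℚ (Fin 2) (FreeLieAlgebra.of ℚ 1) * iota ψ -
        iota ψ * asso ℚ (Fin 2) (FreeLieAlgebra.of ℚ 1) = _
      rw [asso_of]
      exact (dA_Y _).symm
  | h0 => simp
  | hadd a b ha hb => rw [map_add, map_add, ha, hb, map_add, map_add]
  | hsmul r a ha => rw [map_smul, map_smul, ha, map_smul, map_smul]
  | hlie a b ha hb =>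
    rw [iharaDer_lie, map_add, LieHom.map_lie, LieHom.map_lie, LieHom.map_lie,
      LieRing.of_associative_ring_bracket, LieRing.of_associative_ring_bracket,
      LieRing.of_associative_ring_bracket, map_sub, dA_mul, dA_mul, ha, hb]
    noncomm_ring

theorem iota_ihara (p q : GTLie) : iota (iharaBracket p q) = ih ℚ (iota p) (iota q) := by
  rw [iharaBracket, map_add, map_sub, iota_iharaDer, iota_iharaDer, LieHom.map_lie,
    LieRing.of_associative_ring_bracket]
  rfl

end iharaDer

section depth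

variable {R : Type*} [CommRing R]

variable (R) in
/-- span of the words with at least `n` letters `y` -/
def Dep (n : ℕ) : Submodule R (Alg R) :=
  Submodule.span R {f | ∃ l : List (Fin 2), n ≤ l.count 1 ∧ f = word R l}

theorem word_mem_Dep {l : List (Fin 2)} {n : ℕ} (h : n ≤ l.count 1) : word R l ∈ Dep R n :=
  Submodule.subset_span ⟨l, h, rfl⟩

theorem Dep_induction {n : ℕ} {p : Alg R → Prop}
    (hw : ∀ l : List (Fin 2), n ≤ l.count 1 → p (word R l)) (h0 : p 0)
    (ha : ∀ a b, p a → p b → p (a + b)) (hs : ∀ (r : R) a, p a → p (r • a))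
    {f : Alg R} (h : f ∈ Dep R n) : p f := by
  refine Submodule.span_induction (p := fun f _ => p f) ?_ h0 (fun a b _ _ => ha a b)
    (fun r a _ => hs r a) h
  rintro _ ⟨l, hl, rfl⟩
  exact hw l hl

theorem Dep_anti {m n : ℕ} (h : m ≤ n) : Dep R n ≤ Dep R m := by
  intro f hf
  refine Dep_induction (p := fun f => f ∈ Dep R m) (fun l hl => word_mem_Dep (h.trans hl))
    (zero_mem _) (fun a b => add_mem) (fun r a => Submodule.smul_mem _ _) hf

theorem mul_mem_Dep {m n : ℕ} {f g : Alg R} (hf : f ∈ Dep R m) (hg : g ∈ Dep R n) :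
    f * g ∈ Dep R (m + n) := by
  refine Dep_induction (p := fun f => f * g ∈ Dep R (m + n)) ?_ ?_ ?_ ?_ hf
  · intro l hl
    refine Dep_induction (p := fun g => word R l * g ∈ Dep R (m + n)) ?_ ?_ ?_ ?_ hg
    · intro l' hl'
      rw [← word_append]
      exact word_mem_Dep (by rw [List.count_append]; omega)
    · simp
    · intro a b ha hb; rw [mul_add]; exact add_mem ha hb
    · intro r a ha; rw [mul_smul_comm]; exact Submodule.smul_mem _ _ ha
  · simp
  · intro a b ha hb; rw [add_mul]; exact add_mem ha hb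
  · intro r a ha; rw [smul_mul_assoc]; exact Submodule.smul_mem _ _ ha

theorem X_mem_Dep : X R ∈ Dep R 0 := by
  have := word_mem_Dep (R := R) (l := [0]) (n := 0) (Nat.zero_le _)
  rw [word_cons, word_nil, mul_one] at this
  exact this

theorem Y_mem_Dep : Y R ∈ Dep R 1 := by
  have := word_mem_Dep (R := R) (l := [1]) (n := 1) (by simp)
  rw [word_cons, word_nil, mul_one] at this
  exact this

theorem dA_mem_Dep {a f : Alg R} {n : ℕ} (ha : a ∈ Dep R 1) (hf : f ∈ Dep R n) :
    dA R a f ∈ Dep R (n + 1) := by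
  have key : ∀ l : List (Fin 2), dA R a (word R l) ∈ Dep R (l.count 1 + 1) := by
    intro l
    induction l with
    | nil => rw [word_nil, dA_one]; exact zero_mem _
    | cons i l ih =>
      rw [word_cons, dA_mul]
      fin_cases i
      · show dA R a (X R) * word R l + X R * dA R a (word R l) ∈ _
        rw [dA_X, zero_mul, zero_add]
        have h := mul_mem_Dep X_mem_Dep ih
        have e : 0 + (l.count 1 + 1) = ((0 : Fin 2) :: l).count 1 + 1 := by simp
        rw [e] at h
        exact h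
      · show dA R a (Y R) * word R l + Y R * dA R a (word R l) ∈ _
        have e : ((1 : Fin 2) :: l).count 1 + 1 = 2 + l.count 1 := by simp; ring
        show _ ∈ Dep R (((1 : Fin 2) :: l).count 1 + 1)
        rw [e, dA_Y]
        have h1 : Y R * a - a * Y R ∈ Dep R (1 + 1) :=
          Submodule.sub_mem _ (mul_mem_Dep Y_mem_Dep ha) (mul_mem_Dep ha Y_mem_Dep)
        rw [one_add_one_eq_two] at h1
        have h2 : (Y R * a - a * Y R) * word R l ∈ Dep R (2 + l.count 1) :=
          mul_mem_Dep h1 (word_mem_Dep le_rfl)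
        have h3 := mul_mem_Dep Y_mem_Dep ih
        have e2 : 1 + (l.count 1 + 1) = 2 + l.count 1 := by ring
        rw [e2] at h3
        exact Submodule.add_mem _ h2 h3
  refine Dep_induction (p := fun f => dA R a f ∈ Dep R (n + 1)) ?_ ?_ ?_ ?_ hf
  · intro l hl
    exact Dep_anti (by omega) (key l)
  · rw [map_zero]; exact zero_mem _
  · intro a b ha hb; rw [map_add]; exact add_mem ha hb
  · intro r a ha; rw [map_smul]; exact Submodule.smul_mem _ _ ha

theorem ih_mem_Dep {a b : Alg R} (ha : a ∈ Dep R 1) (hb : b ∈ Dep R 1) : ih R a b ∈ Dep R 2 := by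
  have h1 : dA R a b - dA R b a ∈ Dep R (1 + 1) :=
    Submodule.sub_mem _ (dA_mem_Dep ha hb) (dA_mem_Dep hb ha)
  have h2 : a * b - b * a ∈ Dep R (1 + 1) :=
    Submodule.sub_mem _ (mul_mem_Dep ha hb) (mul_mem_Dep hb ha)
  rw [one_add_one_eq_two] at h1 h2
  exact Submodule.add_mem _ h1 h2

theorem cf_dep1_of_Dep {f : Alg R} (hf : f ∈ Dep R 2) (n : ℕ) : cf (dep1 n) f = 0 := by
  classical
  refine Dep_induction (p := fun f => cf (dep1 n) f = 0) ?_ ?_ ?_ ?_ hf
  · intro l hl
    rw [cf_word, if_neg]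
    rintro rfl
    rw [dep1, List.count_append, List.count_replicate] at hl
    simp at hl
  · simp
  · intro a b ha hb; rw [map_add, ha, hb, add_zero]
  · intro r a ha; rw [map_smul, ha, smul_zero]

/-- `x ↦ t, y ↦ 0` -/
def evT (R : Type*) [CommRing R] : Alg R →ₐ[R] Polynomial R :=
  FreeAlgebra.lift R ![Polynomial.X, 0]

theorem evT_word (l : List (Fin 2)) :
    evT R (word R l) = if l.count 1 = 0 then Polynomial.X ^ l.length else 0 := by
  induction l with
  | nil => simp [word_nil]
  | cons i l ih =>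
    rw [word_cons, map_mul, ih]
    fin_cases i
    · show evT R (FreeAlgebra.ι R 0) * _ = _
      rw [evT, FreeAlgebra.lift_ι_apply]
      simp only [Matrix.cons_val_zero]
      by_cases h : l.count 1 = 0
      · rw [if_pos h, if_pos (by simpa using h)]
        simp [pow_succ']
      · rw [if_neg h, if_neg (by simpa using h)]
        simp
    · show evT R (FreeAlgebra.ι R 1) * _ = _
      rw [evT, FreeAlgebra.lift_ι_apply]
      simp

theorem evT_coeff (f : Alg R) (n : ℕ) :
    (evT R f).coeff n = cf (List.replicate n 0) f := by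
  classical
  refine Submodule.span_induction (p := fun f _ => (evT R f).coeff n = cf (List.replicate n 0) f)
    ?_ ?_ ?_ ?_ (mem_span_word f)
  · rintro _ ⟨l, _, rfl⟩
    rw [evT_word, cf_word]
    by_cases h : List.replicate n 0 = l
    · subst h
      simp [List.count_replicate]
    · rw [if_neg h]
      split_ifs with h2
      · rw [Polynomial.coeff_X_pow, if_neg]
        rintro rfl
        apply h
        symm
        rw [List.eq_replicate_iff]
        refine ⟨rfl, fun b hb => ?_⟩
        rw [List.count_eq_zero] at h2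
        have : b ≠ 1 := fun e => h2 (e ▸ hb)
        omega
      · simp
  · simp
  · intro a b _ _ ha hb; rw [map_add, Polynomial.coeff_add, ha, hb, map_add]
  · intro r a _ ha; rw [map_smul, Polynomial.coeff_smul, ha, map_smul]

theorem evT_LieX {f : Alg R} (hf : f ∈ LieX R (Fin 2)) {n : ℕ} (hn : 2 ≤ n) :
    (evT R f).coeff n = 0 := by
  obtain ⟨l, rfl⟩ := (mem_LieX_iff f).1 hf
  clear hf
  induction l using fla_induction with
  | hof i =>
    rw [asso_of, evT, FreeAlgebra.lift_ι_apply]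
    fin_cases i
    · simp only [Fin.zero_eta, Matrix.cons_val_zero]
      rw [Polynomial.coeff_X, if_neg (by omega)]
    · simp
  | h0 => simp
  | hadd a b ha hb => rw [map_add, map_add, Polynomial.coeff_add, ha, hb, add_zero]
  | hsmul r a ha => rw [map_smul, map_smul, Polynomial.coeff_smul, ha, smul_zero]
  | hlie a b _ _ =>
    rw [LieHom.map_lie, LieRing.of_associative_ring_bracket, map_sub, map_mul, map_mul, mul_comm,
      sub_self, Polynomial.coeff_zero]

theorem LieX_mem_Dep {f : Alg R} (hf : f ∈ LieX R (Fin 2)) {n : ℕ} (hn : 2 ≤ n)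
    (hw : f ∈ wtA R (fun _ => 1) n) : f ∈ Dep R 1 := by
  refine Submodule.span_le.2 ?_ (mem_span_word f)
  rintro _ ⟨l, hl, rfl⟩
  apply word_mem_Dep
  by_contra h
  apply hl
  have h2 : l.count 1 = 0 := by omega
  have h3 : l = List.replicate l.length 0 := by
    rw [List.eq_replicate_iff]
    refine ⟨rfl, fun b hb => ?_⟩
    rw [List.count_eq_zero] at h2
    have : b ≠ 1 := fun e => h2 (e ▸ hb)
    omega
  by_cases h4 : l.length = n
  · rw [h3, h4, ← evT_coeff]
    exact evT_LieX hf hn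
  · exact cf_eq_zero_of_mem_wtA hw (by simpa using h4)

/-- depth one coefficients of Ihara brackets vanish -/
theorem cf_dep1_ih {a b : Alg R} {m n : ℕ} (ha : a ∈ LieX R (Fin 2)) (hb : b ∈ LieX R (Fin 2))
    (hm : 2 ≤ m) (hn : 2 ≤ n) (hwa : a ∈ wtA R (fun _ => 1) m) (hwb : b ∈ wtA R (fun _ => 1) n)
    (k : ℕ) : cf (dep1 k) (ih R a b) = 0 :=
  cf_dep1_of_Dep (ih_mem_Dep (LieX_mem_Dep ha hm hwa) (LieX_mem_Dep hb hn hwb)) k

end depth

end Crest.Agent.R010.C

end
end

-- ▼ part R010/GlueC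

/-! Row 10, module (cC) GLUE, part C (helper379): the operator calculus, the lattices `Λ N`. -/

set_option autoImplicit false

noncomputable section

namespace Crest.Agent.R010.G

open Crest.NumberTheoryR.GT Crest.Agent.R010
open Crest.Agent.R010.C (LieX wtA bc bc_ι bc_smul Alg X Y dA ih F2 cc adc FF Zc evalZ J0 J1 Fil
  FibrePent UpperBound opS opS_apply opS_one opS_comm opS_add opS_smul bc_opS bc_ih bc_dA
  iota_ihara cf_dep1_ih ih_mem_wtA ih_mem_LieX op_symbol evalZ_ι evalZ_mem_Fil evalZ_inj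
  Fil_antitone Fil_mul_mem Fil_zero Zc_mem_Fil)
open Crest.Agent.R010.Witt (asso asso_of WS BM WS_induction fla_induction exists_hom_sum witt_div
  witt_injective S1_holds weightSubspace_eq iota_eq)

attribute [local instance 100] LieRing.ofAssociativeRing

section operators

/-- the algebra homomorphism `e_k ↦ s_k` (as operators) -/
def Eop (R : Type*) [CommRing R] (s : ℕ → Alg R) : FreeAlgebra R ℕ →ₐ[R] Module.End R (Alg R) :=
  FreeAlgebra.lift R (fun k => opS R (s k))

variable {R : Type*} [CommRing R] (s : ℕ → Alg R)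

theorem Eop_ι (k : ℕ) : Eop R s (FreeAlgebra.ι R k) = opS R (s k) :=
  FreeAlgebra.lift_ι_apply _ _

/-- value at `1` -/
def Pv (R : Type*) [CommRing R] (s : ℕ → Alg R) : FreeAlgebra R ℕ →ₗ[R] Alg R where
  toFun q := Eop R s q 1
  map_add' a b := by simp
  map_smul' r a := by simp

theorem Pv_apply (q : FreeAlgebra R ℕ) : Pv R s q = Eop R s q 1 := rfl

theorem Pv_one : Pv R s 1 = 1 := by simp [Pv_apply]

theorem Pv_ι_mul (k : ℕ) (q : FreeAlgebra R ℕ) :
    Pv R s (FreeAlgebra.ι R k * q) = s k * Pv R s q + dA R (s k) (Pv R s q) := by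
  rw [Pv_apply, map_mul, Module.End.mul_apply, Eop_ι, opS_apply]; rfl

theorem Pv_ι (k : ℕ) : Pv R s (FreeAlgebra.ι R k) = s k := by
  rw [Pv_apply, Eop_ι, opS_one]

/-- the Lie version -/
def Ph (R : Type*) [CommRing R] (s : ℕ → Alg R) : FreeLieAlgebra R ℕ →ₗ[R] Alg R :=
  (Pv R s).comp (asso R ℕ : FreeLieAlgebra R ℕ →ₗ[R] FreeAlgebra R ℕ)

theorem Ph_apply (u : FreeLieAlgebra R ℕ) : Ph R s u = Pv R s (asso R ℕ u) := rfl

theorem Ph_of (k : ℕ) : Ph R s (FreeLieAlgebra.of R k) = s k := by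
  rw [Ph_apply, asso_of, Pv_ι]

theorem Eop_asso (u : FreeLieAlgebra R ℕ) : Eop R s (asso R ℕ u) = opS R (Ph R s u) := by
  have key : ∃ a, Eop R s (asso R ℕ u) = opS R a := by
    refine fla_induction (p := fun u => ∃ a, Eop R s (asso R ℕ u) = opS R a) ?_ ?_ ?_ ?_ ?_ u
    · intro k; exact ⟨s k, by rw [asso_of, Eop_ι]⟩
    · refine ⟨0, ?_⟩
      rw [map_zero, map_zero]
      have := opS_smul (0 : R) (0 : Alg R)
      rw [zero_smul, zero_smul] at this
      exact this.symm
    · rintro a b ⟨a', h1⟩ ⟨b', h2⟩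
      exact ⟨a' + b', by rw [map_add, map_add, h1, h2, opS_add]⟩
    · rintro r a ⟨a', h1⟩
      exact ⟨r • a', by rw [map_smul, map_smul, h1, opS_smul]⟩
    · rintro a b ⟨a', h1⟩ ⟨b', h2⟩
      refine ⟨ih R a' b', ?_⟩
      rw [LieHom.map_lie, LieRing.of_associative_ring_bracket, map_sub, map_mul, map_mul, h1, h2,
        opS_comm]
  obtain ⟨a, ha⟩ := key
  rw [Ph_apply, Pv_apply, ha, opS_one]

theorem Ph_lie (u v : FreeLieAlgebra R ℕ) : Ph R s ⁅u, v⁆ = ih R (Ph R s u) (Ph R s v) := by
  have h : Eop R s (asso R ℕ ⁅u, v⁆) = opS R (ih R (Ph R s u) (Ph R s v)) := by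
    rw [LieHom.map_lie, LieRing.of_associative_ring_bracket, map_sub, map_mul, map_mul, Eop_asso,
      Eop_asso, opS_comm]
  rw [Ph_apply, Pv_apply, h, opS_one]

/-- base change -/
theorem bc_Pv {S : Type*} [CommRing S] (f : R →+* S) (q : FreeAlgebra R ℕ) :
    bc f (Fin 2) (Pv R s q) = Pv S (fun k => bc f (Fin 2) (s k)) (bc f ℕ q) := by
  refine sw_induction (C := fun q => bc f (Fin 2) (Pv R s q) =
    Pv S (fun k => bc f (Fin 2) (s k)) (bc f ℕ q)) ?_ ?_ ?_ ?_ (mem_sw_true q)
  · intro l _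
    rw [bc_wd]
    induction l with
    | nil => rw [wd_nil, wd_nil, Pv_one, Pv_one, map_one]
    | cons k l ih => rw [wd_cons, wd_cons, Pv_ι_mul, Pv_ι_mul, map_add, map_mul, bc_dA, ih]
  · simp
  · intro a b ha hb; rw [map_add, map_add, map_add, map_add, ha, hb]
  · intro r a ha; rw [map_smul, bc_smul, bc_smul, map_smul, ha]

end operators

section mod2

/-- word rule mod 2: for words with good letters -/
theorem Pv_wd_mod (s : ℕ → Alg F2) (l : List ℕ) (hl : ∀ k ∈ l, s k - Zc k ∈ Fil 2) :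
    Pv F2 s (wd F2 l) - evalZ (wd F2 l) ∈ Fil (l.length + 1) := by
  induction l with
  | nil => rw [wd_nil, Pv_one, map_one, sub_self]; exact Submodule.zero_mem _
  | cons k l ih =>
    have h1 := ih (fun j hj => hl j (List.mem_cons_of_mem k hj))
    have h2 : evalZ (wd F2 l) ∈ Fil l.length :=
      evalZ_mem_Fil (wd_mem_sw (by simp))
    have h3 : Pv F2 s (wd F2 l) ∈ Fil l.length := by
      have := Submodule.add_mem _ (Fil_antitone (Nat.le_succ _) h1) h2
      rwa [sub_add_cancel] at this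
    have h4 := op_symbol (hl k List.mem_cons_self) h3
    rw [wd_cons, Pv_ι_mul, map_mul, evalZ_ι]
    have h5 : Zc k * (Pv F2 s (wd F2 l) - evalZ (wd F2 l)) ∈ Fil (1 + (l.length + 1)) :=
      Fil_mul_mem (Zc_mem_Fil k) h1
    have e : s k * Pv F2 s (wd F2 l) + dA F2 (s k) (Pv F2 s (wd F2 l)) - Zc k * evalZ (wd F2 l) =
      (s k * Pv F2 s (wd F2 l) + dA F2 (s k) (Pv F2 s (wd F2 l)) - Zc k * Pv F2 s (wd F2 l)) +
      Zc k * (Pv F2 s (wd F2 l) - evalZ (wd F2 l)) := by noncomm_ring
    rw [e, List.length_cons]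
    rw [show 1 + (l.length + 1) = l.length + 2 by ring] at h5
    exact Submodule.add_mem _ h4 h5

theorem Pv_wd_mem (s : ℕ → Alg F2) (l : List ℕ) (hl : ∀ k ∈ l, s k - Zc k ∈ Fil 2) :
    Pv F2 s (wd F2 l) ∈ Fil l.length := by
  have h2 : evalZ (wd F2 l) ∈ Fil l.length := evalZ_mem_Fil (wd_mem_sw (by simp))
  have := Submodule.add_mem _ (Fil_antitone (Nat.le_succ _) (Pv_wd_mod s l hl)) h2
  rwa [sub_add_cancel] at this

/-- combination of words of length `n` -/
theorem Pv_mod (s : ℕ → Alg F2) {n : ℕ} {P : FreeAlgebra F2 ℕ}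
    (hP : P ∈ sw F2 (fun l => l.length = n ∧ ∀ k ∈ l, s k - Zc k ∈ Fil 2)) :
    Pv F2 s P - evalZ P ∈ Fil (n + 1) := by
  refine sw_induction (C := fun P => Pv F2 s P - evalZ P ∈ Fil (n + 1)) ?_ ?_ ?_ ?_ hP
  · rintro l ⟨rfl, hl⟩
    exact Pv_wd_mod s l hl
  · simp
  · intro a b ha hb
    have e : Pv F2 s (a + b) - evalZ (a + b) = (Pv F2 s a - evalZ a) + (Pv F2 s b - evalZ b) := by
      rw [map_add, map_add]; abel
    rw [e]; exact Submodule.add_mem _ ha hb
  · intro r a ha
    have e : Pv F2 s (r • a) - evalZ (r • a) = r • (Pv F2 s a - evalZ a) := by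
      rw [map_smul, map_smul, smul_sub]
    rw [e]; exact Submodule.smul_mem _ _ ha

theorem Pv_mem (s : ℕ → Alg F2) {n : ℕ} {P : FreeAlgebra F2 ℕ}
    (hP : P ∈ sw F2 (fun l => n ≤ l.length ∧ ∀ k ∈ l, s k - Zc k ∈ Fil 2)) :
    Pv F2 s P ∈ Fil n := by
  refine sw_induction (C := fun P => Pv F2 s P ∈ Fil n) ?_ ?_ ?_ ?_ hP
  · rintro l ⟨hn, hl⟩
    exact Fil_antitone hn (Pv_wd_mem s l hl)
  · simp
  · intro a b ha hb
    rw [map_add]; exact Submodule.add_mem _ ha hb
  · intro r a ha
    rw [map_smul]; exact Submodule.smul_mem _ _ ha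

end mod2

section lattice

attribute [-instance] AddCommGroup.toIntModule ZSMul.toSMul

/-- the lattice of integral elements of weight `N` of the Grothendieck–Teichmüller Lie algebra -/
def Lam (N : ℕ) : Submodule ℤ (Alg ℤ) where
  carrier := {a | ∃ p ∈ grtW N, iota p = bc fQ (Fin 2) a}
  zero_mem' := ⟨0, Submodule.zero_mem _, by rw [map_zero, map_zero]⟩
  add_mem' := by
    rintro a b ⟨p, hp, h1⟩ ⟨q, hq, h2⟩
    exact ⟨p + q, Submodule.add_mem _ hp hq, by rw [map_add, map_add, h1, h2]⟩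
  smul_mem' := by
    rintro c a ⟨p, hp, h1⟩
    refine ⟨(c : ℚ) • p, Submodule.smul_mem _ _ hp, ?_⟩
    refine Eq.trans ?_ (bc_smul fQ (Fin 2) c a).symm
    rw [map_smul, h1]; rfl


theorem Lam_wtA {N : ℕ} {a : Alg ℤ} (h : a ∈ Lam N) : a ∈ wtA ℤ (fun _ : Fin 2 => 1) N := by
  obtain ⟨p, hp, h1⟩ := h
  have h2 : p ∈ WS ℚ (fun _ : Fin 2 => 1) N := by
    rw [← weightSubspace_eq]; exact hp.2
  have h3 : bc fQ (Fin 2) a ∈ wtA ℚ (fun _ : Fin 2 => 1) N := by
    rw [← h1, iota_eq]; exact asso_mem_wtA h2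
  exact mem_sw_of_bc fQ fQ_injective h3

theorem Lam_LieX {N : ℕ} {a : Alg ℤ} (h : a ∈ Lam N) : a ∈ LieX ℤ (Fin 2) := by
  obtain ⟨p, hp, h1⟩ := h
  apply mem_LieX_of_bc
  rw [← h1, iota_eq]
  exact asso_mem_LieX p

theorem Lam_div {N : ℕ} {c : ℤ} (hc : c ≠ 0) {a : Alg ℤ} (h : c • a ∈ Lam N) : a ∈ Lam N := by
  obtain ⟨p, hp, h1⟩ := h
  refine ⟨((c : ℚ)⁻¹) • p, Submodule.smul_mem _ _ hp, ?_⟩
  rw [bc_smul] at h1
  rw [map_smul, h1, smul_smul]
  have : ((c : ℚ)⁻¹) * fQ c = 1 := by
    have h3 : (fQ c : ℚ) = (c : ℚ) := by simp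
    rw [h3, inv_mul_cancel₀ (by exact_mod_cast hc)]
  rw [this, one_smul]

theorem exists_Lam {N : ℕ} {p : GTLie} (hp : p ∈ grtW N) :
    ∃ (c : ℤ) (a : Alg ℤ), c ≠ 0 ∧ a ∈ Lam N ∧ bc fQ (Fin 2) a = fQ c • iota p := by
  obtain ⟨c, a, hc, h1⟩ := exists_clear (iota p)
  refine ⟨c, a, hc, ⟨fQ c • p, Submodule.smul_mem _ _ hp, ?_⟩, h1⟩
  rw [h1, map_smul]

theorem ih_mem_Lam (hEC : EC) {M N : ℕ} {a b : Alg ℤ} (ha : a ∈ Lam M) (hb : b ∈ Lam N) :
    ih ℤ a b ∈ Lam (M + N) := by
  obtain ⟨p, hp, h1⟩ := ha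
  obtain ⟨q, hq, h2⟩ := hb
  refine ⟨iharaBracket p q, ⟨hEC p hp.1 q hq.1, iharaBracket_mem_weight hp.2 hq.2⟩, ?_⟩
  rw [iota_ihara, bc_ih, h1, h2]

theorem Lam_fibre {N : ℕ} (hN : 3 ≤ N) {a : Alg ℤ} (h : a ∈ Lam N) :
    Crest.Agent.R010.U.FibrePent2 F2 (bc f2 (Fin 2) a) := by
  obtain ⟨p, hp, h1⟩ := h
  have h2 : pentagonDefect p = 0 := hp.1.2
  exact Crest.Agent.R010.U.fibrePent2_of F2 p h2 (n := N) (by omega) hp.2 a h1.symm

/-- The upper bound in gauge 2 (`XU.upperBound2`). -/
abbrev UB2 : Prop := Crest.Agent.R010.CConv.UpperBoundFor (Crest.Agent.R010.U.FibrePent2 F2)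

/-- the words of weight `N` -/
theorem Lam_fg (N : ℕ) : (Lam N).FG := by
  classical
  have h1 : Lam N ≤ wtA ℤ (fun _ : Fin 2 => 1) N := fun a ha => Lam_wtA ha
  have h2 : (wtA ℤ (fun _ : Fin 2 => 1) N : Submodule ℤ (Alg ℤ)).FG := by
    refine ⟨(Finset.univ : Finset (Fin N → Fin 2)).image (fun v => wd ℤ (List.ofFn v)), ?_⟩
    rw [wtA]
    congr 1
    ext a
    simp only [Finset.coe_image, Finset.coe_univ, Set.image_univ, Set.mem_range, Set.mem_ofPred_eq]
    constructor
    · rintro ⟨v, rfl⟩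
      exact ⟨List.ofFn v, by rw [List.map_const', List.sum_replicate, List.length_ofFn]; simp, rfl⟩
    · rintro ⟨l, hl, rfl⟩
      have hl' : l.length = N := by simpa using hl
      subst hl'
      exact ⟨l.get, by rw [List.ofFn_get]; rfl⟩
  have : IsNoetherian ℤ (wtA ℤ (fun _ : Fin 2 => 1) N : Submodule ℤ (Alg ℤ)) :=
    isNoetherian_of_fg_of_noetherian _ h2
  have h3 := IsNoetherian.noetherian (Submodule.comap (wtA ℤ (fun _ : Fin 2 => 1) N).subtype (Lam N))
  have h4 := h3.map (wtA ℤ (fun _ : Fin 2 => 1) N).subtype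
  have h5 : Submodule.map (wtA ℤ (fun _ : Fin 2 => 1) N).subtype
      (Submodule.comap (wtA ℤ (fun _ : Fin 2 => 1) N).subtype (Lam N)) = Lam N := by
    refine (Submodule.map_comap_subtype _ _).trans (inf_eq_right.2 h1)
  rwa [h5] at h4

theorem Ph_mem (hEC : EC) {s : ℕ → Alg ℤ} (hs : ∀ k, s k ∈ Lam (2 * k + 3)) {N : ℕ}
    {u : FreeLieAlgebra ℤ ℕ} (hu : u ∈ WS ℤ (fun k : ℕ => 2 * k + 3) N) : Ph ℤ s u ∈ Lam N := by
  refine WS_induction (p := fun u => Ph ℤ s u ∈ Lam N) ?_ ?_ ?_ ?_ hu
  · clear hu u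
    intro a ha
    induction ha with
    | of i => rw [Ph_of]; exact hs i
    | lie _ _ h1 h2 => rw [Ph_lie]; exact ih_mem_Lam hEC h1 h2
  · rw [map_zero]; exact Submodule.zero_mem _
  · intro a b ha hb; rw [map_add]; exact Submodule.add_mem _ ha hb
  · intro r a ha; rw [map_smul]; exact Submodule.smul_mem _ _ ha

end lattice

end Crest.Agent.R010.G

end
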