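import Mathlib

-- ▼ part R010/KZa
section

/-! Row 10, module (E), analysis part 1 (helper819): the regular factor of a local solution of the
KZ-type equation `dW/dv = (q/v + t/(v-1) + y u/(u v - 1)) W` near `v = 0`. -/

set_option autoImplicit false

open Filter Topology NormedSpace

namespace Crest.Agent.R010.KZ

section Res
variable {A : Type*} [NormedRing A] [NormedAlgebra ℝ A]

local instance instIST : IsScalarTower ℝ (A →L[ℝ] A) (A →L[ℝ] A) :=
  ⟨fun a S T => by ext z; rfl⟩

local instance instSCC : SMulCommClass ℝ (A →L[ℝ] A) (A →L[ℝ] A) :=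
  ⟨fun a S T => by ext z; exact (map_smul S a (T z)).symm⟩

/-- `ad q` as a continuous linear map. -/
noncomputable def adL (q : A) : A →L[ℝ] A :=
  ContinuousLinearMap.mul ℝ A q - (ContinuousLinearMap.mul ℝ A).flip q

@[simp] theorem adL_apply (q z : A) : adL q z = q * z - z * q := by simp [adL]

theorem mulL_pow (q : A) (n : ℕ) (z : A) :
    ((ContinuousLinearMap.mul ℝ A q) ^ n) z = q ^ n * z := by
  induction n generalizing z with
  | zero => simp
  | succ n ih => rw [pow_succ, mul_apply_eq_comp, ih, pow_succ]; simp [mul_assoc]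

theorem mulR_pow (q : A) (n : ℕ) (z : A) :
    (((ContinuousLinearMap.mul ℝ A).flip q) ^ n) z = z * q ^ n := by
  induction n generalizing z with
  | zero => simp
  | succ n ih => rw [pow_succ, mul_apply_eq_comp, ih, pow_succ']; simp [mul_assoc]

theorem adL_nilpotent {q : A} (hq : IsNilpotent q) : IsNilpotent (adL q) := by
  obtain ⟨n, hn⟩ := hq
  refine Commute.isNilpotent_sub ?_ ⟨n, ?_⟩ ⟨n, ?_⟩
  · ext z; simp [mul_assoc]
  · ext z; rw [mulL_pow, hn]; simp
  · ext z; rw [mulR_pow, hn]; simp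

/-- the resolvent `(n - ad q)⁻¹`. -/
noncomputable def res (q : A) (n : ℕ) : A →L[ℝ] A := Ring.inverse ((n : ℝ) • 1 - adL q)

/-- the explicit Neumann sum -/
noncomputable def resK (q : A) (K n : ℕ) : A →L[ℝ] A :=
  ∑ k ∈ Finset.range K, ((n : ℝ)⁻¹ ^ (k + 1)) • (adL q) ^ k

theorem resK_spec {q : A} {K : ℕ} (hK : (adL q) ^ K = 0) {n : ℕ} (hn : n ≠ 0) :
    ((n : ℝ) • 1 - adL q) * resK q K n = 1 ∧ resK q K n * ((n : ℝ) • 1 - adL q) = 1 := by
  have hn' : (n : ℝ) ≠ 0 := by exact_mod_cast hn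
  set x : A →L[ℝ] A := (n : ℝ)⁻¹ • adL q with hx
  have hxK : x ^ K = 0 := by rw [hx, smul_pow, hK]; ext z; exact smul_zero _
  have h1 : (n : ℝ) • 1 - adL q = (n : ℝ) • (1 - x) := by
    rw [smul_sub, hx, smul_smul, mul_inv_cancel₀ hn', one_smul]
  have h2 : resK q K n = (n : ℝ)⁻¹ • ∑ k ∈ Finset.range K, x ^ k := by
    rw [resK, Finset.smul_sum]
    refine Finset.sum_congr rfl fun k _ => ?_
    rw [hx, smul_pow, smul_smul, pow_succ']
  constructor
  · rw [h1, h2, smul_mul_smul_comm, mul_inv_cancel₀ hn', one_smul, mul_neg_geom_sum, hxK, sub_zero]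
  · rw [h1, h2, smul_mul_smul_comm, inv_mul_cancel₀ hn', one_smul, geom_sum_mul_neg, hxK, sub_zero]

theorem res_eq_resK {q : A} {K : ℕ} (hK : (adL q) ^ K = 0) {n : ℕ} (hn : n ≠ 0) :
    res q n = resK q K n := by
  obtain ⟨h1, h2⟩ := resK_spec hK hn
  exact Ring.inverse_unit ⟨_, _, h1, h2⟩

theorem res_spec {q : A} (hq : IsNilpotent q) {n : ℕ} (hn : n ≠ 0) (z : A) :
    (n : ℝ) • res q n z - (q * res q n z - res q n z * q) = z := by
  obtain ⟨K, hK⟩ := adL_nilpotent hq
  have h := (resK_spec hK hn).1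
  rw [res_eq_resK hK hn]
  have := congrArg (fun T : A →L[ℝ] A => T z) h
  simpa using this

theorem res_spec' {q : A} (hq : IsNilpotent q) {n : ℕ} (hn : n ≠ 0) (z : A) :
    res q n ((n : ℝ) • z - (q * z - z * q)) = z := by
  obtain ⟨K, hK⟩ := adL_nilpotent hq
  have h := (resK_spec hK hn).2
  rw [res_eq_resK hK hn]
  have := congrArg (fun T : A →L[ℝ] A => T z) h
  simpa using this

theorem res_eq_of {q : A} (hq : IsNilpotent q) {n : ℕ} (hn : n ≠ 0) {z w : A}
    (h : (n : ℝ) • w - (q * w - w * q) = z) : res q n z = w := by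
  rw [← h, res_spec' hq hn]

theorem res_bound {q : A} (hq : IsNilpotent q) :
    ∃ C : ℝ, 0 ≤ C ∧ ∀ n : ℕ, n ≠ 0 → ∀ z : A, ‖res q n z‖ ≤ C / n * ‖z‖ := by
  obtain ⟨K, hK⟩ := adL_nilpotent hq
  refine ⟨∑ k ∈ Finset.range K, ‖(adL q) ^ k‖, Finset.sum_nonneg fun _ _ => norm_nonneg _, ?_⟩
  intro n hn z
  have hn1 : (1 : ℝ) ≤ n := by exact_mod_cast Nat.one_le_iff_ne_zero.2 hn
  rw [res_eq_resK hK hn]
  refine (ContinuousLinearMap.le_opNorm _ _).trans (mul_le_mul_of_nonneg_right ?_ (norm_nonneg _))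
  rw [resK, Finset.sum_div]
  refine (norm_sum_le _ _).trans (Finset.sum_le_sum fun k _ => ?_)
  rw [norm_smul, norm_pow, norm_inv, Real.norm_natCast, pow_succ, div_eq_mul_inv]
  have h1 : ((n : ℝ)⁻¹) ^ k ≤ 1 := pow_le_one₀ (by positivity) (inv_le_one_of_one_le₀ hn1)
  calc ((n : ℝ)⁻¹) ^ k * (n : ℝ)⁻¹ * ‖adL q ^ k‖ ≤ 1 * (n : ℝ)⁻¹ * ‖adL q ^ k‖ := by gcongr
    _ = ‖adL q ^ k‖ * (n : ℝ)⁻¹ := by ring

end Res

section Coef
variable {A : Type*} [NormedRing A] [NormedAlgebra ℝ A]

/-- coefficients of the regular factor `H(u,v) = ∑ v^n h_n(u)`. -/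
noncomputable def hc (q t y : A) (u : ℝ) : ℕ → A
  | 0 => 1
  | (n + 1) => - res q (n + 1) (∑ k : Fin (n + 1), (t + u ^ ((k : ℕ) + 1) • y) * hc q t y u (n - k))
termination_by n => n
decreasing_by omega

theorem hc_zero (q t y : A) (u : ℝ) : hc q t y u 0 = 1 := by rw [hc]

theorem hc_succ (q t y : A) (u : ℝ) (n : ℕ) : hc q t y u (n + 1) =
    - res q (n + 1) (∑ k ∈ Finset.range (n + 1), (t + u ^ (k + 1) • y) * hc q t y u (n - k)) := by
  rw [hc, Finset.sum_range]

theorem hc_rec {q : A} (hq : IsNilpotent q) (t y : A) (u : ℝ) (n : ℕ) :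
    ((n + 1 : ℕ) : ℝ) • hc q t y u (n + 1) -
      (q * hc q t y u (n + 1) - hc q t y u (n + 1) * q) =
    - ∑ k ∈ Finset.range (n + 1), (t + u ^ (k + 1) • y) * hc q t y u (n - k) := by
  have h := res_spec hq (n := n + 1) (by omega)
    (∑ k ∈ Finset.range (n + 1), (t + u ^ (k + 1) • y) * hc q t y u (n - k))
  rw [hc_succ]
  generalize hS : (∑ k ∈ Finset.range (n + 1), (t + u ^ (k + 1) • y) * hc q t y u (n - k)) = S at h
  generalize hR : res q (n + 1) S = R at h
  rw [← h, smul_neg, mul_neg, neg_mul]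
  abel

/-- the majorant sequence -/
noncomputable def bm (B κ : ℝ) : ℕ → ℝ
  | 0 => B
  | (n + 1) => bm B κ n * (n + κ) / (n + 1)

theorem bm_pos {B κ : ℝ} (hB : 0 < B) (hκ : 0 < κ) (n : ℕ) : 0 < bm B κ n := by
  induction n with
  | zero => simpa [bm] using hB
  | succ n ih => rw [bm]; positivity

theorem bm_sum {B κ : ℝ} (n : ℕ) :
    κ * ∑ j ∈ Finset.range n, bm B κ j = n * bm B κ n := by
  induction n with
  | zero => simp
  | succ n ih =>
    rw [Finset.sum_range_succ, mul_add, ih, bm]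
    push_cast
    have : (n : ℝ) + 1 ≠ 0 := by positivity
    field_simp

theorem bm_summable {B κ ρ : ℝ} (hB : 0 < B) (hκ : 0 < κ) (hρ0 : 0 < ρ) (hρ : ρ < 1) :
    Summable fun n : ℕ => ((n : ℝ) + 1) * bm B κ n * ρ ^ n := by
  refine summable_of_ratio_test_tendsto_lt_one hρ ?_ ?_
  · refine Eventually.of_forall fun n => ?_
    have := bm_pos hB hκ n
    positivity
  · have h : ∀ n : ℕ, ‖((n + 1 : ℕ) + 1 : ℝ) * bm B κ (n + 1) * ρ ^ (n + 1)‖ /
        ‖((n : ℝ) + 1) * bm B κ n * ρ ^ n‖ =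
        ρ * ((1 + (2 : ℝ) * (n : ℝ)⁻¹) * (1 + κ * (n : ℝ)⁻¹) / ((1 + (n : ℝ)⁻¹) * (1 + (n : ℝ)⁻¹))) ∨ n = 0 := by
      intro n
      rcases Nat.eq_zero_or_pos n with h0 | h0
      · exact Or.inr h0
      left
      have hb := bm_pos hB hκ n
      have hb1 := bm_pos hB hκ (n + 1)
      have hn : (0 : ℝ) < n := by exact_mod_cast h0
      rw [Real.norm_of_nonneg (by positivity), Real.norm_of_nonneg (by positivity), bm]
      push_cast
      field_simp
      ring
    have hlim : Tendsto (fun n : ℕ => ρ * ((1 + (2 : ℝ) * (n : ℝ)⁻¹) * (1 + κ * (n : ℝ)⁻¹) /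
        ((1 + (n : ℝ)⁻¹) * (1 + (n : ℝ)⁻¹)))) atTop (𝓝 ρ) := by
      have hi : Tendsto (fun n : ℕ => (n : ℝ)⁻¹) atTop (𝓝 0) := tendsto_inv_atTop_nhds_zero_nat
      have h2 : Tendsto (fun n : ℕ => ρ * ((1 + (2 : ℝ) * (n : ℝ)⁻¹) * (1 + κ * (n : ℝ)⁻¹) /
        ((1 + (n : ℝ)⁻¹) * (1 + (n : ℝ)⁻¹)))) atTop
          (𝓝 (ρ * ((1 + 2 * 0) * (1 + κ * 0) / ((1 + 0) * (1 + 0))))) := by
        refine Tendsto.const_mul _ (Tendsto.div ?_ ?_ (by norm_num))
        · exact ((tendsto_const_nhds.add (hi.const_mul 2)).mul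
            (tendsto_const_nhds.add (hi.const_mul κ)))
        · exact (tendsto_const_nhds.add hi).mul (tendsto_const_nhds.add hi)
      simpa using h2
    refine hlim.congr' ?_
    filter_upwards [eventually_gt_atTop 0] with n hn
    rcases h n with h | h
    · rw [← h]
    · omega

/-- a uniform bound for all coefficients, `|u| ≤ 1`. -/
theorem hc_bound {q : A} (hq : IsNilpotent q) (t y : A) :
    ∃ B κ : ℝ, 0 < B ∧ 0 < κ ∧ ∀ u : ℝ, |u| ≤ 1 → ∀ n, ‖hc q t y u n‖ ≤ bm B κ n := by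
  obtain ⟨C, hC0, hC⟩ := res_bound hq
  refine ⟨‖(1 : A)‖ + 1, C * (‖t‖ + ‖y‖) + 1, by positivity, by positivity, ?_⟩
  intro u hu n
  induction n using Nat.strong_induction_on with
  | _ n ih =>
    rcases n with _ | n
    · rw [hc_zero, bm]; linarith
    · rw [hc_succ, norm_neg]
      refine (hC (n + 1) (by omega) _).trans ?_
      have h1 : ‖∑ k ∈ Finset.range (n + 1), (t + u ^ (k + 1) • y) * hc q t y u (n - k)‖ ≤
          (‖t‖ + ‖y‖) * ∑ k ∈ Finset.range (n + 1), bm (‖(1 : A)‖ + 1) (C * (‖t‖ + ‖y‖) + 1) k := by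
        refine (norm_sum_le _ _).trans ?_
        rw [← Finset.sum_range_reflect (fun k => bm (‖(1 : A)‖ + 1) (C * (‖t‖ + ‖y‖) + 1) k),
          Finset.mul_sum]
        refine Finset.sum_le_sum fun k hk => ?_
        rw [Finset.mem_range] at hk
        refine (norm_mul_le _ _).trans ?_
        refine mul_le_mul ?_ ?_ (norm_nonneg _) (by positivity)
        · refine (norm_add_le _ _).trans ?_
          have : ‖u ^ (k + 1) • y‖ ≤ ‖y‖ := by
            rw [norm_smul, norm_pow, Real.norm_eq_abs]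
            calc |u| ^ (k + 1) * ‖y‖ ≤ 1 * ‖y‖ := by
                  gcongr; exact pow_le_one₀ (abs_nonneg _) hu
              _ = ‖y‖ := one_mul _
          linarith
        · have := ih (n - k) (by omega)
          rwa [show n + 1 - 1 - k = n - k by omega]
      have hb : ∀ j, 0 < bm (‖(1 : A)‖ + 1) (C * (‖t‖ + ‖y‖) + 1) j :=
        fun j => bm_pos (by positivity) (by positivity) j
      have hs := bm_sum (B := ‖(1 : A)‖ + 1) (κ := C * (‖t‖ + ‖y‖) + 1) (n + 1)
      set Sg := ∑ k ∈ Finset.range (n + 1), bm (‖(1 : A)‖ + 1) (C * (‖t‖ + ‖y‖) + 1) k with hSg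
      have hSg0 : 0 ≤ Sg := Finset.sum_nonneg fun j _ => (hb j).le
      have hn1 : (0 : ℝ) < ((n + 1 : ℕ) : ℝ) := by positivity
      calc C / ((n + 1 : ℕ) : ℝ) * ‖∑ k ∈ Finset.range (n + 1),
            (t + u ^ (k + 1) • y) * hc q t y u (n - k)‖
          ≤ C / ((n + 1 : ℕ) : ℝ) * ((‖t‖ + ‖y‖) * Sg) := by gcongr
        _ ≤ (C * (‖t‖ + ‖y‖) + 1) * Sg / ((n + 1 : ℕ) : ℝ) := by
            rw [div_mul_eq_mul_div]
            refine div_le_div_of_nonneg_right ?_ hn1.le
            nlinarith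
        _ = bm (‖(1 : A)‖ + 1) (C * (‖t‖ + ‖y‖) + 1) (n + 1) := by
            rw [hs]; field_simp

end Coef

end Crest.Agent.R010.KZ
private theorem rz_be815cb7df : type_of% @_root_.Crest.Agent.R010.KZ.bm.eq_def := @_root_.Crest.Agent.R010.KZ.bm.eq_def -- L139
private theorem rz_b44ad6f500 : type_of% @_root_.Crest.Agent.R010.KZ.bm.eq_1 := @_root_.Crest.Agent.R010.KZ.bm.eq_1 -- L139
private theorem rz_ec0108b568 : type_of% @_root_.Crest.Agent.R010.KZ.hc.eq_1 := @_root_.Crest.Agent.R010.KZ.hc.eq_1 -- L114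
private theorem rz_4a0f1dd826 : type_of% @_root_.Crest.Agent.R010.KZ.hc.eq_def := @_root_.Crest.Agent.R010.KZ.hc.eq_def -- L114
end

-- ▼ part R010/KZb
section

/-! Row 10, module (E), analysis part 2 (helper819): derivative in the parameter `u` of the
coefficients `h_n(u)`, through an identity in `PowerSeries A`. -/

set_option autoImplicit false

open Filter Topology NormedSpace

namespace Crest.Agent.R010.KZ

section PS
variable {A : Type*} [Ring A] [Algebra ℝ A]

open PowerSeries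

/-- the Euler operator on power series -/
noncomputable def th (F : A⟦X⟧) : A⟦X⟧ := PowerSeries.mk fun n => (n : ℝ) • coeff n F

theorem coeff_th (F : A⟦X⟧) (n : ℕ) : coeff n (th F) = (n : ℝ) • coeff n F := by
  simp [th]

theorem th_mul (F G : A⟦X⟧) : th (F * G) = th F * G + F * th G := by
  ext n
  rw [coeff_th, coeff_mul, map_add, coeff_mul, coeff_mul, Finset.smul_sum,
    ← Finset.sum_add_distrib]
  refine Finset.sum_congr rfl fun p hp => ?_
  rw [Finset.HasAntidiagonal.mem_antidiagonal] at hp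
  rw [coeff_th, coeff_th, smul_mul_assoc, mul_smul_comm, ← add_smul, ← hp]
  push_cast
  rfl

theorem th_sub (F G : A⟦X⟧) : th (F - G) = th F - th G := by
  ext n; simp [coeff_th, smul_sub]

theorem th_C (a : A) : th (C a) = 0 := by
  ext n
  rw [coeff_th, coeff_C]
  split_ifs with h
  · simp [h]
  · simp

omit [Algebra ℝ A] in
theorem X_central (F : A⟦X⟧) : F * X = X * F := (commute_X F).eq

/-- the scalar series `∑ u^k X^k` -/
noncomputable def Us (A : Type*) [Ring A] [Algebra ℝ A] (u : ℝ) : A⟦X⟧ :=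
  PowerSeries.mk fun k => (u ^ k) • (1 : A)

/-- the scalar series `∑ (k+1) u^k X^k` -/
noncomputable def U1s (A : Type*) [Ring A] [Algebra ℝ A] (u : ℝ) : A⟦X⟧ :=
  PowerSeries.mk fun k => (((k : ℝ) + 1) * u ^ k) • (1 : A)

theorem Us_central (u : ℝ) (F : A⟦X⟧) : F * Us A u = Us A u * F := by
  ext n
  rw [coeff_mul, coeff_mul, ← Finset.Nat.sum_antidiagonal_swap]
  refine Finset.sum_congr rfl fun p _ => ?_
  simp [Us]

theorem th_XUs (u : ℝ) : th (X * Us A u) = X * U1s A u := by
  ext n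
  rw [coeff_th]
  rcases n with _ | n
  · simp
  · rw [coeff_succ_X_mul, coeff_succ_X_mul]
    simp only [Us, U1s, coeff_mk, smul_smul]
    push_cast
    rfl

omit [Algebra ℝ A] in
/-- the algebraic heart -/
theorem ps_identity {a b c S U U1 H thH : A⟦X⟧} (hU : ∀ F, F * U = U * F)
    (hab : a * b = b * a)
    (E1 : thH = b * H - H * b - X * (S * H))
    (R1 : a * S - S * a = X * (U * c * S - S * U * c) + U * (b * c - c * b)) :
    (a * thH - thH * a) - (X * U1 * (c * H) + X * U * (c * thH)) =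
      (b * (a * H - H * a - X * U * (c * H)) - (a * H - H * a - X * U * (c * H)) * b)
       - X * (S * (a * H - H * a - X * U * (c * H)) + U1 * (c * H)) := by
  have hX : ∀ F : A⟦X⟧, F * X = X * F := X_central
  have hX' : ∀ F G : A⟦X⟧, F * (X * G) = X * (F * G) := fun F G => by
    rw [← mul_assoc, hX, mul_assoc]
  have hU' : ∀ F G : A⟦X⟧, F * (U * G) = U * (F * G) := fun F G => by
    rw [← mul_assoc, hU, mul_assoc]
  subst E1
  have R2 : X * ((a * S - S * a) * H) =
      X * ((X * (U * c * S - S * U * c) + U * (b * c - c * b)) * H) := by rw [R1]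
  have e1 : X * ((a * S - S * a) * H) = X * (a * (S * H)) - X * (S * (a * H)) := by
    noncomm_ring
  have e2 : X * ((X * (U * c * S - S * U * c) + U * (b * c - c * b)) * H) =
      X * (X * (U * (c * (S * H)))) - X * (X * (U * (S * (c * H)))) + X * (U * (b * (c * H)))
        - X * (U * (c * (b * H))) := by
    have : S * U = U * S := hU S
    rw [this]
    noncomm_ring
  rw [e1, e2] at R2
  have g1 : a * (X * (S * H)) = X * (a * (S * H)) := hX' _ _
  have g2 : X * U * (c * (b * H - H * b - X * (S * H))) =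
      X * (U * (c * (b * H))) - X * (U * (c * (H * b))) - X * (X * (U * (c * (S * H)))) := by
    rw [mul_sub, mul_sub, mul_sub, mul_sub, hX' c, hX' (X * U)]
    noncomm_ring
  have g3 : b * (X * U * (c * H)) = X * (U * (b * (c * H))) := by
    rw [mul_assoc X U, hX', hU']
  have g4 : X * (S * (X * U * (c * H))) = X * (X * (U * (S * (c * H)))) := by
    rw [mul_assoc X U, hX', hU']
  have g5 : a * (b * H) = b * (a * H) := by rw [← mul_assoc, hab, mul_assoc]
  have g6 : H * b * a = H * a * b := by rw [mul_assoc, ← hab, mul_assoc]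
  have L : (a * (b * H - H * b - X * (S * H)) - (b * H - H * b - X * (S * H)) * a) -
      (X * U1 * (c * H) + X * U * (c * (b * H - H * b - X * (S * H)))) =
      (b * (a * H) - a * (H * b) - X * (a * (S * H))) - (b * (H * a) - H * a * b - X * (S * (H * a)))
      - X * U1 * (c * H) - (X * (U * (c * (b * H))) - X * (U * (c * (H * b))) -
        X * (X * (U * (c * (S * H))))) := by
    rw [g2, mul_sub a, mul_sub a, g1, g5, sub_mul _ _ a, sub_mul _ _ a, g6]
    noncomm_ring
  have Rr : (b * (a * H - H * a - X * U * (c * H)) - (a * H - H * a - X * U * (c * H)) * b)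
       - X * (S * (a * H - H * a - X * U * (c * H)) + U1 * (c * H)) =
      b * (a * H) - b * (H * a) - X * (U * (b * (c * H))) - a * (H * b) + H * a * b
        + X * (U * (c * (H * b))) - X * (S * (a * H)) + X * (S * (H * a)) +
        X * (X * (U * (S * (c * H)))) - X * U1 * (c * H) := by
    rw [mul_sub b, mul_sub b, g3, mul_add X, mul_sub S, mul_sub S, mul_sub X, mul_sub X, g4]
    noncomm_ring
  rw [L, Rr]
  have R3 : X * (a * (S * H)) = X * (S * (a * H)) + (X * (X * (U * (c * (S * H)))) -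
      X * (X * (U * (S * (c * H)))) + X * (U * (b * (c * H))) - X * (U * (c * (b * H)))) := by
    rw [← R2]; abel
  rw [R3]
  abel

end PS

section Deriv
variable {A : Type*} [NormedRing A] [NormedAlgebra ℝ A]

open PowerSeries

/-- the coefficient series -/
noncomputable def Hser (q t y : A) (u : ℝ) : A⟦X⟧ := PowerSeries.mk (hc q t y u)

/-- the series `∑ (t + u^(k+1) y) X^k` -/
noncomputable def Cser (t y : A) (u : ℝ) : A⟦X⟧ := PowerSeries.mk fun k => t + u ^ (k + 1) • y

theorem th_Hser {q : A} (hq : IsNilpotent q) (t y : A) (u : ℝ) :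
    th (Hser q t y u) = C q * Hser q t y u - Hser q t y u * C q -
      X * (Cser t y u * Hser q t y u) := by
  ext n
  rw [coeff_th]
  rcases n with _ | n
  · simp [Hser, hc_zero]
  · have h := hc_rec hq t y u n
    rw [map_sub, map_sub, coeff_C_mul, coeff_mul_C, coeff_succ_X_mul, coeff_mul]
    rw [Finset.Nat.sum_antidiagonal_eq_sum_range_succ_mk]
    simp only [Hser, Cser, coeff_mk, Nat.succ_eq_add_one]
    rw [sub_eq_iff_eq_add.1 h]
    abel

/-- the `u`-derivative of `hc`. -/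
noncomputable def Dc (x q t y : A) (u : ℝ) (n : ℕ) : A :=
  x * hc q t y u n - hc q t y u n * x -
    ∑ k ∈ Finset.range n, u ^ k • (y * hc q t y u (n - 1 - k))

theorem coeff_D (x q t y : A) (u : ℝ) (n : ℕ) :
    coeff n (C x * Hser q t y u - Hser q t y u * C x - X * Us A u * (C y * Hser q t y u)) =
      Dc x q t y u n := by
  rw [map_sub, map_sub, coeff_C_mul, coeff_mul_C, mul_assoc, Dc]
  have h1 : coeff n (Hser q t y u) = hc q t y u n := by simp [Hser]
  have h2 : coeff n (X * (Us A u * (C y * Hser q t y u))) =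
      ∑ k ∈ Finset.range n, u ^ k • (y * hc q t y u (n - 1 - k)) := by
    rcases n with _ | n
    · simp
    · rw [coeff_succ_X_mul, coeff_mul, Finset.Nat.sum_antidiagonal_eq_sum_range_succ_mk]
      refine Finset.sum_congr rfl fun k _ => ?_
      simp [Us, Hser, coeff_C_mul]
  rw [h1, h2]

/-- the relations between the letters: `x = p/u + r/(u-1)`. -/
structure Rel (p q r t y : A) : Prop where
  pq : p * q = q * p
  qr : q * r = r * q
  tp : t * p = p * t
  ty : t * y - y * t = r * t - t * r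
  ry : r * y - y * r = t * r - r * t
  py : (p * y - y * p) - (r * t - t * r) = q * y - y * q

/-- the connection coefficient at height `0`. -/
noncomputable def Xf (p r : A) (u : ℝ) : A := u⁻¹ • p + (u - 1)⁻¹ • r

theorem R1_coeff {p q r t y : A} (h : Rel p q r t y) {u : ℝ} (hu0 : u ≠ 0) (hu1 : u ≠ 1) :
    C (Xf p r u) * Cser t y u - Cser t y u * C (Xf p r u) =
      X * (Us A u * C y * Cser t y u - Cser t y u * Us A u * C y) +
        Us A u * (C q * C y - C y * C q) := by
  have hu1' : u - 1 ≠ 0 := sub_ne_zero.2 hu1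
  ext n
  rw [map_sub, coeff_C_mul, coeff_mul_C, map_add]
  have e1 : coeff n (Us A u * (C q * C y - C y * C q)) = u ^ n • (q * y - y * q) := by
    rw [← map_mul, ← map_mul, ← map_sub, coeff_mul_C]
    simp [Us]
  have e2 : coeff n (X * (Us A u * C y * Cser t y u - Cser t y u * Us A u * C y)) =
      (∑ k ∈ Finset.range n, u ^ k) • (y * t - t * y) := by
    rcases n with _ | n
    · simp
    · rw [coeff_succ_X_mul, map_sub, mul_assoc (Us A u), coeff_mul, Us_central u (Cser t y u),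
        mul_assoc (Us A u), coeff_mul, ← Finset.sum_sub_distrib, Finset.Nat.sum_antidiagonal_eq_sum_range_succ_mk,
        Finset.sum_smul]
      refine Finset.sum_congr rfl fun k _ => ?_
      simp only [Us, Cser, coeff_mk, coeff_C_mul, coeff_mul_C, smul_mul_assoc, one_mul]
      rw [← smul_sub]
      congr 1
      rw [mul_add, add_mul, mul_smul_comm, smul_mul_assoc]
      abel
  rw [e1, e2]
  simp only [Cser, coeff_mk, Xf]
  have hg : (∑ k ∈ Finset.range n, u ^ k) = (u ^ n - 1) / (u - 1) := geom_sum_eq hu1 n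
  rw [hg]
  have hL : (u⁻¹ • p + (u - 1)⁻¹ • r) * (t + u ^ (n + 1) • y) -
      (t + u ^ (n + 1) • y) * (u⁻¹ • p + (u - 1)⁻¹ • r) =
      u⁻¹ • (p * t - t * p) + (u ^ (n + 1) * u⁻¹) • (p * y - y * p) +
        (u - 1)⁻¹ • (r * t - t * r) + (u ^ (n + 1) * (u - 1)⁻¹) • (r * y - y * r) := by
    simp only [mul_add, add_mul, smul_mul_assoc, mul_smul_comm, smul_sub]
    module
  rw [hL, h.tp, sub_self, smul_zero, zero_add, h.ry, ← h.py,
    show y * t - t * y = -(t * y - y * t) by abel, h.ty]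
  generalize p * y - y * p = P
  generalize r * t = R1
  generalize t * r = R2
  match_scalars <;> field_simp <;> ring

/-- `D` satisfies the differentiated recursion. -/
theorem Dc_rec {p q r t y : A} (h : Rel p q r t y) (hq : IsNilpotent q) {u : ℝ} (hu0 : u ≠ 0)
    (hu1 : u ≠ 1) (n : ℕ) :
    ((n + 1 : ℕ) : ℝ) • Dc (Xf p r u) q t y u (n + 1) -
      (q * Dc (Xf p r u) q t y u (n + 1) - Dc (Xf p r u) q t y u (n + 1) * q) =
    - ∑ k ∈ Finset.range (n + 1), ((t + u ^ (k + 1) • y) * Dc (Xf p r u) q t y u (n - k) +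
        (((k : ℝ) + 1) * u ^ k) • (y * hc q t y u (n - k))) := by
  have hab : C (Xf p r u) * C q = C q * C (Xf p r u) := by
    rw [← map_mul, ← map_mul]
    congr 1
    simp only [Xf, add_mul, mul_add, smul_mul_assoc, mul_smul_comm, h.pq, h.qr]
  have key := ps_identity (Us_central u) hab (th_Hser hq t y u) (R1_coeff h hu0 hu1)
    (U1 := U1s A u)
  set Dser := C (Xf p r u) * Hser q t y u - Hser q t y u * C (Xf p r u) -
    X * Us A u * (C y * Hser q t y u) with hD
  have hth : th Dser = (C (Xf p r u) * th (Hser q t y u) - th (Hser q t y u) * C (Xf p r u)) -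
      (X * U1s A u * (C y * Hser q t y u) + X * Us A u * (C y * th (Hser q t y u))) := by
    rw [hD, th_sub, th_sub, th_mul, th_mul, th_C, th_mul (X * Us A u), th_XUs, th_mul (C y), th_C]
    simp
  rw [← hth] at key
  have hcD : ∀ m, coeff m Dser = Dc (Xf p r u) q t y u m := fun m => coeff_D _ _ _ _ _ _
  clear_value Dser
  have hc := congrArg (coeff (n + 1)) key
  rw [coeff_th, map_sub, map_sub, coeff_C_mul, coeff_mul_C, coeff_succ_X_mul, map_add, coeff_mul,
    coeff_mul, ← Finset.sum_add_distrib, Finset.Nat.sum_antidiagonal_eq_sum_range_succ_mk] at hc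
  simp only [hcD, Nat.succ_eq_add_one] at hc
  rw [hc]
  have : ∀ k, coeff k (Cser t y u) = t + u ^ (k + 1) • y := fun k => by simp [Cser]
  simp only [this, U1s, Hser, coeff_mk, coeff_C_mul, smul_mul_assoc, one_mul]
  abel

/-- the derivative of `h_n` in `u`. -/
theorem hasDerivAt_hc {p q r t y : A} (h : Rel p q r t y) (hq : IsNilpotent q) {u : ℝ}
    (hu0 : u ≠ 0) (hu1 : u ≠ 1) (n : ℕ) :
    HasDerivAt (fun u => hc q t y u n) (Dc (Xf p r u) q t y u n) u := by
  induction n using Nat.strong_induction_on with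
  | _ n ih =>
    rcases n with _ | n
    · simp only [hc_zero, Dc, Finset.range_zero, Finset.sum_empty, mul_one, one_mul, sub_self]
      exact hasDerivAt_const _ _
    · have hS : HasDerivAt (fun u => ∑ k ∈ Finset.range (n + 1),
          (t + u ^ (k + 1) • y) * hc q t y u (n - k))
          (∑ k ∈ Finset.range (n + 1), ((t + u ^ (k + 1) • y) * Dc (Xf p r u) q t y u (n - k) +
            (((k : ℝ) + 1) * u ^ k) • (y * hc q t y u (n - k)))) u := by
        refine HasDerivAt.fun_sum fun k _ => ?_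
        have h1 : HasDerivAt (fun u : ℝ => t + u ^ (k + 1) • y) ((((k : ℝ) + 1) * u ^ k) • y) u := by
          have := ((hasDerivAt_pow (k + 1) u).smul_const y).const_add t
          simpa using this
        have h2 := h1.mul (ih (n - k) (by omega))
        rw [smul_mul_assoc] at h2
        exact h2.congr_deriv (add_comm _ _)
      have h3 := ((res q (n + 1)).hasFDerivAt.comp_hasDerivAt u hS).neg
      have h4 : -(res q (n + 1) (∑ k ∈ Finset.range (n + 1),
          ((t + u ^ (k + 1) • y) * Dc (Xf p r u) q t y u (n - k) +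
            (((k : ℝ) + 1) * u ^ k) • (y * hc q t y u (n - k))))) =
          Dc (Xf p r u) q t y u (n + 1) := by
        rw [← map_neg, ← Dc_rec h hq hu0 hu1 n]
        exact res_eq_of hq (by omega) rfl
      rw [← h4]
      refine h3.congr_of_eventuallyEq (Eventually.of_forall fun u => ?_)
      simp [hc_succ]

end Deriv

end Crest.Agent.R010.KZ
end

-- ▼ part R010/KZc
section

/-! Row 10, module (E), analysis part 3 (helper819): the regular factor `H(u,v)`. -/

set_option autoImplicit false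

open Filter Topology NormedSpace

namespace Crest.Agent.R010.KZ

variable {A : Type*} [NormedRing A] [NormedAlgebra ℝ A] [CompleteSpace A]

/-- the regular factor -/
noncomputable def Hf (q t y : A) (u v : ℝ) : A := ∑' n, v ^ n • hc q t y u n

theorem bm_summable0 {B κ ρ : ℝ} (hB : 0 < B) (hκ : 0 < κ) (hρ0 : 0 ≤ ρ) (hρ : ρ < 1) :
    Summable fun n : ℕ => ρ ^ n * bm B κ n := by
  obtain ⟨ρ', h1, h2⟩ := exists_between hρ
  have hρ'0 : 0 < ρ' := lt_of_le_of_lt hρ0 h1
  refine Summable.of_nonneg_of_le (fun n => ?_) (fun n => ?_) (bm_summable hB hκ hρ'0 h2)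
  · have := bm_pos hB hκ n; positivity
  · have hb := bm_pos hB hκ n
    have h3 : ρ ^ n ≤ ρ' ^ n := pow_le_pow_left₀ hρ0 h1.le n
    calc ρ ^ n * bm B κ n ≤ ρ' ^ n * bm B κ n := by gcongr
      _ ≤ ((n : ℝ) + 1) * bm B κ n * ρ' ^ n := by
        have : 0 ≤ (n : ℝ) * (bm B κ n * ρ' ^ n) := by positivity
        nlinarith

theorem summable_H {q : A} (hq : IsNilpotent q) (t y : A) {u v : ℝ} (hu : |u| ≤ 1) (hv : |v| < 1) :
    Summable fun n => ‖v ^ n • hc q t y u n‖ := by
  obtain ⟨B, κ, hB, hκ, hb⟩ := hc_bound hq t y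
  refine Summable.of_nonneg_of_le (fun n => norm_nonneg _) (fun n => ?_)
    (bm_summable0 hB hκ (abs_nonneg v) hv)
  rw [norm_smul, norm_pow, Real.norm_eq_abs]
  exact mul_le_mul_of_nonneg_left (hb u hu n) (by positivity)

omit [CompleteSpace A] in
theorem continuous_hc (q t y : A) (n : ℕ) : Continuous fun u => hc q t y u n := by
  induction n using Nat.strong_induction_on with
  | _ n ih =>
    rcases n with _ | n
    · simp only [hc_zero]; exact continuous_const
    · simp only [hc_succ]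
      refine ((res q (n + 1)).continuous.comp ?_).neg
      refine continuous_finset_sum _ fun k _ => ?_
      exact (continuous_const.add ((continuous_pow _).smul continuous_const)).mul
        (ih (n - k) (by omega))

omit [CompleteSpace A] in
theorem Hf_zero (q t y : A) (u : ℝ) : Hf q t y u 0 = 1 := by
  rw [Hf, tsum_eq_single 0]
  · simp [hc_zero]
  · intro n hn; simp [hn]

/-- joint continuity -/
theorem continuousOn_Hf {q : A} (hq : IsNilpotent q) (t y : A) {ρ : ℝ} (hρ0 : 0 ≤ ρ) (hρ : ρ < 1) :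
    ContinuousOn (fun p : ℝ × ℝ => Hf q t y p.1 p.2) {p | |p.1| ≤ 1 ∧ |p.2| ≤ ρ} := by
  obtain ⟨B, κ, hB, hκ, hb⟩ := hc_bound hq t y
  refine continuousOn_tsum (fun n => ?_) (bm_summable0 hB hκ hρ0 hρ) (fun n p hp => ?_)
  · exact ((continuous_snd.pow n).smul ((continuous_hc q t y n).comp continuous_fst)).continuousOn
  · rw [norm_smul, norm_pow, Real.norm_eq_abs]
    exact mul_le_mul (pow_le_pow_left₀ (abs_nonneg _) hp.2 n) (hb _ hp.1 n) (norm_nonneg _)
      (by positivity)

theorem tendsto_Hf {q : A} (hq : IsNilpotent q) (t y : A) {α : Type*} {l : Filter α}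
    {a b : α → ℝ} {u v : ℝ} (ha : Tendsto a l (𝓝 u)) (hb : Tendsto b l (𝓝 v))
    (ha1 : ∀ᶠ s in l, |a s| ≤ 1) (hu : |u| ≤ 1) (hv : |v| < 1) :
    Tendsto (fun s => Hf q t y (a s) (b s)) l (𝓝 (Hf q t y u v)) := by
  obtain ⟨ρ, h1, h2⟩ := exists_between hv
  have hc := continuousOn_Hf hq t y ((abs_nonneg v).trans h1.le) h2
  have hmem : (u, v) ∈ {p : ℝ × ℝ | |p.1| ≤ 1 ∧ |p.2| ≤ ρ} := ⟨hu, h1.le⟩
  have h3 := (hc _ hmem).tendsto
  have h4 : Tendsto (fun s => (a s, b s)) l (𝓝[{p : ℝ × ℝ | |p.1| ≤ 1 ∧ |p.2| ≤ ρ}] (u, v)) := by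
    rw [tendsto_nhdsWithin_iff]
    refine ⟨ha.prodMk_nhds hb, ?_⟩
    filter_upwards [ha1, (hb.abs).eventually_lt_const h1] with s hs1 hs2 using ⟨hs1, hs2.le⟩
  exact h3.comp h4

omit [CompleteSpace A] in
theorem hc_euler {q : A} (hq : IsNilpotent q) (t y : A) (u : ℝ) (n : ℕ) :
    (n : ℝ) • hc q t y u n = q * hc q t y u n - hc q t y u n * q -
      ∑ k ∈ Finset.range n, (t + u ^ (k + 1) • y) * hc q t y u (n - 1 - k) := by
  rcases n with _ | n
  · simp [hc_zero]
  · have h := hc_rec hq t y u n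
    rw [sub_eq_iff_eq_add.1 h]
    simp only [Nat.add_sub_cancel]
    abel

/-- Cauchy product with a shift -/
theorem tsum_shift_mul {c h : ℕ → A} {v : ℝ} (hc : Summable fun n => ‖v ^ n • c n‖)
    (hh : Summable fun n => ‖v ^ n • h n‖) :
    Summable (fun n => v ^ n • ∑ k ∈ Finset.range n, c k * h (n - 1 - k)) ∧
    ∑' n, v ^ n • ∑ k ∈ Finset.range n, c k * h (n - 1 - k) =
      v • ((∑' n, v ^ n • c n) * ∑' n, v ^ n • h n) := by
  have e1 : ∀ n : ℕ, v ^ (n + 1) • ∑ k ∈ Finset.range (n + 1), c k * h (n + 1 - 1 - k) =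
      v • ∑ k ∈ Finset.range (n + 1), (v ^ k • c k) * (v ^ (n - k) • h (n - k)) := by
    intro n
    rw [pow_succ', mul_smul, Finset.smul_sum]
    congr 1
    refine Finset.sum_congr rfl fun k hk => ?_
    rw [Finset.mem_range] at hk
    rw [smul_mul_smul_comm, ← pow_add, show k + (n - k) = n by omega,
      show n + 1 - 1 - k = n - k by omega]
  have hs : Summable fun n => ∑ k ∈ Finset.range (n + 1), (v ^ k • c k) * (v ^ (n - k) • h (n - k)) :=
    (summable_norm_sum_mul_range_of_summable_norm hc hh).of_norm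
  have hs1 : Summable (fun n => v ^ (n + 1) • ∑ k ∈ Finset.range (n + 1), c k * h (n + 1 - 1 - k)) := by
    simp only [e1]
    exact hs.const_smul v
  have hs2 : Summable (fun n => v ^ n • ∑ k ∈ Finset.range n, c k * h (n - 1 - k)) :=
    (summable_nat_add_iff 1).1 hs1
  refine ⟨hs2, ?_⟩
  rw [hs2.tsum_eq_zero_add]
  simp only [e1]
  rw [hs.tsum_const_smul, ← tsum_mul_tsum_eq_tsum_sum_range_of_summable_norm hc hh]
  simp

omit [CompleteSpace A] in
theorem hasSum_geom (a : A) {w : ℝ} (hw : |w| < 1) :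
    HasSum (fun n : ℕ => w ^ n • a) ((1 - w)⁻¹ • a) :=
  (hasSum_geometric_of_abs_lt_one hw).smul_const a

omit [CompleteSpace A] in
theorem summable_norm_geom (a : A) {w : ℝ} (hw : |w| < 1) :
    Summable (fun n : ℕ => ‖w ^ n • a‖) := by
  simp only [norm_smul, norm_pow, Real.norm_eq_abs]
  exact (summable_geometric_of_lt_one (abs_nonneg _) hw).mul_right _

theorem abs_mul_lt {u v : ℝ} (hu : |u| ≤ 1) (hv : |v| < 1) : |u * v| < 1 := by
  rw [abs_mul]
  exact lt_of_le_of_lt (mul_le_of_le_one_left (abs_nonneg _) hu) hv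

theorem cser_sum (t y : A) {u v : ℝ} (hu : |u| ≤ 1) (hv : |v| < 1) :
    (Summable fun n : ℕ => ‖v ^ n • (t + u ^ (n + 1) • y)‖) ∧
    ∑' n : ℕ, v ^ n • (t + u ^ (n + 1) • y) = (1 - v)⁻¹ • t + (u * (1 - u * v)⁻¹) • y := by
  have e : ∀ n : ℕ, v ^ n • (t + u ^ (n + 1) • y) = v ^ n • t + u • ((u * v) ^ n • y) := by
    intro n
    rw [smul_add, smul_smul, smul_smul, mul_pow]
    congr 2
    ring
  have h1 := hasSum_geom t hv
  have h2 := (hasSum_geom y (abs_mul_lt hu hv)).const_smul u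
  simp only [e]
  refine ⟨?_, ?_⟩
  · refine Summable.of_nonneg_of_le (fun n => norm_nonneg _) (fun n => norm_add_le _ _)
      ((summable_norm_geom t hv).add ?_)
    simp only [norm_smul]
    simpa [norm_smul] using (summable_norm_geom y (abs_mul_lt hu hv)).mul_left ‖u‖
  · rw [(h1.add h2).tsum_eq, smul_smul]

/-- Euler equation in `v`. -/
theorem sum_v {q : A} (hq : IsNilpotent q) (t y : A) {u v : ℝ} (hu : |u| ≤ 1) (hv : |v| < 1) :
    ∑' n : ℕ, (n : ℝ) • (v ^ n • hc q t y u n) =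
      q * Hf q t y u v - Hf q t y u v * q -
        v • (((1 - v)⁻¹ • t + (u * (1 - u * v)⁻¹) • y) * Hf q t y u v) := by
  have hs := summable_H hq t y hu hv
  obtain ⟨hc1, hc2⟩ := cser_sum t y hu hv
  obtain ⟨hd1, hd2⟩ := tsum_shift_mul (c := fun k => t + u ^ (k + 1) • y) (h := hc q t y u) hc1 hs
  have e : ∀ n : ℕ, (n : ℝ) • (v ^ n • hc q t y u n) =
      q * (v ^ n • hc q t y u n) - (v ^ n • hc q t y u n) * q -
        v ^ n • ∑ k ∈ Finset.range n, (t + u ^ (k + 1) • y) * hc q t y u (n - 1 - k) := by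
    intro n
    rw [smul_comm, hc_euler hq, smul_sub, smul_sub, mul_smul_comm, smul_mul_assoc]
  simp only [e]
  have hs' := hs.of_norm
  rw [((hs'.mul_left q).sub (hs'.mul_right q)).tsum_sub hd1,
    (hs'.mul_left q).tsum_sub (hs'.mul_right q), hs'.tsum_mul_left, hs'.tsum_mul_right, hd2, hc2]
  rfl

/-- equation in `u`. -/
theorem sum_u {q : A} (hq : IsNilpotent q) (x t y : A) {u v : ℝ} (hu : |u| ≤ 1) (hv : |v| < 1) :
    ∑' n : ℕ, v ^ n • Dc x q t y u n =
      x * Hf q t y u v - Hf q t y u v * x - v • ((1 - u * v)⁻¹ • (y * Hf q t y u v)) := by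
  have hs := summable_H hq t y hu hv
  have hc1 : Summable fun n : ℕ => ‖v ^ n • (u ^ n • y)‖ := by
    have := summable_norm_geom y (abs_mul_lt hu hv)
    refine this.congr fun n => ?_
    rw [smul_smul, mul_pow, mul_comm]
  have hc2 : ∑' n : ℕ, v ^ n • (u ^ n • y) = (1 - u * v)⁻¹ • y := by
    rw [← (hasSum_geom y (abs_mul_lt hu hv)).tsum_eq]
    refine tsum_congr fun n => ?_
    rw [smul_smul, mul_pow, mul_comm]
  obtain ⟨hd1, hd2⟩ := tsum_shift_mul (c := fun k => u ^ k • y) (h := hc q t y u) hc1 hs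
  have e : ∀ n : ℕ, v ^ n • Dc x q t y u n =
      x * (v ^ n • hc q t y u n) - (v ^ n • hc q t y u n) * x -
        v ^ n • ∑ k ∈ Finset.range n, (u ^ k • y) * hc q t y u (n - 1 - k) := by
    intro n
    simp only [Dc, smul_sub, mul_smul_comm, smul_mul_assoc]
  simp only [e]
  have hs' := hs.of_norm
  rw [((hs'.mul_left x).sub (hs'.mul_right x)).tsum_sub hd1,
    (hs'.mul_left x).tsum_sub (hs'.mul_right x), hs'.tsum_mul_left, hs'.tsum_mul_right, hd2, hc2,
    smul_mul_assoc]
  rfl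

end Crest.Agent.R010.KZ
end

-- ▼ part R010/KZd
section

/-! Row 10, module (E), analysis part 4 (helper819): derivatives along curves. -/

set_option autoImplicit false

open Filter Topology NormedSpace

namespace Crest.Agent.R010.KZ

variable {A : Type*} [NormedRing A] [NormedAlgebra ℝ A] [CompleteSpace A]

theorem hasDerivAt_series {f f' : ℕ → ℝ → A} {β β' : ℝ → ℝ} {B κ ρ C s₀ : ℝ}
    (hB : 0 < B) (hκ : 0 < κ) (hρ0 : 0 < ρ) (hρ : ρ < 1)
    (hf : ∀ᶠ s in 𝓝 s₀, ∀ n, HasDerivAt (f n) (f' n s) s)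
    (hb : ∀ᶠ s in 𝓝 s₀, ∀ n, ‖f n s‖ ≤ bm B κ n)
    (hb' : ∀ᶠ s in 𝓝 s₀, ∀ n : ℕ, ‖f' n s‖ ≤ C * (((n : ℝ) + 1) * bm B κ n))
    (hβ : ∀ᶠ s in 𝓝 s₀, HasDerivAt β (β' s) s)
    (hβρ : ∀ᶠ s in 𝓝 s₀, |β s| ≤ ρ) (hβC : ∀ᶠ s in 𝓝 s₀, |β' s| ≤ C) :
    HasDerivAt (fun s => ∑' n, (β s) ^ n • f n s)
      (∑' n : ℕ, (((n : ℝ) * (β s₀) ^ (n - 1) * β' s₀) • f n s₀ + (β s₀) ^ n • f' n s₀)) s₀ := by
  have hall := (hf.and (hb.and (hb'.and (hβ.and (hβρ.and hβC)))))
  obtain ⟨ε, hε, hball⟩ := Metric.eventually_nhds_iff_ball.1 hall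
  have hC0 : 0 ≤ C := by
    have := (hball s₀ (Metric.mem_ball_self hε)).2.2.2.2.2
    exact (abs_nonneg _).trans this
  have hu : Summable fun n : ℕ => (C / ρ + C) * (((n : ℝ) + 1) * bm B κ n * ρ ^ n) :=
    (bm_summable hB hκ hρ0 hρ).mul_left _
  refine hasDerivAt_tsum_of_isPreconnected hu Metric.isOpen_ball
    (convex_ball s₀ ε).isPreconnected (g := fun n s => (β s) ^ n • f n s)
    (g' := fun n s => ((n : ℝ) * (β s) ^ (n - 1) * β' s) • f n s + (β s) ^ n • f' n s)
    (fun n s hs => ?_) (fun n s hs => ?_) (Metric.mem_ball_self hε) ?_ (Metric.mem_ball_self hε)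
  · obtain ⟨h1, _, _, h4, _, _⟩ := hball s hs
    have h5 := (h4.pow n).smul (h1 n)
    refine h5.congr_deriv ?_
    rw [add_comm]
    rfl
  · obtain ⟨_, h2, h3, _, h5, h6⟩ := hball s hs
    have hbn := bm_pos hB hκ n
    refine (norm_add_le _ _).trans ?_
    have e1 : ‖((n : ℝ) * (β s) ^ (n - 1) * β' s) • f n s‖ ≤ C / ρ * (((n : ℝ) + 1) * bm B κ n * ρ ^ n) := by
      rw [norm_smul, Real.norm_eq_abs, abs_mul, abs_mul, abs_pow, Nat.abs_cast]
      rcases n with _ | n
      · simp only [Nat.cast_zero, zero_mul]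
        have : 0 ≤ C / ρ := by positivity
        positivity
      · have h7 : |β s| ^ (n + 1 - 1) ≤ ρ ^ n := by
          simpa using pow_le_pow_left₀ (abs_nonneg _) h5 n
        calc ((n + 1 : ℕ) : ℝ) * |β s| ^ (n + 1 - 1) * |β' s| * ‖f (n + 1) s‖
            ≤ ((n + 1 : ℕ) : ℝ) * ρ ^ n * C * bm B κ (n + 1) := by
              gcongr
              exact h2 _
          _ = C / ρ * (((n + 1 : ℕ) : ℝ) * bm B κ (n + 1) * ρ ^ (n + 1)) := by
              field_simp
              ring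
          _ ≤ C / ρ * ((((n + 1 : ℕ) : ℝ) + 1) * bm B κ (n + 1) * ρ ^ (n + 1)) := by
              gcongr
              linarith
    have e2 : ‖(β s) ^ n • f' n s‖ ≤ C * (((n : ℝ) + 1) * bm B κ n * ρ ^ n) := by
      rw [norm_smul, norm_pow, Real.norm_eq_abs]
      calc |β s| ^ n * ‖f' n s‖ ≤ ρ ^ n * (C * (((n : ℝ) + 1) * bm B κ n)) := by
            gcongr
            exact h3 n
        _ = C * (((n : ℝ) + 1) * bm B κ n * ρ ^ n) := by ring
    calc _ ≤ C / ρ * (((n : ℝ) + 1) * bm B κ n * ρ ^ n) + C * (((n : ℝ) + 1) * bm B κ n * ρ ^ n) :=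
          add_le_add e1 e2
      _ = _ := by ring
  · obtain ⟨_, h2, _, _, h5, _⟩ := hball s₀ (Metric.mem_ball_self hε)
    refine Summable.of_norm ?_
    refine Summable.of_nonneg_of_le (fun n => norm_nonneg _) (fun n => ?_)
      (bm_summable0 hB hκ hρ0.le hρ)
    rw [norm_smul, norm_pow, Real.norm_eq_abs]
    exact mul_le_mul (pow_le_pow_left₀ (abs_nonneg _) h5 n) (h2 n) (norm_nonneg _) (by positivity)

/-- summability of `n v^(n-1) h_n` -/
theorem summable_nH {q : A} (hq : IsNilpotent q) (t y : A) {u v : ℝ} (hu : |u| ≤ 1) (hv : |v| < 1) :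
    Summable fun n : ℕ => (n : ℝ) • (v ^ n • hc q t y u n) := by
  obtain ⟨B, κ, hB, hκ, hb⟩ := hc_bound hq t y
  obtain ⟨ρ, h1, h2⟩ := exists_between hv
  have hρ0 : 0 < ρ := lt_of_le_of_lt (abs_nonneg _) h1
  refine Summable.of_norm ?_
  refine Summable.of_nonneg_of_le (fun n => norm_nonneg _) (fun n => ?_)
      (bm_summable hB hκ hρ0 h2)
  have hbn := bm_pos hB hκ n
  rw [norm_smul, norm_smul, norm_pow, Real.norm_eq_abs, Real.norm_eq_abs, Nat.abs_cast]
  calc (n : ℝ) * (|v| ^ n * ‖hc q t y u n‖) ≤ (n : ℝ) * (ρ ^ n * bm B κ n) := by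
        gcongr
        exact hb u hu n
    _ ≤ ((n : ℝ) + 1) * bm B κ n * ρ ^ n := by
        have : 0 ≤ bm B κ n * ρ ^ n := by positivity
        nlinarith

omit [CompleteSpace A] in
theorem Dc_bound {q : A} (x t y : A) {B κ : ℝ} (hB : 0 < B) (hκ : 0 < κ) {u : ℝ} (hu : |u| ≤ 1)
    (hb : ∀ n, ‖hc q t y u n‖ ≤ bm B κ n) (n : ℕ) :
    ‖Dc x q t y u n‖ ≤ (2 * ‖x‖ + ‖y‖ / κ) * (((n : ℝ) + 1) * bm B κ n) := by
  have hbn := bm_pos hB hκ n
  have e1 : ‖x * hc q t y u n - hc q t y u n * x‖ ≤ 2 * ‖x‖ * bm B κ n := by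
    refine (norm_sub_le _ _).trans ?_
    have h1 := norm_mul_le x (hc q t y u n)
    have h2 := norm_mul_le (hc q t y u n) x
    have h3 := mul_le_mul_of_nonneg_left (hb n) (norm_nonneg x)
    nlinarith
  have e2 : ‖∑ k ∈ Finset.range n, u ^ k • (y * hc q t y u (n - 1 - k))‖ ≤
      ‖y‖ / κ * (n * bm B κ n) := by
    rw [← bm_sum, ← Finset.sum_range_reflect (fun k => bm B κ k)]
    refine (norm_sum_le _ _).trans ?_
    have e3 : ‖y‖ / κ * (κ * ∑ j ∈ Finset.range n, bm B κ (n - 1 - j)) =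
        ‖y‖ * ∑ j ∈ Finset.range n, bm B κ (n - 1 - j) := by field_simp
    rw [e3, Finset.mul_sum]
    refine Finset.sum_le_sum fun k _ => ?_
    rw [norm_smul, norm_pow, Real.norm_eq_abs]
    calc |u| ^ k * ‖y * hc q t y u (n - 1 - k)‖ ≤ 1 * (‖y‖ * ‖hc q t y u (n - 1 - k)‖) := by
          gcongr
          · exact pow_le_one₀ (abs_nonneg _) hu
          · exact norm_mul_le _ _
      _ ≤ ‖y‖ * bm B κ (n - 1 - k) := by
          rw [one_mul]; gcongr; exact hb _
  have hx := norm_nonneg x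
  have hy : 0 ≤ ‖y‖ / κ := by positivity
  calc ‖Dc x q t y u n‖ ≤ 2 * ‖x‖ * bm B κ n + ‖y‖ / κ * (n * bm B κ n) :=
        (norm_sub_le _ _).trans (add_le_add e1 e2)
    _ ≤ _ := by
        have h1 : 0 ≤ ‖x‖ * ((n : ℝ) * bm B κ n) := by positivity
        have h2 : 0 ≤ ‖y‖ / κ * bm B κ n := by positivity
        nlinarith

theorem summable_D {q : A} (hq : IsNilpotent q) (x t y : A) {u v : ℝ} (hu : |u| ≤ 1) (hv : |v| < 1) :
    Summable fun n : ℕ => v ^ n • Dc x q t y u n := by
  obtain ⟨B, κ, hB, hκ, hb⟩ := hc_bound hq t y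
  obtain ⟨ρ, h1, h2⟩ := exists_between hv
  have hρ0 : 0 < ρ := lt_of_le_of_lt (abs_nonneg _) h1
  refine Summable.of_norm ?_
  refine Summable.of_nonneg_of_le (fun n => norm_nonneg _) (fun n => ?_)
      ((bm_summable hB hκ hρ0 h2).mul_left (2 * ‖x‖ + ‖y‖ / κ))
  have hbn := bm_pos hB hκ n
  rw [norm_smul, norm_pow, Real.norm_eq_abs]
  have h3 := Dc_bound x t y hB hκ hu (hb u hu) n
  have h4 : |v| ^ n ≤ ρ ^ n := pow_le_pow_left₀ (abs_nonneg _) h1.le n
  calc |v| ^ n * ‖Dc x q t y u n‖ ≤ ρ ^ n * ((2 * ‖x‖ + ‖y‖ / κ) * (((n : ℝ) + 1) * bm B κ n)) := by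
        gcongr
    _ = _ := by ring

/-- `v`-derivative expression of `H`. -/
noncomputable def Hv (q t y : A) (u v : ℝ) : A :=
  v⁻¹ • (q * Hf q t y u v - Hf q t y u v * q) -
    ((1 - v)⁻¹ • t + (u * (1 - u * v)⁻¹) • y) * Hf q t y u v

/-- `u`-derivative expression of `H`. -/
noncomputable def Hu (x q t y : A) (u v : ℝ) : A :=
  x * Hf q t y u v - Hf q t y u v * x - v • ((1 - u * v)⁻¹ • (y * Hf q t y u v))

theorem hasDerivAt_Hf_curve {p q r t y : A} (h : Rel p q r t y) (hq : IsNilpotent q)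
    {α α' β β' : ℝ → ℝ} {s : ℝ}
    (hα : ∀ᶠ s in 𝓝 s, HasDerivAt α (α' s) s) (hα' : ContinuousAt α' s)
    (hβ : ∀ᶠ s in 𝓝 s, HasDerivAt β (β' s) s) (hβ' : ContinuousAt β' s)
    (hα0 : 0 < α s) (hα1 : α s < 1) (hβ0 : 0 < β s) (hβ1 : β s < 1) :
    HasDerivAt (fun s => Hf q t y (α s) (β s))
      (β' s • Hv q t y (α s) (β s) + α' s • Hu (Xf p r (α s)) q t y (α s) (β s)) s := by
  obtain ⟨B, κ, hB, hκ, hb⟩ := hc_bound hq t y
  obtain ⟨ρ, h1, h2⟩ := exists_between hβ1
  have hρ0 : 0 < ρ := hβ0.trans h1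
  have hαc : ContinuousAt α s := hα.self_of_nhds.continuousAt
  have hβc : ContinuousAt β s := hβ.self_of_nhds.continuousAt
  have hXc : ContinuousAt (fun s => Xf p r (α s)) s := by
    unfold Xf
    exact ((hαc.inv₀ hα0.ne').smul continuousAt_const).add
      (((hαc.sub continuousAt_const).inv₀ (sub_ne_zero.2 hα1.ne)).smul continuousAt_const)
  have e0 : ∀ᶠ s in 𝓝 s, 0 < α s := hαc.eventually_const_lt hα0
  have e1 : ∀ᶠ s in 𝓝 s, α s < 1 := hαc.eventually_lt_const hα1
  have e2 : ∀ᶠ s in 𝓝 s, |α' s| * (2 * ‖Xf p r (α s)‖ + ‖y‖ / κ) <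
      |α' s| * (2 * ‖Xf p r (α s)‖ + ‖y‖ / κ) + 1 := Eventually.of_forall fun s => lt_add_one _
  have e2' : ∀ᶠ z in 𝓝 s, |α' z| * (2 * ‖Xf p r (α z)‖ + ‖y‖ / κ) <
      |α' s| * (2 * ‖Xf p r (α s)‖ + ‖y‖ / κ) + 1 := by
    have hcont : ContinuousAt (fun z => |α' z| * (2 * ‖Xf p r (α z)‖ + ‖y‖ / κ)) s :=
      hα'.abs.mul ((continuousAt_const.mul hXc.norm).add continuousAt_const)
    exact hcont.eventually_lt_const (lt_add_one _)
  have e3 : ∀ᶠ z in 𝓝 s, |β' z| < |β' s| + 1 := hβ'.abs.eventually_lt_const (lt_add_one _)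
  set C := max (|α' s| * (2 * ‖Xf p r (α s)‖ + ‖y‖ / κ) + 1) (|β' s| + 1) with hC
  have key := hasDerivAt_series (f := fun n s => hc q t y (α s) n)
    (f' := fun n s => α' s • Dc (Xf p r (α s)) q t y (α s) n) (β := β) (β' := β') (s₀ := s)
    (C := C) hB hκ hρ0 h2 ?_ ?_ ?_ hβ ?_ ?_
  · have hu : |α s| ≤ 1 := by rw [abs_of_pos hα0]; exact hα1.le
    have hv : |β s| < 1 := by rw [abs_of_pos hβ0]; exact hβ1
    refine key.congr_deriv ?_
    have f1 : ∀ n : ℕ, ((n : ℝ) * (β s) ^ (n - 1) * β' s) • hc q t y (α s) n +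
        (β s) ^ n • (α' s • Dc (Xf p r (α s)) q t y (α s) n) =
        (β' s * (β s)⁻¹) • ((n : ℝ) • ((β s) ^ n • hc q t y (α s) n)) +
        α' s • ((β s) ^ n • Dc (Xf p r (α s)) q t y (α s) n) := by
      intro n
      rw [smul_comm (α' s)]
      congr 1
      rw [smul_smul, smul_smul]
      congr 1
      rcases n with _ | n
      · simp
      · rw [Nat.add_sub_cancel, pow_succ]
        field_simp
    simp only [f1]
    have g1 := summable_nH hq t y hu hv
    have g2 := summable_D hq (Xf p r (α s)) t y hu hv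
    rw [(g1.const_smul _).tsum_add (g2.const_smul _), g1.tsum_const_smul, g2.tsum_const_smul,
      sum_v hq t y hu hv, sum_u hq _ t y hu hv]
    rw [Hv, Hu, mul_smul]
    congr 2
    rw [smul_sub, smul_smul (β s)⁻¹ (β s), inv_mul_cancel₀ hβ0.ne', one_smul]
  · filter_upwards [hα, e0, e1] with z hz h0 h1' n
    have := (hasDerivAt_hc h hq h0.ne' h1'.ne n).scomp z hz
    exact this
  · filter_upwards [e0, e1] with z h0 h1' n
    exact hb _ (by rw [abs_of_pos h0]; exact h1'.le) n
  · filter_upwards [e0, e1, e2'] with z h0 h1' h3 n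
    have hu : |α z| ≤ 1 := by rw [abs_of_pos h0]; exact h1'.le
    have h4 := Dc_bound (Xf p r (α z)) t y hB hκ hu (hb _ hu) n
    have hbn := bm_pos hB hκ n
    rw [norm_smul, Real.norm_eq_abs]
    calc |α' z| * ‖Dc (Xf p r (α z)) q t y (α z) n‖
        ≤ |α' z| * ((2 * ‖Xf p r (α z)‖ + ‖y‖ / κ) * (((n : ℝ) + 1) * bm B κ n)) := by gcongr
      _ = (|α' z| * (2 * ‖Xf p r (α z)‖ + ‖y‖ / κ)) * (((n : ℝ) + 1) * bm B κ n) := by ring
      _ ≤ C * (((n : ℝ) + 1) * bm B κ n) := by
          gcongr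
          exact h3.le.trans (le_max_left _ _)
  · filter_upwards [hβc.eventually_const_lt hβ0, hβc.eventually_lt_const h1] with z h0 h1'
    rw [abs_of_pos h0]; exact h1'.le
  · filter_upwards [e3] with z hz using hz.le.trans (le_max_right _ _)

/-- derivative in `v` at a fixed `u`, `|u| ≤ 1`. -/
theorem hasDerivAt_Hf_const {q : A} (hq : IsNilpotent q) (t y : A)
    {β β' : ℝ → ℝ} {s u : ℝ} (hu : |u| ≤ 1)
    (hβ : ∀ᶠ s in 𝓝 s, HasDerivAt β (β' s) s) (hβ' : ContinuousAt β' s)
    (hβ0 : 0 < β s) (hβ1 : β s < 1) :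
    HasDerivAt (fun s => Hf q t y u (β s)) (β' s • Hv q t y u (β s)) s := by
  obtain ⟨B, κ, hB, hκ, hb⟩ := hc_bound hq t y
  obtain ⟨ρ, h1, h2⟩ := exists_between hβ1
  have hρ0 : 0 < ρ := hβ0.trans h1
  have hβc : ContinuousAt β s := hβ.self_of_nhds.continuousAt
  have e3 : ∀ᶠ z in 𝓝 s, |β' z| < |β' s| + 1 := hβ'.abs.eventually_lt_const (lt_add_one _)
  have key := hasDerivAt_series (f := fun n _ => hc q t y u n)
    (f' := fun n _ => 0) (β := β) (β' := β') (s₀ := s)
    (C := |β' s| + 1) hB hκ hρ0 h2 ?_ ?_ ?_ hβ ?_ ?_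
  · have hv : |β s| < 1 := by rw [abs_of_pos hβ0]; exact hβ1
    refine key.congr_deriv ?_
    have f1 : ∀ n : ℕ, ((n : ℝ) * (β s) ^ (n - 1) * β' s) • hc q t y u n +
        (β s) ^ n • (0 : A) =
        (β' s * (β s)⁻¹) • ((n : ℝ) • ((β s) ^ n • hc q t y u n)) := by
      intro n
      rw [smul_zero, add_zero, smul_smul, smul_smul]
      congr 1
      rcases n with _ | n
      · simp
      · rw [Nat.add_sub_cancel, pow_succ]
        field_simp
    simp only [f1]
    have g1 := summable_nH hq t y hu hv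
    rw [g1.tsum_const_smul, sum_v hq t y hu hv, Hv, mul_smul]
    congr 1
    rw [smul_sub, smul_smul (β s)⁻¹ (β s), inv_mul_cancel₀ hβ0.ne', one_smul]
  · exact Eventually.of_forall fun z n => hasDerivAt_const _ _
  · exact Eventually.of_forall fun z n => hb _ hu n
  · refine Eventually.of_forall fun z n => ?_
    have hbn := bm_pos hB hκ n
    rw [norm_zero]; positivity
  · filter_upwards [hβc.eventually_const_lt hβ0, hβc.eventually_lt_const h1] with z h0 h1'
    rw [abs_of_pos h0]; exact h1'.le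
  · filter_upwards [e3] with z hz using hz.le

end Crest.Agent.R010.KZ
end

-- ▼ part R010/KZe
section

/-! Row 10, module (E), analysis part 5 (helper819): the solutions `G`, `W` of the KZ equations. -/

set_option autoImplicit false

open Filter Topology NormedSpace

namespace Crest.Agent.R010.KZ

variable {A : Type*} [NormedRing A] [NormedAlgebra ℝ A]

theorem adL_pow_commute {c q z : A} (hcq : Commute c q) (hcz : Commute c z) (k : ℕ) :
    Commute c (((adL q) ^ k) z) := by
  induction k generalizing z with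
  | zero => simpa using hcz
  | succ k ih =>
    rw [pow_succ, mul_apply_eq_comp]
    refine ih ?_
    rw [adL_apply]
    exact (hcq.mul_right hcz).sub_right (hcz.mul_right hcq)

theorem res_commute {c q z : A} (hq : IsNilpotent q) (hcq : Commute c q) (hcz : Commute c z)
    {n : ℕ} (hn : n ≠ 0) : Commute c (res q n z) := by
  obtain ⟨K, hK⟩ := adL_nilpotent hq
  rw [res_eq_resK hK hn, resK]
  simp only [sum_apply, smul_apply]
  exact Commute.sum_right _ _ _ fun k _ => (adL_pow_commute hcq hcz k).smul_right _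

theorem hc_commute {c q t y : A} (hq : IsNilpotent q) (hcq : Commute c q) (hct : Commute c t)
    (hcy : Commute c y) (u : ℝ) (n : ℕ) : Commute c (hc q t y u n) := by
  induction n using Nat.strong_induction_on with
  | _ n ih =>
    rcases n with _ | n
    · rw [hc_zero]; exact Commute.one_right c
    · rw [hc_succ]
      refine (res_commute hq hcq ?_ (by omega)).neg_right
      refine Commute.sum_right _ _ _ fun k _ => ?_
      exact (hct.add_right (hcy.smul_right _)).mul_right (ih _ (by omega))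

theorem Hf_commute {c q t y : A} (hq : IsNilpotent q) (hcq : Commute c q) (hct : Commute c t)
    (hcy : Commute c y) (u v : ℝ) : Commute c (Hf q t y u v) :=
  Commute.tsum_right _ fun n => (hc_commute hq hcq hct hcy u n).smul_right (v ^ n)

/-- at `u = 0` the letter `y` is invisible. -/
theorem hc_zero_u (q t y : A) (n : ℕ) : hc q t y 0 n = hc q t 0 0 n := by
  induction n using Nat.strong_induction_on with
  | _ n ih =>
    rcases n with _ | n
    · simp [hc_zero]
    · rw [hc_succ, hc_succ]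
      congr 2
      refine Finset.sum_congr rfl fun k _ => ?_
      rw [ih _ (by omega)]
      simp

theorem Hf_zero_u (q t y : A) (v : ℝ) : Hf q t y 0 v = Hf q t 0 0 v := by
  simp only [Hf, hc_zero_u q t y]

/-- the solution `~ z^a` at `0` of `G' = (a/z + b/(z-1)) G`. -/
noncomputable def Gf (a b : A) (z : ℝ) : A := Hf a b 0 0 z * exp (Real.log z • a)

/-- the solution near the vertex. -/
noncomputable def Wf (p q r t y : A) (u v : ℝ) : A :=
  Hf q t y u v * exp (Real.log v • q) * Gf p r u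

/-- connection coefficient in `v` -/
noncomputable def Ov (q t y : A) (u v : ℝ) : A :=
  v⁻¹ • q - (1 - v)⁻¹ • t - (u * (1 - u * v)⁻¹) • y

/-- connection coefficient in `u` -/
noncomputable def Ou (p r y : A) (u v : ℝ) : A := Xf p r u - (v * (1 - u * v)⁻¹) • y

variable [CompleteSpace A]

theorem hasDerivAt_E (q : A) {β β' : ℝ → ℝ} {s : ℝ} (hβ : HasDerivAt β (β' s) s) (h0 : β s ≠ 0) :
    HasDerivAt (fun s => exp (Real.log (β s) • q))
      ((β' s * (β s)⁻¹) • (q * exp (Real.log (β s) • q))) s := by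
  have h1 := (hasDerivAt_exp_smul_const' (𝕂 := ℝ) q (Real.log (β s)))
  have h2 : HasDerivAt (fun s => Real.log (β s)) (β' s * (β s)⁻¹) s := by
    have := hβ.log h0
    rwa [div_eq_mul_inv] at this
  exact h1.scomp s h2

theorem hasDerivAt_Gf_curve {a : A} (b : A) (ha : IsNilpotent a) {β β' : ℝ → ℝ} {s : ℝ}
    (hβ : ∀ᶠ s in 𝓝 s, HasDerivAt β (β' s) s) (hβ' : ContinuousAt β' s)
    (hβ0 : 0 < β s) (hβ1 : β s < 1) :
    HasDerivAt (fun s => Gf a b (β s)) (β' s • (Xf a b (β s) * Gf a b (β s))) s := by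
  have h1 := hasDerivAt_Hf_const ha b 0 (u := 0) (by simp) hβ hβ' hβ0 hβ1
  have h2 := hasDerivAt_E a (hβ.self_of_nhds) hβ0.ne'
  refine (h1.mul h2).congr_deriv ?_
  have hc : Commute a (exp (Real.log (β s) • a)) := ((Commute.refl a).smul_right _).exp_right
  have hb1 : β s - 1 ≠ 0 := by linarith
  have e1 : (β s - 1)⁻¹ = -(1 - β s)⁻¹ := by rw [← neg_sub, inv_neg]
  rw [Hv, Gf, Xf, e1]
  generalize exp (Real.log (β s) • a) = E at *
  generalize Hf a b 0 0 (β s) = H
  simp only [zero_mul, add_zero, smul_zero]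
  rw [mul_smul_comm, ← mul_assoc H a E]
  simp only [smul_sub, sub_mul, add_mul, smul_mul_assoc, smul_add, smul_smul, neg_smul, mul_assoc,
    smul_neg, neg_mul]
  abel

theorem hasDerivAt_Wf_curve {p q r t y : A} (h : Rel p q r t y) (hp : IsNilpotent p)
    (hq : IsNilpotent q)
    {α α' β β' : ℝ → ℝ} {s : ℝ}
    (hα : ∀ᶠ s in 𝓝 s, HasDerivAt α (α' s) s) (hα' : ContinuousAt α' s)
    (hβ : ∀ᶠ s in 𝓝 s, HasDerivAt β (β' s) s) (hβ' : ContinuousAt β' s)
    (hα0 : 0 < α s) (hα1 : α s < 1) (hβ0 : 0 < β s) (hβ1 : β s < 1) :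
    HasDerivAt (fun s => Wf p q r t y (α s) (β s))
      ((β' s • Ov q t y (α s) (β s) + α' s • Ou p r y (α s) (β s)) * Wf p q r t y (α s) (β s)) s := by
  have h1 := hasDerivAt_Hf_curve h hq hα hα' hβ hβ' hα0 hα1 hβ0 hβ1
  have h2 := hasDerivAt_E q (hβ.self_of_nhds) hβ0.ne'
  have h3 := hasDerivAt_Gf_curve r hp hα hα' hα0 hα1
  refine ((h1.fun_mul h2).fun_mul h3).congr_deriv ?_
  have hqX : Commute q (Xf p r (α s)) := by
    unfold Xf
    exact (Commute.smul_right (show Commute q p from h.pq.symm) _).add_right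
      (Commute.smul_right (show Commute q r from h.qr) _)
  have hX : Xf p r (α s) * exp (Real.log (β s) • q) = exp (Real.log (β s) • q) * Xf p r (α s) :=
    ((hqX.symm.smul_right _).exp_right).eq
  have hc : Commute q (exp (Real.log (β s) • q)) := ((Commute.refl q).smul_right _).exp_right
  have hE : exp (Real.log (β s) • q) * q = q * exp (Real.log (β s) • q) := hc.eq.symm
  rw [Hv, Hu, Wf, Ov, Ou]
  generalize exp (Real.log (β s) • q) = E at *
  generalize Hf q t y (α s) (β s) = H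
  generalize Gf p r (α s) = G
  generalize Xf p r (α s) = X at *
  have hX' : ∀ Z, E * (X * Z) = X * (E * Z) := fun Z => by rw [← mul_assoc, ← hX, mul_assoc]
  have hE' : ∀ Z, E * (q * Z) = q * (E * Z) := fun Z => by rw [← mul_assoc, hE, mul_assoc]
  simp only [mul_assoc, add_mul, sub_mul, smul_mul_assoc, mul_smul_comm, smul_add,
    smul_sub, hX', smul_smul]
  module

section Op
open MulOpposite

omit [NormedAlgebra ℝ A] [CompleteSpace A] in
theorem rel_op {p q r t y : A} (h : Rel p q r t y) :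
    Rel (op (-p)) (op (-q)) (op (-r)) (op (-t)) (op (-y)) := by
  have key : ∀ a b : A, op (-a) * op (-b) - op (-b) * op (-a) = -op (a * b - b * a) := by
    intro a b
    rw [← op_mul, ← op_mul, ← op_sub, ← op_neg]
    congr 1
    noncomm_ring
  have key0 : ∀ a b : A, a * b = b * a → op (-a) * op (-b) = op (-b) * op (-a) := by
    intro a b hab
    rw [← op_mul, ← op_mul, neg_mul_neg, neg_mul_neg, hab]
  refine ⟨key0 _ _ h.pq, key0 _ _ h.qr, key0 _ _ h.tp, ?_, ?_, ?_⟩
  · rw [key, key, h.ty]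
  · rw [key, key, h.ry]
  · rw [key, key, key, ← h.py]
    simp only [op_sub]
    abel

/-- the inverse solutions -/
noncomputable def Gt (a b : A) (z : ℝ) : A := unop (Gf (op (-a)) (op (-b)) z)

/-- the inverse solutions -/
noncomputable def Wt (p q r t y : A) (u v : ℝ) : A :=
  unop (Wf (op (-p)) (op (-q)) (op (-r)) (op (-t)) (op (-y)) u v)

/-- the inverse regular factor -/
noncomputable def Ht (q t y : A) (u v : ℝ) : A := unop (Hf (op (-q)) (op (-t)) (op (-y)) u v)

omit [NormedAlgebra ℝ A] [CompleteSpace A] in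
theorem nilp_op {q : A} (hq : IsNilpotent q) : IsNilpotent (op (-q)) := by
  obtain ⟨n, hn⟩ := hq
  refine ⟨n, ?_⟩
  rw [← op_pow, neg_pow, hn, mul_zero, op_zero]

omit [CompleteSpace A] in
theorem Gt_eq (a b : A) (z : ℝ) : Gt a b z = exp (-(Real.log z • a)) * Ht a b 0 0 z := by
  rw [Gt, Gf, unop_mul, Ht, ← exp_unop, unop_smul, unop_op, smul_neg]
  simp

omit [CompleteSpace A] in
theorem Wt_eq (p q r t y : A) (u v : ℝ) : Wt p q r t y u v =
    Gt p r u * (exp (-(Real.log v • q)) * Ht q t y u v) := by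
  rw [Wt, Wf, unop_mul, unop_mul, Ht, Gt, ← exp_unop, unop_smul, unop_op, smul_neg]

omit [CompleteSpace A] in
theorem hasDerivAt_unop {f : ℝ → Aᵐᵒᵖ} {f' : Aᵐᵒᵖ} {s : ℝ} (h : HasDerivAt f f' s) :
    HasDerivAt (fun s => unop (f s)) (unop f') s :=
  ((opContinuousLinearEquiv ℝ (M := A)).symm : Aᵐᵒᵖ →L[ℝ] A).hasFDerivAt.comp_hasDerivAt s h

theorem hasDerivAt_Gt_curve {a : A} (b : A) (ha : IsNilpotent a) {β β' : ℝ → ℝ} {s : ℝ}
    (hβ : ∀ᶠ s in 𝓝 s, HasDerivAt β (β' s) s) (hβ' : ContinuousAt β' s)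
    (hβ0 : 0 < β s) (hβ1 : β s < 1) :
    HasDerivAt (fun s => Gt a b (β s)) (-(β' s • (Gt a b (β s) * Xf a b (β s)))) s := by
  have h1 := hasDerivAt_unop (hasDerivAt_Gf_curve (op (-b)) (nilp_op ha) hβ hβ' hβ0 hβ1)
  refine h1.congr_deriv ?_
  rw [unop_smul, unop_mul, Gt]
  have : unop (Xf (op (-a)) (op (-b)) (β s)) = - Xf a b (β s) := by
    simp [Xf]; abel
  rw [this, mul_neg, smul_neg]

theorem hasDerivAt_Wt_curve {p q r t y : A} (h : Rel p q r t y) (hp : IsNilpotent p)
    (hq : IsNilpotent q)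
    {α α' β β' : ℝ → ℝ} {s : ℝ}
    (hα : ∀ᶠ s in 𝓝 s, HasDerivAt α (α' s) s) (hα' : ContinuousAt α' s)
    (hβ : ∀ᶠ s in 𝓝 s, HasDerivAt β (β' s) s) (hβ' : ContinuousAt β' s)
    (hα0 : 0 < α s) (hα1 : α s < 1) (hβ0 : 0 < β s) (hβ1 : β s < 1) :
    HasDerivAt (fun s => Wt p q r t y (α s) (β s))
      (-(Wt p q r t y (α s) (β s) * (β' s • Ov q t y (α s) (β s) + α' s • Ou p r y (α s) (β s)))) s := by
  have h1 := hasDerivAt_unop (hasDerivAt_Wf_curve (rel_op h) (nilp_op hp) (nilp_op hq) hα hα' hβ hβ'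
    hα0 hα1 hβ0 hβ1)
  refine h1.congr_deriv ?_
  rw [unop_mul, Wt, ← mul_neg]
  congr 1
  simp only [Ov, Ou, Xf, unop_add, unop_smul, unop_sub, unop_op]
  simp only [smul_neg]
  module

end Op

end Crest.Agent.R010.KZ
end

-- ▼ part R010/KZf
section

/-! Row 10, module (E), analysis part 6 (helper819): limits, inverses, the pentagon. -/

set_option autoImplicit false

open Filter Topology NormedSpace

namespace Crest.Agent.R010.KZ

variable {A : Type*} [NormedRing A] [NormedAlgebra ℝ A] [CompleteSpace A]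

theorem exp_add_comm' {x y : A} (h : Commute x y) : exp (x + y) = exp x * exp y := by
  letI : NormedAlgebra ℚ A := NormedAlgebra.restrictScalars ℚ ℝ A
  exact exp_add_of_commute h

theorem exp_cont : Continuous (exp : A → A) := by
  letI : NormedAlgebra ℚ A := NormedAlgebra.restrictScalars ℚ ℝ A
  exact exp_continuous

theorem exp_mul_exp_neg (x : A) : exp x * exp (-x) = 1 := by
  rw [← exp_add_comm' ((Commute.refl _).neg_right)]; simp

theorem exp_neg_mul_exp (x : A) : exp (-x) * exp x = 1 := by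
  rw [← exp_add_comm' ((Commute.refl _).neg_left)]; simp

/-- conjugation by `exp(s q)` -/
noncomputable def cj (q : A) (s : ℝ) (Z : A) : A := exp (s • q) * Z * exp (-(s • q))

omit [CompleteSpace A] in
theorem cj_adL (q : A) (s : ℝ) (Z : A) : adL q (cj q s Z) = cj q s (adL q Z) := by
  have h1 : q * exp (s • q) = exp (s • q) * q := (((Commute.refl q).smul_right s).exp_right).eq
  have h2 : exp (-(s • q)) * q = q * exp (-(s • q)) :=
    (((Commute.refl q).smul_right s).neg_right.exp_right).eq.symm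
  simp only [adL_apply, cj]
  rw [← mul_assoc, ← mul_assoc, h1, mul_assoc _ _ q, h2]
  noncomm_ring

theorem cj_of_commute {q : A} {s : ℝ} {Z : A} (h : adL q Z = 0) : cj q s Z = Z := by
  rw [adL_apply, sub_eq_zero] at h
  have h1 : Commute Z (exp (s • q)) := ((show Commute Z q from h.symm).smul_right s).exp_right
  rw [cj, ← h1.eq, mul_assoc, exp_mul_exp_neg, mul_one]

theorem cj_cj (q : A) (s s' : ℝ) (Z : A) : cj q s (cj q s' Z) = cj q (s + s') Z := by
  have e1 : exp (s • q) * exp (s' • q) = exp ((s + s') • q) := by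
    rw [← exp_add_comm' (((Commute.refl q).smul_right s').smul_left s), add_smul]
  have e2 : exp (-(s' • q)) * exp (-(s • q)) = exp (-((s + s') • q)) := by
    rw [← exp_add_comm' ((((Commute.refl q).smul_right s).smul_left s').neg_left.neg_right),
      add_smul]
    congr 1
    abel
  rw [cj, cj, cj, ← e1, ← e2]
  noncomm_ring

omit [CompleteSpace A] in
theorem cj_continuous (q : A) (s : ℝ) : Continuous (cj q s) := by
  unfold cj
  fun_prop

theorem eq_zero_of_cj_tendsto_zero {q : A} (hq : IsNilpotent q) {D : A} {l : Filter ℝ} [l.NeBot]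
    (h : Tendsto (fun s => cj q s D) l (𝓝 0)) : D = 0 := by
  obtain ⟨K, hK⟩ := adL_nilpotent hq
  have key : ∀ k, ((adL q) ^ (K - k)) D = 0 := by
    intro k
    induction k with
    | zero => rw [Nat.sub_zero, hK]; rfl
    | succ k ih =>
      rcases Nat.lt_or_ge k K with hk | hk
      · have e : K - k = (K - (k + 1)) + 1 := by omega
        rw [e, pow_succ', mul_apply_eq_comp] at ih
        have h1 : ∀ m s, ((adL q) ^ m) (cj q s D) = cj q s (((adL q) ^ m) D) := by
          intro m s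
          induction m with
          | zero => simp
          | succ m ihm => rw [pow_succ', mul_apply_eq_comp, mul_apply_eq_comp, ihm, cj_adL]
        have h2 : ∀ s, ((adL q) ^ (K - (k + 1))) (cj q s D) = ((adL q) ^ (K - (k + 1))) D :=
          fun s => by rw [h1, cj_of_commute ih]
        have h3 : Tendsto (fun s => ((adL q) ^ (K - (k + 1))) (cj q s D)) l
            (𝓝 (((adL q) ^ (K - (k + 1))) 0)) :=
          ((ContinuousLinearMap.continuous _).tendsto _).comp h
        simp only [h2, map_zero] at h3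
        exact tendsto_nhds_unique tendsto_const_nhds h3
      · rw [show K - (k + 1) = K - k by omega]; exact ih
  have := key K
  simpa using this

/-- a conjugate by `exp(s q)` that converges as `s → -∞` has the obvious limit. -/
theorem eq_of_cj_tendsto {q : A} (hq : IsNilpotent q) {C L : A}
    (h : Tendsto (fun s => cj q s C) atBot (𝓝 L)) : C = L := by
  have hL : ∀ σ, cj q σ L = L := by
    intro σ
    have h1 : Tendsto (fun s => cj q σ (cj q s C)) atBot (𝓝 (cj q σ L)) :=
      ((cj_continuous q σ).tendsto _).comp h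
    simp only [cj_cj] at h1
    have h2 : Tendsto (fun s => cj q (σ + s) C) atBot (𝓝 L) :=
      h.comp (tendsto_atBot_add_const_left _ σ tendsto_id)
    exact tendsto_nhds_unique h1 h2
  have h0 : Tendsto (fun s => cj q s (C - L)) atBot (𝓝 0) := by
    have h1 : ∀ s, cj q s (C - L) = cj q s C - L := by
      intro s
      conv_rhs => rw [← hL s]
      rw [cj, cj, cj]
      noncomm_ring
    simp only [h1]
    have := h.sub_const L
    rwa [sub_self] at this
  exact sub_eq_zero.1 (eq_zero_of_cj_tendsto_zero hq h0)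

theorem eq_of_cj_log_tendsto {q : A} (hq : IsNilpotent q) {C L : A} {M : ℝ → A}
    (hM : ∀ᶠ v in 𝓝[>] (0 : ℝ), cj q (Real.log v) C = M v)
    (h : Tendsto M (𝓝[>] 0) (𝓝 L)) : C = L := by
  have h1 : Tendsto (fun v => cj q (Real.log v) C) (𝓝[>] 0) (𝓝 L) :=
    h.congr' (hM.mono fun v hv => hv.symm)
  refine eq_of_cj_tendsto hq ?_
  have h2 := h1.comp Real.tendsto_exp_atBot_nhdsGT
  simpa [Function.comp_def] using h2

end Crest.Agent.R010.KZ
end

-- ▼ part R010/KZg
section

/-! Row 10, module (E), analysis part 7 (helper819): inverses and the pentagon equation. -/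

set_option autoImplicit false

open Filter Topology NormedSpace

namespace Crest.Agent.R010.KZ

variable {A : Type*} [NormedRing A] [NormedAlgebra ℝ A]

theorem const_on_Ioo {f : ℝ → A} (hf : ∀ s, 0 < s → s < 1 → HasDerivAt f 0 s) {s s' : ℝ}
    (h0 : 0 < s) (h1 : s < 1) (h0' : 0 < s') (h1' : s' < 1) : f s = f s' := by
  refine isOpen_Ioo.is_const_of_deriv_eq_zero (s := Set.Ioo (0 : ℝ) 1) isPreconnected_Ioo
    (fun x hx => (hf x hx.1 hx.2).differentiableAt.differentiableWithinAt)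
    (fun x hx => (hf x hx.1 hx.2).deriv) ⟨h0, h1⟩ ⟨h0', h1'⟩

variable [CompleteSpace A]

omit [CompleteSpace A] in
theorem Ht_zero (q t y : A) (u : ℝ) : Ht q t y u 0 = 1 := by
  rw [Ht, Hf_zero]; rfl

omit [CompleteSpace A] in
theorem Ht_zero_u (q t y : A) (v : ℝ) : Ht q t y 0 v = Ht q t 0 0 v := by
  rw [Ht, Hf_zero_u, Ht, Hf_zero_u _ _ (MulOpposite.op (-0))]

theorem tendsto_Ht {q : A} (hq : IsNilpotent q) (t y : A) {α : Type*} {l : Filter α}
    {a b : α → ℝ} {u v : ℝ} (ha : Tendsto a l (𝓝 u)) (hb : Tendsto b l (𝓝 v))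
    (ha1 : ∀ᶠ s in l, |a s| ≤ 1) (hu : |u| ≤ 1) (hv : |v| < 1) :
    Tendsto (fun s => Ht q t y (a s) (b s)) l (𝓝 (Ht q t y u v)) :=
  (MulOpposite.continuous_unop.tendsto _).comp
    (tendsto_Hf (nilp_op hq) (MulOpposite.op (-t)) (MulOpposite.op (-y)) ha hb ha1 hu hv)

omit [CompleteSpace A] in
theorem Gt_commute {c a b : A} (ha : IsNilpotent a) (hca : Commute c a) (hcb : Commute c b)
    (z : ℝ) : Commute c (Gt a b z) := by
  rw [Gt_eq]
  refine ((hca.smul_right _).neg_right.exp_right).mul_right ?_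
  have h : Commute (MulOpposite.op c) (Hf (MulOpposite.op (-a)) (MulOpposite.op (-b))
      (MulOpposite.op (-0)) 0 z) := by
    refine Hf_commute (nilp_op ha) ?_ ?_ ?_ 0 z
    · exact (hca.neg_right).op
    · exact (hcb.neg_right).op
    · simp
  exact h.unop

omit [CompleteSpace A] in
theorem Gf_commute {c a b : A} (ha : IsNilpotent a) (hca : Commute c a) (hcb : Commute c b)
    (z : ℝ) : Commute c (Gf a b z) := by
  rw [Gf]
  exact (Hf_commute ha hca hcb (Commute.zero_right _) 0 z).mul_right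
    ((hca.smul_right _).exp_right)

theorem Gt_mul_Gf {a : A} (b : A) (ha : IsNilpotent a) {z : ℝ} (h0 : 0 < z) (h1 : z < 1) :
    Gt a b z * Gf a b z = 1 := by
  have hd : ∀ s, 0 < s → s < 1 → HasDerivAt (fun z => Gt a b z * Gf a b z) 0 s := by
    intro s h0 h1
    have hid : ∀ᶠ s in 𝓝 s, HasDerivAt (fun s : ℝ => s) 1 s :=
      Eventually.of_forall fun s => hasDerivAt_id s
    have e1 := hasDerivAt_Gt_curve (β := fun s => s) (β' := fun _ => 1) b ha hid
      continuousAt_const h0 h1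
    have e2 := hasDerivAt_Gf_curve (β := fun s => s) (β' := fun _ => 1) b ha hid
      continuousAt_const h0 h1
    refine (e1.fun_mul e2).congr_deriv ?_
    simp only [one_smul]
    noncomm_ring
  refine eq_of_cj_log_tendsto ha (M := fun v => Ht a b 0 0 v * Hf a b 0 0 v) ?_ ?_
  · filter_upwards [Ioo_mem_nhdsGT (show (0 : ℝ) < 1 by norm_num)] with v hv
    rw [const_on_Ioo hd h0 h1 hv.1 hv.2, Gt_eq, Gf, cj]
    calc exp (Real.log v • a) * (exp (-(Real.log v • a)) * Ht a b 0 0 v *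
          (Hf a b 0 0 v * exp (Real.log v • a))) * exp (-(Real.log v • a))
        = (exp (Real.log v • a) * exp (-(Real.log v • a))) * (Ht a b 0 0 v * Hf a b 0 0 v) *
          (exp (Real.log v • a) * exp (-(Real.log v • a))) := by noncomm_ring
      _ = _ := by rw [exp_mul_exp_neg, one_mul, mul_one]
  · have hv : Tendsto (fun v : ℝ => v) (𝓝[>] 0) (𝓝 0) := tendsto_id.mono_left nhdsWithin_le_nhds
    have hu : Tendsto (fun _ : ℝ => (0 : ℝ)) (𝓝[>] 0) (𝓝 0) := tendsto_const_nhds
    have e1 := tendsto_Ht ha b 0 hu hv (by simp) (by simp) (by simp)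
    have e2 := tendsto_Hf ha b 0 hu hv (by simp) (by simp) (by simp)
    have := e1.mul e2
    rwa [Ht_zero, Hf_zero, one_mul] at this

theorem Wt_mul_Wf {p q r t y : A} (h : Rel p q r t y) (hp : IsNilpotent p)
    (hq : IsNilpotent q) {u v : ℝ} (hu0 : 0 < u) (hu1 : u < 1) (hv0 : 0 < v) (hv1 : v < 1) :
    Wt p q r t y u v * Wf p q r t y u v = 1 := by
  have hd : ∀ s, 0 < s → s < 1 →
      HasDerivAt (fun v => Wt p q r t y u v * Wf p q r t y u v) 0 s := by
    intro s h0 h1
    have hid : ∀ᶠ s in 𝓝 s, HasDerivAt (fun s : ℝ => s) 1 s :=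
      Eventually.of_forall fun s => hasDerivAt_id s
    have hcu : ∀ᶠ s in 𝓝 s, HasDerivAt (fun _ : ℝ => u) 0 s :=
      Eventually.of_forall fun s => hasDerivAt_const s u
    have e1 := hasDerivAt_Wt_curve (α := fun _ => u) (α' := fun _ => 0) (β := fun s => s)
      (β' := fun _ => 1) h hp hq hcu continuousAt_const hid continuousAt_const hu0 hu1 h0 h1
    have e2 := hasDerivAt_Wf_curve (α := fun _ => u) (α' := fun _ => 0) (β := fun s => s)
      (β' := fun _ => 1) h hp hq hcu continuousAt_const hid continuousAt_const hu0 hu1 h0 h1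
    refine (e1.fun_mul e2).congr_deriv ?_
    noncomm_ring
  have hG := Gt_mul_Gf r hp hu0 hu1
  have hqG : Commute q (Gf p r u) := Gf_commute hp h.pq.symm h.qr u
  have hqGt : Commute q (Gt p r u) := Gt_commute hp h.pq.symm h.qr u
  refine eq_of_cj_log_tendsto hq (M := fun v => Gt p r u * (Ht q t y u v * Hf q t y u v) * Gf p r u)
    ?_ ?_
  · filter_upwards [Ioo_mem_nhdsGT (show (0 : ℝ) < 1 by norm_num)] with v hv
    rw [const_on_Ioo hd hv0 hv1 hv.1 hv.2, Wt_eq, Wf, cj]
    have c1 : exp (Real.log v • q) * Gt p r u = Gt p r u * exp (Real.log v • q) :=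
      ((hqGt.symm.smul_right _).exp_right).eq.symm
    have c2 : Gf p r u * exp (-(Real.log v • q)) = exp (-(Real.log v • q)) * Gf p r u :=
      ((hqG.symm.smul_right _).neg_right.exp_right).eq
    calc exp (Real.log v • q) * (Gt p r u * (exp (-(Real.log v • q)) * Ht q t y u v) *
          (Hf q t y u v * exp (Real.log v • q) * Gf p r u)) * exp (-(Real.log v • q))
        = (exp (Real.log v • q) * Gt p r u) * (exp (-(Real.log v • q)) * Ht q t y u v *
          Hf q t y u v * exp (Real.log v • q)) * (Gf p r u * exp (-(Real.log v • q))) := by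
          noncomm_ring
      _ = Gt p r u * (exp (Real.log v • q) * exp (-(Real.log v • q))) *
          (Ht q t y u v * Hf q t y u v) * (exp (Real.log v • q) * exp (-(Real.log v • q))) *
          Gf p r u := by
          rw [c1, c2]; noncomm_ring
      _ = _ := by rw [exp_mul_exp_neg, mul_one, mul_one]
  · have hv : Tendsto (fun v : ℝ => v) (𝓝[>] 0) (𝓝 0) := tendsto_id.mono_left nhdsWithin_le_nhds
    have hu : Tendsto (fun _ : ℝ => u) (𝓝[>] 0) (𝓝 u) := tendsto_const_nhds
    have hu' : |u| ≤ 1 := by rw [abs_of_pos hu0]; exact hu1.le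
    have e1 := tendsto_Ht hq t y hu hv (Eventually.of_forall fun _ => hu') hu' (by simp)
    have e2 := tendsto_Hf hq t y hu hv (Eventually.of_forall fun _ => hu') hu' (by simp)
    have := ((e1.mul e2).const_mul (Gt p r u)).mul_const (Gf p r u)
    rwa [Ht_zero, Hf_zero, one_mul, mul_one, hG] at this

/-- the regularised transport from `0` to `1`. -/
noncomputable def Phi (a b : A) : A := Gt b a (1 / 2) * Gf a b (1 / 2)

theorem Phi_eq {a b : A} (ha : IsNilpotent a) (hb : IsNilpotent b) {z : ℝ} (h0 : 0 < z)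
    (h1 : z < 1) : Gt b a (1 - z) * Gf a b z = Phi a b := by
  have hd : ∀ s, 0 < s → s < 1 → HasDerivAt (fun z => Gt b a (1 - z) * Gf a b z) 0 s := by
    intro s h0 h1
    have hid : ∀ᶠ s in 𝓝 s, HasDerivAt (fun s : ℝ => s) 1 s :=
      Eventually.of_forall fun s => hasDerivAt_id s
    have hid' : ∀ᶠ s in 𝓝 s, HasDerivAt (fun s : ℝ => 1 - s) (-1) s :=
      Eventually.of_forall fun s => by simpa using (hasDerivAt_id s).const_sub 1
    have e1 := hasDerivAt_Gt_curve (β := fun s => 1 - s) (β' := fun _ => -1) a hb hid'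
      continuousAt_const (by linarith) (by linarith)
    have e2 := hasDerivAt_Gf_curve (β := fun s => s) (β' := fun _ => 1) b ha hid
      continuousAt_const h0 h1
    refine (e1.fun_mul e2).congr_deriv ?_
    have e3 : (1 - s - 1)⁻¹ = -s⁻¹ := by rw [← inv_neg]; congr 1; ring
    have e4 : (s - 1)⁻¹ = -(1 - s)⁻¹ := by rw [← inv_neg]; congr 1; ring
    simp only [Xf, e3, e4, one_smul, neg_smul, neg_neg, mul_add, add_mul, smul_mul_assoc,
      mul_smul_comm, mul_assoc, mul_neg, neg_mul]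
    abel
  have := const_on_Ioo hd h0 h1 (show (0 : ℝ) < 1 / 2 by norm_num) (by norm_num)
  rw [this, Phi]
  norm_num

end Crest.Agent.R010.KZ
end

-- ▼ part R010/KZh

/-! Row 10, module (E), analysis part 8 (helper819): the edge comparison and the pentagon. -/

set_option autoImplicit false

open Filter Topology NormedSpace

namespace Crest.Agent.R010.KZ

variable {A : Type*} [NormedRing A] [NormedAlgebra ℝ A] [CompleteSpace A]

/-- the relations of the five residues along the boundary of the cell. -/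
structure Pent (p q r s t : A) : Prop where
  pq : p * q = q * p
  qr : q * r = r * q
  rs : r * s = s * r
  st : s * t = t * s
  tp : t * p = p * t
  sum : (p * r - r * p) + (q * s - s * q) + (r * t - t * r) + (s * p - p * s) + (t * q - q * t) = 0

omit [NormedAlgebra ℝ A] [CompleteSpace A] in
theorem Pent.rot {p q r s t : A} (h : Pent p q r s t) : Pent q r s t p := by
  refine ⟨h.qr, h.rs, h.st, h.tp, h.pq, ?_⟩
  rw [← h.sum]; abel

omit [NormedAlgebra ℝ A] [CompleteSpace A] in
theorem Pent.rel {p q r s t : A} (h : Pent p q r s t) : Rel p q r t (s - r - t) := by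
  have h1 := h.rs
  have h2 := h.st
  have h3 := h.tp
  have h4 := h.qr
  have h5 := h.sum
  refine ⟨h.pq, h.qr, h.tp, ?_, ?_, ?_⟩
  · have : t * (s - r - t) - (s - r - t) * t = (r * t - t * r) - (s * t - t * s) := by noncomm_ring
    rw [this, h2, sub_self, sub_zero]
  · have : r * (s - r - t) - (s - r - t) * r = (t * r - r * t) + (r * s - s * r) := by noncomm_ring
    rw [this, h1, sub_self, add_zero]
  · have e : (p * (s - r - t) - (s - r - t) * p) - (r * t - t * r) =
        q * (s - r - t) - (s - r - t) * q + (q * r - r * q) + (t * p - p * t)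
        - ((p * r - r * p) + (q * s - s * q) + (r * t - t * r) + (s * p - p * s) +
          (t * q - q * t)) := by
      noncomm_ring
    rw [e, h5, h4, h3]; simp

/-- comparison of two neighbouring vertex solutions along their common edge. -/
theorem edge {p q r s t : A} (h : Pent p q r s t) (hp : IsNilpotent p) (hq : IsNilpotent q)
    (hr : IsNilpotent r) {u v : ℝ} (hu0 : 0 < u) (hu1 : u < 1) (hv0 : 0 < v) (hv1 : v < 1) :
    Wt q r s p (t - s - p) v ((1 - u) / (1 - u * v)) * Wf p q r t (s - r - t) u v = Phi p r := by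
  set φ : ℝ → ℝ := fun v => (1 - u) / (1 - u * v) with hφ
  set φ' : ℝ → ℝ := fun v => (1 - u) * u / (1 - u * v) ^ 2 with hφ'
  have hpos : ∀ w : ℝ, 0 < w → w < 1 → 0 < 1 - u * w := fun w h0 h1 => by nlinarith
  have hφd : ∀ w : ℝ, 0 < w → w < 1 → HasDerivAt φ (φ' w) w := by
    intro w h0 h1
    have h2 : HasDerivAt (fun v : ℝ => 1 - u * v) (-u) w := by
      simpa using ((hasDerivAt_id w).const_mul u).const_sub 1
    have h3 := (hasDerivAt_const w (1 - u)).div h2 (hpos w h0 h1).ne'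
    refine h3.congr_deriv ?_
    simp only [hφ']
    ring
  have hd : ∀ w, 0 < w → w < 1 → HasDerivAt
      (fun v => Wt q r s p (t - s - p) v (φ v) * Wf p q r t (s - r - t) u v) 0 w := by
    intro w h0 h1
    have hw := hpos w h0 h1
    have hid : ∀ᶠ s in 𝓝 w, HasDerivAt (fun s : ℝ => s) 1 s :=
      Eventually.of_forall fun s => hasDerivAt_id s
    have hcu : ∀ᶠ s in 𝓝 w, HasDerivAt (fun _ : ℝ => u) 0 s :=
      Eventually.of_forall fun s => hasDerivAt_const s u
    have hphi : ∀ᶠ s in 𝓝 w, HasDerivAt φ (φ' s) s := by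
      filter_upwards [Ioo_mem_nhds h0 h1] with z hz using hφd z hz.1 hz.2
    have hφ'c : ContinuousAt φ' w := by
      simp only [hφ']
      refine ContinuousAt.div (by fun_prop) (by fun_prop) (by positivity)
    have hφ0 : 0 < φ w := div_pos (by linarith) hw
    have hφ1 : φ w < 1 := by
      rw [hφ, div_lt_one hw]; nlinarith
    have e1 := hasDerivAt_Wt_curve (α := fun v => v) (α' := fun _ => 1) (β := φ)
      (β' := φ') h.rot.rel hq hr hid continuousAt_const hphi hφ'c h0 h1 hφ0 hφ1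
    have e2 := hasDerivAt_Wf_curve (α := fun _ => u) (α' := fun _ => 0) (β := fun s => s)
      (β' := fun _ => 1) h.rel hp hq hcu continuousAt_const hid continuousAt_const hu0 hu1 h0 h1
    refine (e1.fun_mul e2).congr_deriv ?_
    have key : φ' w • Ov r p (t - s - p) w (φ w) + (1 : ℝ) • Ou q s (t - s - p) w (φ w) =
        (1 : ℝ) • Ov q t (s - r - t) u w + (0 : ℝ) • Ou p r (s - r - t) u w := by
      have hu1' : (1 - u) ≠ 0 := by linarith
      have hw1' : (1 - w) ≠ 0 := by linarith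
      have hw1'' : (w - 1) ≠ 0 := by linarith
      have hw' : 1 - u * w ≠ 0 := hw.ne'
      have f1 : 1 - φ w = u * (1 - w) / (1 - u * w) := by
        simp only [hφ]; field_simp; ring
      have f2 : 1 - w * φ w = (1 - w) / (1 - u * w) := by
        simp only [hφ]
        rw [eq_div_iff hw', sub_mul, one_mul, mul_assoc, div_mul_cancel₀ _ hw']
        ring
      simp only [Ov, Ou, Xf, f1, f2]
      simp only [hφ, hφ']
      match_scalars <;> field_simp <;> ring
    rw [key]
    noncomm_ring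
  have hqG : Commute q (Gf p r u) := Gf_commute hp h.pq.symm h.qr u
  refine eq_of_cj_log_tendsto hq
    (M := fun v => Ht q s 0 0 v * exp (-(Real.log (φ v) • r)) * Ht r p (t - s - p) v (φ v) *
      (Hf q t (s - r - t) u v * Gf p r u)) ?_ ?_
  · filter_upwards [Ioo_mem_nhdsGT (show (0 : ℝ) < 1 by norm_num)] with w hw
    have e0 := const_on_Ioo hd hv0 hv1 hw.1 hw.2
    rw [e0, Wt_eq, Wf, Gt_eq, cj]
    have c1 : exp (Real.log w • q) * Gf p r u = Gf p r u * exp (Real.log w • q) :=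
      ((hqG.symm.smul_right _).exp_right).eq.symm
    calc exp (Real.log w • q) * (exp (-(Real.log w • q)) * Ht q s 0 0 w *
          (exp (-(Real.log (φ w) • r)) * Ht r p (t - s - p) w (φ w)) *
          (Hf q t (s - r - t) u w * exp (Real.log w • q) * Gf p r u)) * exp (-(Real.log w • q))
        = (exp (Real.log w • q) * exp (-(Real.log w • q))) * (Ht q s 0 0 w *
          exp (-(Real.log (φ w) • r)) * Ht r p (t - s - p) w (φ w)) *
          (Hf q t (s - r - t) u w * (exp (Real.log w • q) * Gf p r u)) *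
            exp (-(Real.log w • q)) := by noncomm_ring
      _ = (Ht q s 0 0 w *
          exp (-(Real.log (φ w) • r)) * Ht r p (t - s - p) w (φ w)) *
          (Hf q t (s - r - t) u w * Gf p r u) *
            (exp (Real.log w • q) * exp (-(Real.log w • q))) := by
          rw [exp_mul_exp_neg, c1]
          simp only [one_mul, mul_one, mul_assoc, exp_mul_exp_neg]
      _ = _ := by rw [exp_mul_exp_neg, mul_one]
  · have hv : Tendsto (fun v : ℝ => v) (𝓝[>] 0) (𝓝 0) := tendsto_id.mono_left nhdsWithin_le_nhds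
    have hu : Tendsto (fun _ : ℝ => u) (𝓝[>] 0) (𝓝 u) := tendsto_const_nhds
    have h0 : Tendsto (fun _ : ℝ => (0 : ℝ)) (𝓝[>] 0) (𝓝 0) := tendsto_const_nhds
    have hφt : Tendsto φ (𝓝[>] 0) (𝓝 (1 - u)) := by
      have : ContinuousAt φ 0 := by
        simp only [hφ]
        exact ContinuousAt.div (by fun_prop) (by fun_prop) (by simp)
      have h2 := this.tendsto.mono_left (nhdsWithin_le_nhds (s := Set.Ioi 0))
      simpa [hφ] using h2
    have hu' : |u| ≤ 1 := by rw [abs_of_pos hu0]; exact hu1.le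
    have h1u : |1 - u| < 1 := by rw [abs_of_pos (by linarith)]; linarith
    have hv1 : ∀ᶠ v : ℝ in 𝓝[>] 0, |v| ≤ 1 := by
      filter_upwards [Ioo_mem_nhdsGT (show (0 : ℝ) < 1 by norm_num)] with w hw
      rw [abs_of_pos hw.1]; exact hw.2.le
    have e1 := tendsto_Ht hq s 0 h0 hv (by simp) (by simp) (by simp)
    have e2 : Tendsto (fun v => exp (-(Real.log (φ v) • r))) (𝓝[>] 0)
        (𝓝 (exp (-(Real.log (1 - u) • r)))) :=
      (exp_cont.tendsto _).comp (((hφt.log (by linarith)).smul_const r).neg)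
    have e3 := tendsto_Ht hr p (t - s - p) hv hφt hv1 (by simp) h1u
    have e4 := tendsto_Hf hq t (s - r - t) hu hv (Eventually.of_forall fun _ => hu') hu' (by simp)
    have := ((e1.mul e2).mul e3).mul (e4.mul_const (Gf p r u))
    rw [Ht_zero, Hf_zero, one_mul, one_mul, Ht_zero_u, ← Gt_eq, Phi_eq hp hr hu0 hu1] at this
    exact this

/-- the golden ratio point -/
theorem golden : ∃ w : ℝ, 0 < w ∧ w < 1 ∧ (1 - w) / (1 - w * w) = w := by
  have h5 : (Real.sqrt 5) ^ 2 = 5 := Real.sq_sqrt (by norm_num)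
  have h6 : (2 : ℝ) < Real.sqrt 5 := by
    rw [Real.lt_sqrt (by norm_num)]; norm_num
  have h7 : Real.sqrt 5 < 3 := by
    rw [Real.sqrt_lt' (by norm_num)]; norm_num
  refine ⟨(Real.sqrt 5 - 1) / 2, by linarith, by linarith, ?_⟩
  rw [div_eq_iff (by nlinarith)]
  nlinarith

/-- **The pentagon equation.** -/
theorem pentagon [IsDedekindFiniteMonoid A] {a b c d e : A} (h : Pent a b c d e)
    (ha : IsNilpotent a) (hb : IsNilpotent b) (hc : IsNilpotent c) (hd : IsNilpotent d)
    (he : IsNilpotent e) :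
    Phi e b * Phi d a * Phi c e * Phi b d * Phi a c = 1 := by
  obtain ⟨w, h0, h1, hw⟩ := golden
  have E1 := edge h ha hb hc h0 h1 h0 h1
  have E2 := edge h.rot hb hc hd h0 h1 h0 h1
  have E3 := edge h.rot.rot hc hd he h0 h1 h0 h1
  have E4 := edge h.rot.rot.rot hd he ha h0 h1 h0 h1
  have E5 := edge h.rot.rot.rot.rot he ha hb h0 h1 h0 h1
  rw [hw] at E1 E2 E3 E4 E5
  have I1 := mul_eq_one_comm.1 (Wt_mul_Wf h.rel ha hb h0 h1 h0 h1)
  have I2 := mul_eq_one_comm.1 (Wt_mul_Wf h.rot.rel hb hc h0 h1 h0 h1)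
  have I3 := mul_eq_one_comm.1 (Wt_mul_Wf h.rot.rot.rel hc hd h0 h1 h0 h1)
  have I4 := mul_eq_one_comm.1 (Wt_mul_Wf h.rot.rot.rot.rel hd he h0 h1 h0 h1)
  have I5 := mul_eq_one_comm.1 (Wt_mul_Wf h.rot.rot.rot.rot.rel he ha h0 h1 h0 h1)
  have J1 := Wt_mul_Wf h.rel ha hb h0 h1 h0 h1
  rw [← E1, ← E2, ← E3, ← E4, ← E5]
  generalize Wf a b c e (d - c - e) w w = W1 at *
  generalize Wt a b c e (d - c - e) w w = V1 at *
  generalize Wf b c d a (e - d - a) w w = W2 at *
  generalize Wt b c d a (e - d - a) w w = V2 at *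
  generalize Wf c d e b (a - e - b) w w = W3 at *
  generalize Wt c d e b (a - e - b) w w = V3 at *
  generalize Wf d e a c (b - a - c) w w = W4 at *
  generalize Wt d e a c (b - a - c) w w = V4 at *
  generalize Wf e a b d (c - b - d) w w = W5 at *
  generalize Wt e a b d (c - b - d) w w = V5 at *
  calc V1 * W5 * (V5 * W4) * (V4 * W3) * (V3 * W2) * (V2 * W1)
      = V1 * (W5 * V5) * (W4 * V4) * (W3 * V3) * (W2 * V2) * W1 := by noncomm_ring
    _ = 1 := by rw [I5, I4, I3, I2]; simp [J1]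

end Crest.Agent.R010.KZ
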