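import Crest.Agent.R010.GlueC
import Crest.Agent.R010.CDefs
import Crest.Agent.R010.CConv
import Crest.Agent.R010.UBridge2

-- ▼ part R010/GlueD
section

/-! Row 10, module (cC) GLUE, part D (helper379): generation, choice of generators, freeness. -/

set_option autoImplicit false

noncomputable section

namespace Crest.Agent.R010.G

open Crest.NumberTheoryR.GT Crest.Agent.R010
open Crest.Agent.R010.C (LieX wtA bc bc_ι bc_smul Alg X Y dA ih F2 cc adc FF Zc evalZ J0 J1 Fil
  FibrePent UpperBound opS opS_apply opS_one opS_comm opS_add opS_smul bc_opS bc_ih bc_dA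
  iota_ihara cf_dep1_ih ih_mem_wtA ih_mem_LieX op_symbol evalZ_ι evalZ_mem_Fil evalZ_inj
  Fil_antitone Fil_mul_mem Fil_zero Zc_mem_Fil)
open Crest.Agent.R010.Witt (asso asso_of WS BM WS_induction fla_induction exists_hom_sum witt_div
  witt_injective S1_holds weightSubspace_eq iota_eq)

attribute [local instance 100] LieRing.ofAssociativeRing

theorem sum_w3 (l : List ℕ) : (l.map (fun k : ℕ => 2 * k + 3)).sum = 2 * l.sum + 3 * l.length := by
  induction l with
  | nil => simp
  | cons k l ih => simp only [List.map_cons, List.sum_cons, List.length_cons, ih]; ring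

theorem le_sum_of_mem {l : List ℕ} {k : ℕ} (hk : k ∈ l) : k ≤ l.sum := by
  induction l with
  | nil => simp at hk
  | cons j l ih =>
    rcases List.mem_cons.1 hk with rfl | h
    · simp
    · rw [List.sum_cons]; exact (ih h).trans (Nat.le_add_left _ _)

theorem BM_ge {R : Type*} [CommRing R] {m : ℕ} {a : FreeLieAlgebra R ℕ}
    (h : BM R (fun k : ℕ => 2 * k + 3) m a) : 3 ≤ m := by
  induction h with
  | of i => omega
  | lie _ _ h1 h2 => omega

/-- words of `P`, bihomogeneous nonzero -/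
theorem bihom_le {R : Type*} [CommRing R] {P : FreeAlgebra R ℕ} {n N : ℕ}
    (h1 : P ∈ wtA R (fun _ : ℕ => 1) n) (h2 : P ∈ wtA R (fun k : ℕ => 2 * k + 3) N)
    (h3 : P ≠ 0) : 3 * n ≤ N := by
  by_contra h
  apply h3
  apply ext_cf
  intro l
  rw [map_zero]
  by_contra hl
  have e1 := mem_wtA_iff.1 h1 l hl
  have e2 := mem_wtA_iff.1 h2 l hl
  rw [sum_w3] at e2
  simp at e1
  omega

section generation

attribute [-instance] AddCommGroup.toIntModule ZSMul.toSMul

theorem gen (hU : UB2) (hEC : EC) {s : ℕ → Alg ℤ} (hs : ∀ k, s k ∈ Lam (2 * k + 3)) {K : ℕ → Prop}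
    (hgood : ∀ k, K k → bc f2 (Fin 2) (s k) - Zc k ∈ Fil 2) {N : ℕ} (hN : 3 ≤ N) :
    ∀ (m n : ℕ), N < n + m →
    (∀ l : List ℕ, n ≤ l.length → 1 ≤ l.length → (l.map (fun k : ℕ => 2 * k + 3)).sum = N →
      ∀ k ∈ l, K k) →
    ∀ a ∈ Lam N, bc f2 (Fin 2) a ∈ Fil n →
    ∃ u ∈ WS ℤ (fun k : ℕ => 2 * k + 3) N, bc f2 (Fin 2) (a - Ph ℤ s u) = 0 := by
  intro m
  induction m with
  | zero =>
    intro n hn _ a ha hfil
    refine ⟨0, Submodule.zero_mem _, ?_⟩
    rw [map_zero, sub_zero]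
    by_contra h0
    obtain ⟨n', P, h1, h2, h3, h4, h5, h6⟩ := hU N (bc f2 (Fin 2) a) hN
      (bc_mem_sw f2 (Lam_wtA ha)) (bc_mem_LieX f2 (Lam_LieX ha)) (Lam_fibre (by omega) ha) h0
    have h7 := bihom_le h3 h4 h5
    have h8 : bc f2 (Fin 2) a ∈ Fil (n' + 1) := Fil_antitone (by omega) hfil
    have h9 := Submodule.sub_mem _ h8 h6
    rw [sub_sub_cancel] at h9
    exact h5 (evalZ_inj h3 h9)
  | succ m IH =>
    intro n hn hl a ha hfil
    by_cases h0 : bc f2 (Fin 2) a = 0
    · refine ⟨0, Submodule.zero_mem _, ?_⟩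
      rw [map_zero, sub_zero]; exact h0
    obtain ⟨n', P, h1, h2, h3, h4, h5, h6⟩ := hU N (bc f2 (Fin 2) a) hN
      (bc_mem_sw f2 (Lam_wtA ha)) (bc_mem_LieX f2 (Lam_LieX ha)) (Lam_fibre (by omega) ha) h0
    have hnn : n ≤ n' := by
      by_contra hlt
      have h8 : bc f2 (Fin 2) a ∈ Fil (n' + 1) := Fil_antitone (by omega) hfil
      have h9 := Submodule.sub_mem _ h8 h6
      rw [sub_sub_cancel] at h9
      exact h5 (evalZ_inj h3 h9)
    obtain ⟨b, hb, hb1, hb2, hb3⟩ := exists_lift_LieX_hom f2 f2_surjective h2 h3 h4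
    obtain ⟨v, rfl⟩ := mem_LieX_iff.1 hb
    have hv : v ∈ WS ℤ (fun k : ℕ => 2 * k + 3) N := mem_WS_of_asso hb2
    have e1 : bc f2 (Fin 2) (Ph ℤ s v) = Pv F2 (fun k => bc f2 (Fin 2) (s k)) P := by
      rw [Ph_apply, bc_Pv, hb3]
    have e2 : Pv F2 (fun k => bc f2 (Fin 2) (s k)) P - evalZ P ∈ Fil (n' + 1) := by
      apply Pv_mod
      rw [mem_sw_iff]
      intro l hl'
      have e3 := mem_wtA_iff.1 h3 l hl'
      have e4 := mem_wtA_iff.1 h4 l hl'
      have e5 : l.length = n' := by simpa using e3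
      refine ⟨e5, fun k hk => hgood k (hl l ?_ ?_ e4 k hk)⟩ <;> omega
    have e6 : bc f2 (Fin 2) (a - Ph ℤ s v) ∈ Fil (n' + 1) := by
      rw [map_sub, e1]
      have := Submodule.sub_mem _ h6 e2
      rwa [sub_sub_sub_cancel_right] at this
    obtain ⟨u, hu, hu2⟩ := IH (n' + 1) (by omega)
      (fun l hl1 hl2 hl3 k hk => hl l (by omega) hl2 hl3 k hk) (a - Ph ℤ s v)
      (Submodule.sub_mem _ ha (Ph_mem hEC hs hv)) e6
    refine ⟨v + u, Submodule.add_mem _ hv hu, ?_⟩
    rw [map_add, ← sub_sub]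
    exact hu2

/-- the depth one coefficient of a bracket vanishes -/
theorem cf_Ph (hEC : EC) {s : ℕ → Alg ℤ} (hs : ∀ k, s k ∈ Lam (2 * k + 3)) {N : ℕ}
    (h0 : ∀ i, 2 * i + 3 = N → s i = 0) (D : ℕ) {u : FreeLieAlgebra ℤ ℕ}
    (hu : u ∈ WS ℤ (fun k : ℕ => 2 * k + 3) N) : cf (dep1 D) (Ph ℤ s u) = 0 := by
  refine WS_induction (p := fun u => cf (dep1 D) (Ph ℤ s u) = 0) ?_ ?_ ?_ ?_ hu
  · clear hu u
    intro a ha
    cases ha with
    | of i => rw [Ph_of, h0 i rfl, map_zero]
    | lie h1 h2 =>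
      rw [Ph_lie]
      have m1 := Ph_mem hEC hs (Submodule.subset_span h1 : _ ∈ WS ℤ (fun k : ℕ => 2 * k + 3) _)
      have m2 := Ph_mem hEC hs (Submodule.subset_span h2 : _ ∈ WS ℤ (fun k : ℕ => 2 * k + 3) _)
      exact cf_dep1_ih (Lam_LieX m1) (Lam_LieX m2) (by have := BM_ge h1; omega)
        (by have := BM_ge h2; omega) (Lam_wtA m1) (Lam_wtA m2) D
  · rw [map_zero, map_zero]
  · intro a b ha hb; rw [map_add, map_add, ha, hb, add_zero]
  · intro r a ha; rw [map_smul, map_smul, ha, smul_zero]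

theorem exists_two_Lam {N : ℕ} {a : Alg ℤ} (ha : a ∈ Lam N) (h : bc f2 (Fin 2) a = 0) :
    ∃ b ∈ Lam N, a = (2 : ℤ) • b := by
  obtain ⟨b, hb⟩ := exists_two_of_bc_eq_zero h
  have hb' : a = (2 : ℤ) • b := hb
  refine ⟨b, ?_, hb'⟩
  rw [hb'] at ha
  exact Lam_div two_ne_zero ha

theorem exists_good (hU : UB2) (hEC : EC) (hEE : EE) (k : ℕ) :
    ∃ a ∈ Lam (2 * k + 3), bc f2 (Fin 2) a - Zc k ∈ Fil 2 := by
  classical
  induction k using Nat.strong_induction_on with
  | _ k IH =>
    have hch : ∃ s : ℕ → Alg ℤ, (∀ j, s j ∈ Lam (2 * j + 3)) ∧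
        (∀ j, j < k → bc f2 (Fin 2) (s j) - Zc j ∈ Fil 2) ∧ (∀ j, k ≤ j → s j = 0) := by
      choose t ht1 ht2 using IH
      refine ⟨fun j => if h : j < k then t j h else 0, ?_, ?_, ?_⟩
      · intro j
        by_cases h : j < k
        · simp only [dif_pos h]; exact ht1 j h
        · simp only [dif_neg h]; exact Submodule.zero_mem _
      · intro j h
        simp only [dif_pos h]; exact ht2 j h
      · intro j h
        simp only [dif_neg (not_lt.2 h)]
    obtain ⟨s, hs1, hs2, hs3⟩ := hch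
    have key : ∀ (m : ℕ) (a : Alg ℤ), a ∈ Lam (2 * k + 3) → cf (dep1 (2 * k + 3)) a ≠ 0 →
        (cf (dep1 (2 * k + 3)) a).natAbs = m →
        ∃ a ∈ Lam (2 * k + 3), bc f2 (Fin 2) a - Zc k ∈ Fil 2 := by
      intro m
      induction m using Nat.strong_induction_on with
      | _ m IHm =>
        intro a ha hcf hm
        have half : ∀ b ∈ Lam (2 * k + 3), cf (dep1 (2 * k + 3)) a =
            2 * cf (dep1 (2 * k + 3)) b →
            ∃ a ∈ Lam (2 * k + 3), bc f2 (Fin 2) a - Zc k ∈ Fil 2 := by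
          intro b hb hab
          refine IHm (cf (dep1 (2 * k + 3)) b).natAbs ?_ b hb ?_ rfl
          · rw [← hm, hab, Int.natAbs_mul]
            have : cf (dep1 (2 * k + 3)) b ≠ 0 := by
              rintro h; rw [hab, h] at hcf; simp at hcf
            have h1 : 0 < (cf (dep1 (2 * k + 3)) b).natAbs := Int.natAbs_pos.2 this
            simp only [Int.reduceAbs]
            omega
          · rintro h; rw [hab, h] at hcf; simp at hcf
        by_cases h0 : bc f2 (Fin 2) a = 0
        · obtain ⟨b, hb, rfl⟩ := exists_two_Lam ha h0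
          exact half b hb (by rw [map_smul]; rfl)
        obtain ⟨n', P, h1, h2, h3, h4, h5, h6⟩ := hU (2 * k + 3) (bc f2 (Fin 2) a) (by omega)
          (bc_mem_sw f2 (Lam_wtA ha)) (bc_mem_LieX f2 (Lam_LieX ha)) (Lam_fibre (by omega) ha) h0
        rcases Nat.lt_or_ge 1 n' with hn' | hn'
        · -- word degree at least two
          have hfil : bc f2 (Fin 2) a ∈ Fil 2 := by
            have e := Submodule.add_mem _ (Fil_antitone (by omega : 2 ≤ n' + 1) h6)
              (Fil_antitone (by omega : 2 ≤ n') (evalZ_mem_Fil h3))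
            rwa [sub_add_cancel] at e
          obtain ⟨u, hu, hu2⟩ := gen hU hEC hs1 (K := fun j => j < k) hs2 (by omega)
            (2 * k + 3) 2 (by omega) (by
              intro l hl1 _ hl3 j hj
              rw [sum_w3] at hl3
              have := le_sum_of_mem hj
              show j < k
              omega) a ha hfil
          obtain ⟨b, hb, hb2⟩ := exists_two_Lam (Submodule.sub_mem _ ha (Ph_mem hEC hs1 hu)) hu2
          refine half b hb ?_
          have e1 : cf (dep1 (2 * k + 3)) (Ph ℤ s u) = 0 :=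
            cf_Ph hEC hs1 (fun i hi => hs3 i (by omega)) _ hu
          have e2 := congrArg (cf (dep1 (2 * k + 3))) hb2
          rw [map_sub, e1, sub_zero, map_smul] at e2
          exact e2
        · have hn1 : n' = 1 := by omega
          subst hn1
          refine ⟨a, ha, ?_⟩
          have hP : P = cf [k] P • FreeAlgebra.ι F2 k := by
            apply ext_cf
            intro l
            rw [map_smul, ι_eq_wd, cf_wd]
            by_cases hl : [k] = l
            · rw [if_pos hl, ← hl]; simp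
            · rw [if_neg hl, smul_zero]
              by_contra hl0
              apply hl
              have e1 := mem_wtA_iff.1 h3 l hl0
              have e2 := mem_wtA_iff.1 h4 l hl0
              have e3 : l.length = 1 := by simpa using e1
              obtain ⟨j, rfl⟩ := List.length_eq_one_iff.1 e3
              simp only [List.map_cons, List.map_nil, List.sum_cons, List.sum_nil] at e2
              congr 1
              omega
          have hc : cf [k] P = 1 := by
            have hne : cf [k] P ≠ 0 := by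
              intro h
              rw [h, zero_smul] at hP
              exact h5 hP
            exact (Fin.eq_one_of_ne_zero _ hne)
          rw [hc, one_smul] at hP
          rw [hP, evalZ_ι] at h6
          exact h6
    obtain ⟨p, hp, hcf⟩ := hEE k
    obtain ⟨c, a, hc, ha, hca⟩ := exists_Lam hp
    refine key _ a ha ?_ rfl
    intro h
    have := cf_bc fQ a (dep1 (2 * k + 3))
    rw [hca, h, map_zero, map_smul, smul_eq_mul] at this
    rcases mul_eq_zero.1 this with h1 | h1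
    · exact hc (fQ_injective (by rw [h1, map_zero]))
    · exact hcf h1

end generation

section nakayama

theorem nak {R M : Type*} [CommRing R] [AddCommGroup M] [Module R M] (c : R)
    (L Q : Submodule R M) (hfg : L.FG)
    (h : ∀ a ∈ L, ∃ q ∈ Q, ∃ b ∈ L, a = q + c • b) :
    ∃ r : R, r - 1 ∈ Ideal.span {c} ∧ ∀ a ∈ L, r • a ∈ Q := by
  have h1 : L.map Q.mkQ ≤ (Ideal.span {c}) • L.map Q.mkQ := by
    rintro _ ⟨a, ha, rfl⟩
    obtain ⟨q, hq, b, hb, rfl⟩ := h a ha
    have e : Q.mkQ q = 0 := (Submodule.Quotient.mk_eq_zero Q).2 hq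
    rw [map_add, e, zero_add, map_smul]
    exact Submodule.smul_mem_smul (Ideal.mem_span_singleton_self c) ⟨b, hb, rfl⟩
  obtain ⟨r, hr, hr2⟩ := Submodule.exists_sub_one_mem_and_smul_eq_zero_of_fg_of_le_smul
    (Ideal.span {c}) (L.map Q.mkQ) (hfg.map _) h1
  refine ⟨r, hr, ?_⟩
  intro a ha
  have := hr2 (Q.mkQ a) ⟨a, ha, rfl⟩
  rw [← map_smul] at this
  exact (Submodule.Quotient.mk_eq_zero Q).1 this

attribute [-instance] AddCommGroup.toIntModule ZSMul.toSMul

theorem exists_Ph (hU : UB2) (hEC : EC) {s : ℕ → Alg ℤ} (hs : ∀ k, s k ∈ Lam (2 * k + 3))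
    (hgood : ∀ k, bc f2 (Fin 2) (s k) - Zc k ∈ Fil 2) {N : ℕ} (hN : 3 ≤ N) {a : Alg ℤ}
    (ha : a ∈ Lam N) : ∃ (r : ℤ) (u : FreeLieAlgebra ℤ ℕ), r ≠ 0 ∧ Ph ℤ s u = r • a := by
  obtain ⟨r, hr, hr2⟩ := nak (2 : ℤ) (Lam N) ((WS ℤ (fun k : ℕ => 2 * k + 3) N).map (Ph ℤ s)) (Lam_fg N) (by
    intro b hb
    obtain ⟨u, hu, hu2⟩ := gen hU hEC hs (K := fun _ => True) (fun k _ => hgood k) hN
      (N + 1) 0 (by omega) (fun _ _ _ _ _ _ => trivial) b hb (Fil_zero _)
    obtain ⟨b', hb', h2⟩ := exists_two_Lam (Submodule.sub_mem _ hb (Ph_mem hEC hs hu)) hu2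
    refine ⟨Ph ℤ s u, ⟨u, hu, rfl⟩, b', hb', ?_⟩
    rw [← sub_eq_iff_eq_add']
    exact h2)
  obtain ⟨u, _, hu⟩ := hr2 a ha
  refine ⟨r, u, ?_, hu⟩
  rintro rfl
  rw [Ideal.mem_span_singleton] at hr
  norm_num at hr

end nakayama

end Crest.Agent.R010.G

end
end

-- ▼ part R010/GlueE
section

/-! Row 10, module (cC) GLUE, part E (helper379): injectivity and the main theorem from
`UpperBound`, `S4`, `EC`, `EE`. -/

set_option autoImplicit false

noncomputable section

namespace Crest.Agent.R010.G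

open Crest.NumberTheoryR.GT Crest.Agent.R010
open Crest.Agent.R010.C (LieX wtA bc bc_ι bc_smul Alg X Y dA ih F2 cc adc FF Zc evalZ J0 J1 Fil
  FibrePent UpperBound opS opS_apply opS_one opS_comm opS_add opS_smul bc_opS bc_ih bc_dA
  iota_ihara cf_dep1_ih ih_mem_wtA ih_mem_LieX op_symbol evalZ_ι evalZ_mem_Fil evalZ_inj
  Fil_antitone Fil_mul_mem Fil_zero Zc_mem_Fil)
open Crest.Agent.R010.Witt (asso asso_of WS BM WS_induction fla_induction exists_hom_sum witt_div
  witt_injective S1_holds weightSubspace_eq iota_eq)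

attribute [local instance 100] LieRing.ofAssociativeRing

section injectivity

/-- injectivity mod 2 -/
theorem Pv_injective_mod (s : ℕ → Alg F2) (hgood : ∀ k, s k - Zc k ∈ Fil 2)
    (q : FreeAlgebra F2 ℕ) (h : Pv F2 s q = 0) : q = 0 := by
  classical
  by_contra hq
  have hex : ∃ n : ℕ, ∃ l : List ℕ, cf l q ≠ 0 ∧ l.length = n := by
    by_contra hno
    apply hq
    apply ext_cf
    intro l
    rw [map_zero]
    by_contra hl
    exact hno ⟨l.length, l, hl, rfl⟩
  obtain ⟨l0, hl0, hn0⟩ := Nat.find_spec hex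
  have hmin : ∀ l : List ℕ, cf l q ≠ 0 → Nat.find hex ≤ l.length :=
    fun l hl => Nat.find_min' hex ⟨l, hl, rfl⟩
  generalize Nat.find hex = n at hn0 hmin
  have h1 : res (fun l : List ℕ => l.length = n) q ∈
      sw F2 (fun l : List ℕ => l.length = n) := res_mem _ _
  have h2 : q - res (fun l : List ℕ => l.length = n) q ∈
      sw F2 (fun l : List ℕ => n + 1 ≤ l.length ∧ ∀ k ∈ l, s k - Zc k ∈ Fil 2) := by
    rw [mem_sw_iff]
    intro l hl
    rw [map_sub, cf_res] at hl
    by_cases hln : l.length = n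
    · rw [if_pos hln, sub_self] at hl
      exact absurd rfl hl
    · rw [if_neg hln, sub_zero] at hl
      have := hmin l hl
      exact ⟨by omega, fun k _ => hgood k⟩
  have h3 := Pv_mem s h2
  have h4 : Pv F2 s (res (fun l : List ℕ => l.length = n) q) -
      evalZ (res (fun l : List ℕ => l.length = n) q) ∈ Fil (n + 1) := by
    apply Pv_mod
    exact sw_mono (fun l hl => ⟨hl, fun k _ => hgood k⟩) h1
  have h5 : evalZ (res (fun l : List ℕ => l.length = n) q) ∈ Fil (n + 1) := by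
    have h6 := Submodule.add_mem _ h4 h3
    have h7 := Submodule.neg_mem _ h6
    have e : -(Pv F2 s (res (fun l : List ℕ => l.length = n) q) -
      evalZ (res (fun l : List ℕ => l.length = n) q) +
      Pv F2 s (q - res (fun l : List ℕ => l.length = n) q)) =
      evalZ (res (fun l : List ℕ => l.length = n) q) := by
      rw [map_sub, h]; abel
    rwa [e] at h7
  have h8 : res (fun l : List ℕ => l.length = n) q = 0 := by
    refine evalZ_inj (n := n) ?_ h5
    exact sw_mono (fun l hl => by simpa using hl) h1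
  apply hl0
  have h9 := congrArg (cf l0) h8
  rw [cf_res, if_pos hn0, map_zero] at h9
  exact h9

theorem Pv_injective_int (s : ℕ → Alg ℤ) (hgood : ∀ k, bc f2 (Fin 2) (s k) - Zc k ∈ Fil 2)
    (q : FreeAlgebra ℤ ℕ) (h : Pv ℤ s q = 0) : q = 0 := by
  apply ext_cf
  intro l
  rw [map_zero]
  by_contra hl
  have key : ∀ (m : ℕ) (q : FreeAlgebra ℤ ℕ), Pv ℤ s q = 0 → cf l q ≠ 0 →
      (cf l q).natAbs = m → False := by
    intro m
    induction m using Nat.strong_induction_on with
    | _ m IH =>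
      intro q hq hcf hm
      have h0 : bc f2 ℕ q = 0 := by
        apply Pv_injective_mod (fun k => bc f2 (Fin 2) (s k)) hgood
        rw [← bc_Pv, hq, map_zero]
      obtain ⟨b, rfl⟩ := exists_two_of_bc_eq_zero h0
      have e1 : cf l ((2 : ℤ) • b) = 2 * cf l b := by rw [map_smul]; rfl
      have e2 : Pv ℤ s b = 0 := by
        have e3 : Pv ℤ s ((2 : ℤ) • b) = (2 : ℤ) • Pv ℤ s b := map_smul (Pv ℤ s) (2 : ℤ) b
        rw [e3] at hq
        exact smul_cancel two_ne_zero (by rw [hq]; exact (smul_zero (2 : ℤ)).symm)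
      have e4 : cf l b ≠ 0 := by
        intro h; rw [e1, h, mul_zero] at hcf; exact hcf rfl
      refine IH (cf l b).natAbs ?_ b e2 e4 rfl
      rw [← hm, e1, Int.natAbs_mul]
      have := Int.natAbs_pos.2 e4
      simp only [Int.reduceAbs]
      omega
  exact key _ q h hl rfl

theorem Ph_injective_rat (s : ℕ → Alg ℤ) (hgood : ∀ k, bc f2 (Fin 2) (s k) - Zc k ∈ Fil 2) :
    Function.Injective (Ph ℚ (fun k => bc fQ (Fin 2) (s k))) := by
  rw [injective_iff_map_eq_zero]
  intro u hu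
  obtain ⟨c, b, hc, h1⟩ := exists_clear (asso ℚ ℕ u)
  have h2 : Pv ℤ s b = 0 := by
    apply bcQ_injective
    rw [bc_Pv, h1, map_smul, map_zero]
    rw [Ph_apply] at hu
    rw [hu, smul_zero]
  have h3 := Pv_injective_int s hgood b h2
  rw [h3, map_zero] at h1
  have h4 : asso ℚ ℕ u = 0 := by
    rcases smul_eq_zero.1 h1.symm with h | h
    · exact absurd (fQ_injective (by rw [h, map_zero])) hc
    · exact h
  exact witt_injective (by rw [h4, map_zero])

end injectivity

theorem bc_zsmul' {T : Type*} (c : ℤ) (a : FreeAlgebra ℤ T) :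
    bc fQ T (@HSMul.hSMul ℤ (FreeAlgebra ℤ T) (FreeAlgebra ℤ T)
      (@instHSMul ℤ (FreeAlgebra ℤ T) Algebra.toSMul) c a) = fQ c • bc fQ T a :=
  bc_smul fQ T c a

/-- the main theorem from the inputs -/
theorem main_of (hU : UB2) (hS4 : S4) (hEC : EC) (hEE : EE) :
    ∃ Φ : FreeLieAlgebra ℚ ℕ →ₗ[ℚ] GTLie,
      Function.Injective Φ ∧ LinearMap.range Φ = grtSpace ∧
      (∀ a b : FreeLieAlgebra ℚ ℕ, Φ ⁅a, b⁆ = iharaBracket (Φ a) (Φ b)) ∧
      (∀ k : ℕ, Φ (FreeLieAlgebra.of ℚ k) ∈ weightSubspace (fun _ : Fin 2 => 1) (2 * k + 3)) := by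
  choose s hs hgood using exists_good hU hEC hEE
  choose p hp hps using hs
  have hs' : ∀ k, s k ∈ Lam (2 * k + 3) := fun k => ⟨p k, hp k, hps k⟩
  set sQ : ℕ → Alg ℚ := fun k => bc fQ (Fin 2) (s k) with hsQ
  have him : ∀ u : FreeLieAlgebra ℚ ℕ, ∃ q ∈ grtSpace, iota q = Ph ℚ sQ u := by
    intro u
    refine fla_induction (p := fun u => ∃ q ∈ grtSpace, iota q = Ph ℚ sQ u) ?_ ?_ ?_ ?_ ?_ u
    · intro k
      exact ⟨p k, (hp k).1, by rw [Ph_of, hps k]⟩
    · exact ⟨0, Submodule.zero_mem _, by rw [map_zero, map_zero]⟩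
    · rintro a b ⟨q, hq, h1⟩ ⟨r, hr, h2⟩
      exact ⟨q + r, Submodule.add_mem _ hq hr, by rw [map_add, map_add, h1, h2]⟩
    · rintro c a ⟨q, hq, h1⟩
      exact ⟨c • q, Submodule.smul_mem _ _ hq, by rw [map_smul, map_smul, h1]⟩
    · rintro a b ⟨q, hq, h1⟩ ⟨r, hr, h2⟩
      exact ⟨iharaBracket q r, hEC q hq r hr, by rw [iota_ihara, Ph_lie, h1, h2]⟩
  have hinj : Function.Injective iota := S1_holds
  let ι' : GTLie →ₗ[ℚ] FreeAlgebra ℚ (Fin 2) := (iota : GTLie →ₗ[ℚ] FreeAlgebra ℚ (Fin 2))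
  have hι' : ∀ q, ι' q = iota q := fun _ => rfl
  let e := LinearEquiv.ofInjective ι' hinj
  let Φ : FreeLieAlgebra ℚ ℕ →ₗ[ℚ] GTLie := (e.symm : _ →ₗ[ℚ] GTLie).comp
    ((Ph ℚ sQ).codRestrict (LinearMap.range ι') (fun u => by
      obtain ⟨q, _, hq⟩ := him u
      exact ⟨q, hq⟩))
  have hΦ : ∀ u, iota (Φ u) = Ph ℚ sQ u := by
    intro u
    have h1 : (e (Φ u) : FreeAlgebra ℚ (Fin 2)) = Ph ℚ sQ u := by
      simp [Φ]
    rw [← h1]
    rfl
  have hΦg : ∀ u, Φ u ∈ grtSpace := by
    intro u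
    obtain ⟨q, hq, h1⟩ := him u
    rw [← hΦ u] at h1
    rwa [← hinj h1]
  have hPh := Ph_injective_rat s hgood
  refine ⟨Φ, ?_, ?_, ?_, ?_⟩
  · intro u v huv
    apply hPh
    show Ph ℚ sQ u = Ph ℚ sQ v
    rw [← hΦ u, ← hΦ v, huv]
  · apply le_antisymm
    · rintro _ ⟨u, rfl⟩
      exact hΦg u
    · intro q hq
      obtain ⟨S, g, hg, rfl⟩ := hS4 q hq
      refine Submodule.sum_mem _ fun n hn => ?_
      obtain ⟨hn3, hgn⟩ := hg n hn
      obtain ⟨c, a, hc, ha, hca⟩ := exists_Lam hgn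
      obtain ⟨r, u, hr, hu⟩ := exists_Ph hU hEC hs' hgood hn3 ha
      obtain ⟨u', hu'⟩ := mem_LieX_iff.1 (bc_mem_LieX fQ (asso_mem_LieX u))
      have h1 : Ph ℚ sQ u' = (fQ r * fQ c) • iota (g n) := by
        rw [Ph_apply, hu', hsQ, ← bc_Pv, ← Ph_apply, hu]
        refine (bc_zsmul' r a).trans ?_
        rw [hca, smul_smul]
      refine ⟨(fQ r * fQ c)⁻¹ • u', ?_⟩
      apply hinj
      rw [hΦ, map_smul, h1, smul_smul, inv_mul_cancel₀, one_smul]
      apply mul_ne_zero
      · intro h; exact hr (fQ_injective (by rw [h, map_zero]))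
      · intro h; exact hc (fQ_injective (by rw [h, map_zero]))
  · intro a b
    apply hinj
    rw [hΦ, iota_ihara, hΦ, hΦ, Ph_lie]
  · intro k
    have h1 : Φ (FreeLieAlgebra.of ℚ k) = p k := by
      apply hinj
      rw [hΦ, Ph_of, hps k]
    rw [h1]
    exact (hp k).2

end Crest.Agent.R010.G

end
end

-- ▼ part R010/XDefs
section

/-!
Row 10 (S0011), upper bound (U) in exact form (note 8505), definitions.
Everything over `F2 = ZMod 2`.

`A = F2<x,y>`, `B5 = F2<c,e0,e1,f0,f1>`, `jmap : B5 → A`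
(`c ↦ xy+yx`, `e0 ↦ x²`, `e1 ↦ y²`, `f0 ↦ [y,x²]`, `f1 ↦ [x,y²]`).
-/

set_option autoImplicit false

noncomputable section

namespace Crest.Agent.R010.XU

open Crest.Agent.R010.C

attribute [local instance 100] LieRing.ofAssociativeRing

instance instCharPFree (T : Type*) : CharP (FreeAlgebra F2 T) 2 :=
  charP_of_injective_algebraMap
    (FreeAlgebra.algebraMap_leftInverse (R := F2) (X := T)).injective 2

/-- the five letters -/
inductive L5 | c | e0 | e1 | f0 | f1
  deriving DecidableEq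

/-- `F2<c,e0,e1,f0,f1>` -/
abbrev B5 : Type := FreeAlgebra F2 L5

/-- letters of a free algebra over `F2` -/
abbrev io {T : Type*} (l : T) : FreeAlgebra F2 T := FreeAlgebra.ι F2 l

/-- the five even elements made from `X`, `Y`. -/
def five {R : Type*} [Ring R] (X Y : R) : L5 → R
  | .c => X * Y + Y * X
  | .e0 => X * X
  | .e1 => Y * Y
  | .f0 => Y * (X * X) + X * X * Y
  | .f1 => X * (Y * Y) + Y * Y * X

/-- evaluation of `P ∈ B5` at the five even elements. -/
def ev5 {R : Type*} [Ring R] [Algebra F2 R] (X Y : R) : B5 →ₐ[F2] R :=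
  FreeAlgebra.lift F2 (five X Y)

@[simp] theorem ev5_io {R : Type*} [Ring R] [Algebra F2 R] (X Y : R) (l : L5) :
    ev5 X Y (io l) = five X Y l := by
  simp [ev5, io]

/-- the embedding `B5 → A`. -/
def jmap : B5 →ₐ[F2] Alg F2 := ev5 (C.X F2) (C.Y F2)

theorem ev2_X {R : Type*} [Ring R] [Algebra F2 R] (X Y : R) : ev2 F2 X Y (C.X F2) = X := by
  simp [ev2, C.X]

theorem ev2_Y {R : Type*} [Ring R] [Algebra F2 R] (X Y : R) : ev2 F2 X Y (C.Y F2) = Y := by
  simp [ev2, C.Y]

theorem ev2_jmap {R : Type*} [Ring R] [Algebra F2 R] (X Y : R) (P : B5) :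
    ev2 F2 X Y (jmap P) = ev5 X Y P := by
  have : (ev2 F2 X Y).comp jmap = ev5 X Y := by
    apply FreeAlgebra.hom_ext
    funext l
    cases l <;> simp [jmap, five, ev2_X, ev2_Y]
  exact DFunLike.congr_fun this P

/-- the space `W = F f0 + F f1 + [Lie(B5), Lie(B5)]`. -/
def W : Submodule F2 B5 :=
  Submodule.span F2 ({io L5.f0, io L5.f1} ∪
    {a | ∃ p ∈ LieX F2 L5, ∃ q ∈ LieX F2 L5, a = p * q - q * p})

/-! ### Substitution lemmas for Lie polynomials -/

section subst

variable {T : Type*} {R : Type*} [Ring R] [Algebra F2 R]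

theorem commute_of_letters (φ : FreeAlgebra F2 T →ₐ[F2] R) (a : R)
    (h : ∀ l, Commute a (φ (io l))) (q : FreeAlgebra F2 T) : Commute a (φ q) := by
  induction q using FreeAlgebra.induction with
  | grade0 r => rw [AlgHom.commutes]; exact (Algebra.commutes r a).symm
  | grade1 l => exact h l
  | mul p q hp hq => rw [map_mul]; exact hp.mul_right hq
  | add p q hp hq => rw [map_add]; exact hp.add_right hq

/-- the central differences lemma: if `φ l - φ' l` commutes with everything, then this is so for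
`φ p - φ' p` with `p` Lie, and `φ`, `φ'` agree on brackets. -/
theorem central_lie (φ φ' : FreeAlgebra F2 T →ₐ[F2] R)
    (h : ∀ l m, Commute (φ (io l) - φ' (io l)) (φ (io m)))
    (h' : ∀ l m, Commute (φ (io l) - φ' (io l)) (φ' (io m)))
    (p : FreeAlgebra F2 T) (hp : p ∈ LieX F2 T) :
    ∀ q, Commute (φ p - φ' p) (φ q) ∧ Commute (φ p - φ' p) (φ' q) := by
  unfold LieX at hp
  induction hp using LieSubalgebra.lieSpan_induction with
  | mem x hx =>
    obtain ⟨l, rfl⟩ := hx
    intro q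
    exact ⟨commute_of_letters φ _ (h l) q, commute_of_letters φ' _ (h' l) q⟩
  | zero => intro q; simp
  | add x y hx hy ihx ihy =>
    intro q
    have e : φ (x + y) - φ' (x + y) = (φ x - φ' x) + (φ y - φ' y) := by
      rw [map_add, map_add]; abel
    rw [e]
    exact ⟨(ihx q).1.add_left (ihy q).1, (ihx q).2.add_left (ihy q).2⟩
  | smul r x hx ih =>
    intro q
    rw [map_smul, map_smul, ← smul_sub]
    exact ⟨(ih q).1.smul_left r, (ih q).2.smul_left r⟩
  | lie x y hx hy ihx ihy =>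
    intro q
    have e : φ ⁅x, y⁆ - φ' ⁅x, y⁆ = 0 := by
      rw [LieRing.of_associative_ring_bracket, map_sub, map_sub, map_mul, map_mul, map_mul,
        map_mul]
      have h1 := (ihx y).1.eq
      have h4 := (ihy x).2.eq
      linear_combination (norm := noncomm_ring) h1 - h4
    rw [e]
    simp

/-- `φ` and `φ'` agree on brackets. -/
theorem central_bracket (φ φ' : FreeAlgebra F2 T →ₐ[F2] R)
    (h : ∀ l m, Commute (φ (io l) - φ' (io l)) (φ (io m)))
    (h' : ∀ l m, Commute (φ (io l) - φ' (io l)) (φ' (io m)))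
    (p q : FreeAlgebra F2 T) (hp : p ∈ LieX F2 T) (hq : q ∈ LieX F2 T) :
    φ (p * q - q * p) = φ' (p * q - q * p) := by
  have h1 := (central_lie φ φ' h h' p hp q).1.eq
  have h4 := (central_lie φ φ' h h' q hq p).2.eq
  rw [map_sub, map_sub, map_mul, map_mul, map_mul, map_mul, ← sub_eq_zero]
  linear_combination (norm := noncomm_ring) h1 - h4

/-- the version for `W`. -/
theorem central_W (φ φ' : B5 →ₐ[F2] R)
    (h : ∀ l m, Commute (φ (io l) - φ' (io l)) (φ (io m)))
    (h' : ∀ l m, Commute (φ (io l) - φ' (io l)) (φ' (io m)))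
    (h0 : φ (io L5.f0) = φ' (io L5.f0)) (h1 : φ (io L5.f1) = φ' (io L5.f1))
    (P : B5) (hP : P ∈ W) : φ P = φ' P := by
  unfold W at hP
  induction hP using Submodule.span_induction with
  | mem x hx =>
    rcases hx with hx | ⟨p, hp, q, hq, rfl⟩
    · rcases hx with rfl | rfl
      · exact h0
      · exact h1
    · exact central_bracket φ φ' h h' p q hp hq
  | zero => simp
  | add x y hx hy ihx ihy => rw [map_add, map_add, ihx, ihy]
  | smul r x hx ih => rw [map_smul, map_smul, ih]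

theorem lift_zero_W (P : B5) (hP : P ∈ W) :
    (FreeAlgebra.lift F2 (fun _ : L5 => (0 : R))) P = 0 := by
  have hc : ∀ p : B5, ∃ r : F2, (FreeAlgebra.lift F2 (fun _ : L5 => (0 : R))) p
      = algebraMap F2 R r := by
    intro p
    induction p using FreeAlgebra.induction with
    | grade0 r => exact ⟨r, by rw [AlgHom.commutes]⟩
    | grade1 l => exact ⟨0, by simp⟩
    | mul p q hp hq =>
      obtain ⟨a, ha⟩ := hp; obtain ⟨b, hb⟩ := hq
      exact ⟨a * b, by rw [map_mul, ha, hb, map_mul]⟩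
    | add p q hp hq =>
      obtain ⟨a, ha⟩ := hp; obtain ⟨b, hb⟩ := hq
      exact ⟨a + b, by rw [map_add, ha, hb, map_add]⟩
  unfold W at hP
  induction hP using Submodule.span_induction with
  | mem x hx =>
    rcases hx with hx | ⟨p, hp, q, hq, rfl⟩
    · rcases hx with rfl | rfl <;> simp [io]
    · rw [map_sub, map_mul, map_mul]
      obtain ⟨a, ha⟩ := hc p
      obtain ⟨b, hb⟩ := hc q
      rw [ha, hb, ← map_mul, ← map_mul, mul_comm, sub_self]
  | zero => simp
  | add x y hx hy ihx ihy => rw [map_add, ihx, ihy, add_zero]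
  | smul r x hx ih => rw [map_smul, ih, smul_zero]

/-- a homomorphism with commuting values on the letters, zero on `f0`, `f1`, kills `W`. -/
theorem W_of_commute (φ : B5 →ₐ[F2] R) (h : ∀ l m, Commute (φ (io l)) (φ (io m)))
    (h0 : φ (io L5.f0) = 0) (h1 : φ (io L5.f1) = 0) (P : B5) (hP : P ∈ W) : φ P = 0 := by
  have key : φ P = (FreeAlgebra.lift F2 (fun _ : L5 => (0 : R))) P := by
    apply central_W φ _ _ _ _ _ P hP
    · intro l m; simpa [io] using h l m
    · intro l m; simp [io]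
    · simp [io] at h0 ⊢; exact h0
    · simp [io] at h1 ⊢; exact h1
  rw [key]
  exact lift_zero_W P hP

end subst

end Crest.Agent.R010.XU
end
private theorem rz_79475c33df : type_of% @_root_.Crest.Agent.R010.XU.five.eq_1 := @_root_.Crest.Agent.R010.XU.five.eq_1 -- L36
end

-- ▼ part R010/XMod
section

/-!
Row 10 (S0011), upper bound (U) in exact form (note 8505): derivations in characteristic two,
rank four modules, transfer of the fibre pentagon (gauge 2).
-/

set_option autoImplicit false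

noncomputable section

namespace Crest.Agent.R010.XU

open Crest.Agent.R010.C

attribute [local instance 100] LieRing.ofAssociativeRing

section der
variable {T : Type*}

/-- uniqueness of derivations -/
theorem der_unique (d : T → FreeAlgebra F2 T) (D : FreeAlgebra F2 T →ₗ[F2] FreeAlgebra F2 T)
    (h1 : ∀ l, D (io l) = d l) (h2 : ∀ p q, D (p * q) = D p * q + p * D q)
    (w : FreeAlgebra F2 T) : D w = der F2 d w := by
  have hone : D 1 = 0 := by
    have := h2 1 1
    simp only [mul_one, one_mul] at this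
    have h : D 1 + D 1 = 0 := by
      rw [← two_smul F2 (D 1)]
      have : (2 : F2) = 0 := rfl
      rw [this, zero_smul]
    rw [this, h]
  induction w using FreeAlgebra.induction with
  | grade0 r =>
    rw [der_algebraMap, Algebra.algebraMap_eq_smul_one, map_smul, hone, smul_zero]
  | grade1 l => rw [h1, der_ι]
  | mul p q hp hq => rw [h2, der_mul, hp, hq]
  | add p q hp hq => rw [map_add, map_add, hp, hq]

/-- `D²` is a derivation in characteristic two. -/
theorem der_sq (d e : T → FreeAlgebra F2 T) (h : ∀ l, der F2 d (d l) = e l)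
    (w : FreeAlgebra F2 T) : der F2 d (der F2 d w) = der F2 e w := by
  have := der_unique e ((der F2 d).comp (der F2 d)) (by intro l; simp [io, h])
    (by
      intro p q
      simp only [LinearMap.comp_apply, der_mul, map_add]
      grind) w
  simpa using this

/-- `[D,D']` is a derivation in characteristic two. -/
theorem der_comm (d d' e : T → FreeAlgebra F2 T)
    (h : ∀ l, der F2 d (d' l) + der F2 d' (d l) = e l)
    (w : FreeAlgebra F2 T) :
    der F2 d (der F2 d' w) + der F2 d' (der F2 d w) = der F2 e w := by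
  have := der_unique e ((der F2 d).comp (der F2 d') + (der F2 d').comp (der F2 d))
    (by intro l; simp [io, h])
    (by
      intro p q
      simp only [LinearMap.comp_apply, LinearMap.add_apply, der_mul, map_add]
      grind) w
  simpa using this

/-- inner derivations -/
theorem der_inner (a : FreeAlgebra F2 T) (w : FreeAlgebra F2 T) :
    der F2 (fun l => a * io l + io l * a) w = a * w + w * a := by
  have := der_unique (fun l => a * io l + io l * a)
    (LinearMap.mulLeft F2 a + LinearMap.mulRight F2 a) (by intro l; simp)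
    (by
      intro p q
      simp only [LinearMap.add_apply, LinearMap.mulLeft_apply, LinearMap.mulRight_apply]
      grind) w
  rw [← this]
  simp

theorem der_zero (w : FreeAlgebra F2 T) : der F2 (fun _ : T => (0 : FreeAlgebra F2 T)) w = 0 := by
  have := der_unique (fun _ : T => (0 : FreeAlgebra F2 T)) 0 (by intro l; simp)
    (by intro p q; simp) w
  simpa using this.symm

end der

section N4

variable {T : Type*}

/-- the rank four module -/
abbrev N4 (T : Type*) : Type _ :=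
  FreeAlgebra F2 T × FreeAlgebra F2 T × FreeAlgebra F2 T × FreeAlgebra F2 T

/-- a linear map with given components. -/
def mk4 (g0 g1 g2 g3 : N4 T →ₗ[F2] FreeAlgebra F2 T) : Module.End F2 (N4 T) :=
  g0.prod (g1.prod (g2.prod g3))

@[simp] theorem mk4_apply (g0 g1 g2 g3 : N4 T →ₗ[F2] FreeAlgebra F2 T) (w : N4 T) :
    mk4 g0 g1 g2 g3 w = (g0 w, g1 w, g2 w, g3 w) := rfl

/-- projections -/
def pr0 : N4 T →ₗ[F2] FreeAlgebra F2 T := LinearMap.fst F2 _ _
def pr1 : N4 T →ₗ[F2] FreeAlgebra F2 T := (LinearMap.fst F2 _ _).comp (LinearMap.snd F2 _ _)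
def pr2 : N4 T →ₗ[F2] FreeAlgebra F2 T :=
  (LinearMap.fst F2 _ _).comp ((LinearMap.snd F2 _ _).comp (LinearMap.snd F2 _ _))
def pr3 : N4 T →ₗ[F2] FreeAlgebra F2 T :=
  (LinearMap.snd F2 _ _).comp ((LinearMap.snd F2 _ _).comp (LinearMap.snd F2 _ _))

@[simp] theorem pr0_apply (a b c d : FreeAlgebra F2 T) : pr0 (a, b, c, d) = a := rfl
@[simp] theorem pr1_apply (a b c d : FreeAlgebra F2 T) : pr1 (a, b, c, d) = b := rfl
@[simp] theorem pr2_apply (a b c d : FreeAlgebra F2 T) : pr2 (a, b, c, d) = c := rfl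
@[simp] theorem pr3_apply (a b c d : FreeAlgebra F2 T) : pr3 (a, b, c, d) = d := rfl

/-- left multiplication by `a` after a projection -/
def lm (a : FreeAlgebra F2 T) (g : N4 T →ₗ[F2] FreeAlgebra F2 T) :
    N4 T →ₗ[F2] FreeAlgebra F2 T := (LinearMap.mulLeft F2 a).comp g

@[simp] theorem lm_apply (a : FreeAlgebra F2 T) (g : N4 T →ₗ[F2] FreeAlgebra F2 T) (w : N4 T) :
    lm a g w = a * g w := rfl

/-- a derivation after a projection -/
def dm (d : T → FreeAlgebra F2 T) (g : N4 T →ₗ[F2] FreeAlgebra F2 T) :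
    N4 T →ₗ[F2] FreeAlgebra F2 T := (der F2 d).comp g

@[simp] theorem dm_apply (d : T → FreeAlgebra F2 T) (g : N4 T →ₗ[F2] FreeAlgebra F2 T)
    (w : N4 T) : dm d g w = der F2 d (g w) := rfl

/-- the inclusion `w ↦ (w,0,0,0)` -/
def inc (w : FreeAlgebra F2 T) : N4 T := (w, 0, 0, 0)

theorem inc_inj {a b : FreeAlgebra F2 T} (h : inc a = inc b) : a = b :=
  congrArg Prod.fst h

theorem inc_add (a b : FreeAlgebra F2 T) : inc (a + b) = inc a + inc b := by
  simp [inc]

theorem inc_smul (r : F2) (a : FreeAlgebra F2 T) : inc (r • a) = r • inc a := by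
  simp [inc]

theorem inc_zero : inc (0 : FreeAlgebra F2 T) = 0 := rfl

/-- if the five even elements act on the first component by `τ`, then `P` acts by `lift τ P`. -/
theorem ev5_inc (X Y : Module.End F2 (N4 T)) (τ : L5 → Module.End F2 (FreeAlgebra F2 T))
    (h : ∀ l w, five X Y l (inc w) = inc (τ l w)) (P : B5) (w : FreeAlgebra F2 T) :
    ev5 X Y P (inc w) = inc (FreeAlgebra.lift F2 τ P w) := by
  induction P using FreeAlgebra.induction generalizing w with
  | grade0 r =>
    rw [AlgHom.commutes, AlgHom.commutes]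
    simp [Module.algebraMap_end_apply, inc_smul]
  | grade1 l =>
    have := ev5_io X Y l
    rw [io] at this
    rw [this, h, FreeAlgebra.lift_ι_apply]
  | mul p q hp hq =>
    rw [map_mul, map_mul, Module.End.mul_apply, Module.End.mul_apply, hq, hp]
  | add p q hp hq =>
    rw [map_add, map_add, LinearMap.add_apply, LinearMap.add_apply, hp, hq, inc_add]

end N4

section transfer

variable (R : Type*) [CommRing R]

/-- gauge 2: `G₀ : x₁ ↦ [x₀+z, x₁]`, `x₀, z ↦ 0`. -/
def G0 : Module.End R (Alg3 R) :=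
  der R ![0, (x0 R + zz R) * x1 R - x1 R * (x0 R + zz R), 0]

/-- gauge 2: `G₁ : x₀ ↦ [x₁+z, x₀]`, `x₁, z ↦ 0`. -/
def G1 : Module.End R (Alg3 R) :=
  der R ![(x1 R + zz R) * x0 R - x0 R * (x1 R + zz R), 0, 0]

/-- the fibre pentagon in gauge 2, applied to `1`. -/
def FibrePent2 (ψ : Alg R) : Prop :=
  ev2 R (L3 R (x0 R)) (L3 R (x1 R + zz R)) ψ (1 : Alg3 R)
    + ev2 R (G0 R - L3 R (x0 R)) (G1 R - L3 R (x1 R + zz R)) ψ (1 : Alg3 R)
  = ev2 R (L3 R (zz R)) (G1 R - L3 R (x1 R + zz R)) ψ (1 : Alg3 R)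
    + ev2 R (L3 R (x0 R)) (L3 R (zz R)) ψ (1 : Alg3 R)

variable {R}

theorem ev2_intertwine {M M' : Type*} [AddCommGroup M] [Module R M] [AddCommGroup M'] [Module R M']
    (π : M →ₗ[R] M') (X Y : Module.End R M) (X' Y' : Module.End R M')
    (hX : ∀ m, π (X m) = X' (π m)) (hY : ∀ m, π (Y m) = Y' (π m)) (ψ : Alg R) (m : M) :
    π (ev2 R X Y ψ m) = ev2 R X' Y' ψ (π m) := by
  induction ψ using FreeAlgebra.induction generalizing m with
  | grade0 r =>
    rw [AlgHom.commutes, AlgHom.commutes]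
    simp [Module.algebraMap_end_apply]
  | grade1 l =>
    fin_cases l
    · simp [ev2, hX]
    · simp [ev2, hY]
  | mul p q hp hq =>
    rw [map_mul, map_mul, Module.End.mul_apply, Module.End.mul_apply, hp, hq]
  | add p q hp hq =>
    rw [map_add, map_add, LinearMap.add_apply, LinearMap.add_apply, map_add, hp, hq]

/-- transfer of the gauge 2 fibre pentagon to a module `M` with a vector `v`. -/
theorem transfer {M : Type*} [AddCommGroup M] [Module R M]
    (La Lb Lz E0 E1 : Module.End R M) (v : M)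
    (h0a : E0 * La - La * E0 = 0) (h0z : E0 * Lz - Lz * E0 = 0)
    (h0b : E0 * Lb - Lb * E0 = (La + Lz) * Lb - Lb * (La + Lz))
    (h1b : E1 * Lb - Lb * E1 = 0) (h1z : E1 * Lz - Lz * E1 = 0)
    (h1a : E1 * La - La * E1 = (Lb + Lz) * La - La * (Lb + Lz))
    (h0v : E0 v = 0) (h1v : E1 v = 0) (ψ : Alg R) (hψ : FibrePent2 R ψ) :
    ev2 R La (Lb + Lz) ψ v + ev2 R (E0 - La) (E1 - (Lb + Lz)) ψ v
      = ev2 R Lz (E1 - (Lb + Lz)) ψ v + ev2 R La Lz ψ v := by
  set ρ : Alg3 R →ₐ[R] Module.End R M := FreeAlgebra.lift R ![La, Lb, Lz] with hρ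
  have r0 : ρ (x0 R) = La := by simp [hρ, x0]
  have r1 : ρ (x1 R) = Lb := by simp [hρ, x1]
  have r2 : ρ (zz R) = Lz := by simp [hρ, zz]
  -- derivations
  have key : ∀ (d : Fin 3 → Alg3 R) (E : Module.End R M)
      (_ : ∀ l, ρ (d l) = E * ρ (FreeAlgebra.ι R l) - ρ (FreeAlgebra.ι R l) * E)
      (q : Alg3 R), ρ (der R d q) = E * ρ q - ρ q * E := by
    intro d E h q
    induction q using FreeAlgebra.induction with
    | grade0 r =>
      rw [der_algebraMap, map_zero, AlgHom.commutes, Algebra.commutes, sub_self]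
    | grade1 l => rw [der_ι, h]
    | mul p q hp hq =>
      rw [der_mul, map_add, map_mul, map_mul, hp, hq, map_mul]
      noncomm_ring
    | add p q hp hq =>
      rw [map_add, map_add, hp, hq, map_add]
      noncomm_ring
  have k0 : ∀ q, ρ (G0 R q) = E0 * ρ q - ρ q * E0 := by
    apply key
    intro l
    fin_cases l
    · change ρ 0 = E0 * ρ (x0 R) - ρ (x0 R) * E0
      rw [map_zero, r0, h0a]
    · change ρ ((x0 R + zz R) * x1 R - x1 R * (x0 R + zz R)) = E0 * ρ (x1 R) - ρ (x1 R) * E0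
      rw [map_sub, map_mul, map_mul, map_add, r0, r1, r2, h0b]
    · change ρ 0 = E0 * ρ (zz R) - ρ (zz R) * E0
      rw [map_zero, r2, h0z]
  have k1 : ∀ q, ρ (G1 R q) = E1 * ρ q - ρ q * E1 := by
    apply key
    intro l
    fin_cases l
    · change ρ ((x1 R + zz R) * x0 R - x0 R * (x1 R + zz R)) = E1 * ρ (x0 R) - ρ (x0 R) * E1
      rw [map_sub, map_mul, map_mul, map_add, r0, r1, r2, h1a]
    · change ρ 0 = E1 * ρ (x1 R) - ρ (x1 R) * E1
      rw [map_zero, r1, h1b]
    · change ρ 0 = E1 * ρ (zz R) - ρ (zz R) * E1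
      rw [map_zero, r2, h1z]
  let π : Alg3 R →ₗ[R] M :=
    { toFun := fun q => ρ q v
      map_add' := fun p q => by rw [map_add, LinearMap.add_apply]
      map_smul' := fun r p => by rw [map_smul, LinearMap.smul_apply, RingHom.id_apply] }
  have hπ1 : π 1 = v := by
    change ρ 1 v = v
    rw [map_one]; rfl
  have pL : ∀ a q, π (L3 R a q) = ρ a (π q) := by
    intro a q
    change ρ (a * q) v = ρ a (ρ q v)
    rw [map_mul]; rfl
  have pG0 : ∀ q, π (G0 R q) = E0 (π q) := by
    intro q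
    change ρ (G0 R q) v = E0 (ρ q v)
    rw [k0, LinearMap.sub_apply, Module.End.mul_apply, Module.End.mul_apply, h0v, map_zero,
      sub_zero]
  have pG1 : ∀ q, π (G1 R q) = E1 (π q) := by
    intro q
    change ρ (G1 R q) v = E1 (ρ q v)
    rw [k1, LinearMap.sub_apply, Module.End.mul_apply, Module.End.mul_apply, h1v, map_zero,
      sub_zero]
  have hψ' := congrArg π hψ
  rw [map_add, map_add] at hψ'
  rw [ev2_intertwine π (L3 R (x0 R)) (L3 R (x1 R + zz R)) La (Lb + Lz)
      (by intro m; rw [pL, r0]) (by intro m; rw [pL, map_add, r1, r2]),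
    ev2_intertwine π (G0 R - L3 R (x0 R)) (G1 R - L3 R (x1 R + zz R)) (E0 - La)
      (E1 - (Lb + Lz))
      (by intro m; rw [LinearMap.sub_apply, map_sub, pL, r0, pG0, LinearMap.sub_apply])
      (by intro m; rw [LinearMap.sub_apply, map_sub, pL, map_add, r1, r2, pG1,
        LinearMap.sub_apply]),
    ev2_intertwine π (L3 R (zz R)) (G1 R - L3 R (x1 R + zz R)) Lz (E1 - (Lb + Lz))
      (by intro m; rw [pL, r2])
      (by intro m; rw [LinearMap.sub_apply, map_sub, pL, map_add, r1, r2, pG1,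
        LinearMap.sub_apply]),
    ev2_intertwine π (L3 R (x0 R)) (L3 R (zz R)) La Lz
      (by intro m; rw [pL, r0]) (by intro m; rw [pL, r2]), hπ1] at hψ'
  exact hψ'

end transfer

end Crest.Agent.R010.XU
end
end

-- ▼ part R010/XB
section

/-!
Row 10 (S0011), upper bound (U), Step B (module `N_B`, note 8505 section 4).
-/

set_option autoImplicit false

noncomputable section

namespace Crest.Agent.R010.XU.SB

open Crest.Agent.R010.C Crest.Agent.R010.XU

attribute [local instance 100] LieRing.ofAssociativeRing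

abbrev c : B5 := io L5.c
abbrev e0 : B5 := io L5.e0
abbrev e1 : B5 := io L5.e1
abbrev f0 : B5 := io L5.f0
abbrev f1 : B5 := io L5.f1

/-- `D₀` -/
def d0 : L5 → B5
  | .c => f0 + f1
  | .e0 => 0
  | .e1 => 0
  | .f0 => (c + e1) * e0 + e0 * (c + e1)
  | .f1 => 0

/-- `D₁` -/
def d1 : L5 → B5
  | .c => f1
  | .e0 => f0
  | .e1 => 0
  | .f0 => e0 * e1 + e1 * e0
  | .f1 => c * e1 + e1 * c

def La : Module.End F2 (N4 L5) := mk4 (lm e0 pr1 + lm f0 pr3) pr0 (lm e0 pr3) pr2
def Lb : Module.End F2 (N4 L5) := mk4 (lm c pr1) 0 (pr0 + lm c pr3) pr1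
def Lz : Module.End F2 (N4 L5) := mk4 (lm e1 pr2 + lm f1 pr3) (lm e1 pr3) 0 0
def E0 : Module.End F2 (N4 L5) :=
  mk4 (dm d0 pr0 + lm (c + e1) pr2) (dm d0 pr1 + lm (c + e1) pr3) (dm d0 pr2) (dm d0 pr3)
def E1 : Module.End F2 (N4 L5) :=
  mk4 (dm d1 pr0 + lm c pr1 + lm f1 pr3) (dm d1 pr1) (dm d1 pr2 + lm c pr3) (dm d1 pr3)

theorem d0c : der F2 d0 c = f0 + f1 := by simp [c, io, d0]
theorem d0e0 : der F2 d0 e0 = 0 := by simp [e0, io, d0]
theorem d0e1 : der F2 d0 e1 = 0 := by simp [e1, io, d0]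
theorem d0f0 : der F2 d0 f0 = (c + e1) * e0 + e0 * (c + e1) := by simp [f0, io, d0]
theorem d0f1 : der F2 d0 f1 = 0 := by simp [f1, io, d0]
theorem d1c : der F2 d1 c = f1 := by simp [c, io, d1]
theorem d1e0 : der F2 d1 e0 = f0 := by simp [e0, io, d1]
theorem d1e1 : der F2 d1 e1 = 0 := by simp [e1, io, d1]
theorem d1f0 : der F2 d1 f0 = e0 * e1 + e1 * e0 := by simp [f0, io, d1]
theorem d1f1 : der F2 d1 f1 = c * e1 + e1 * c := by simp [f1, io, d1]

/-- evaluation of operator identities on `N4`. -/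
macro "opext" : tactic => `(tactic| (
  apply LinearMap.ext
  rintro ⟨w0, w1, w2, w3⟩
  simp only [E0, E1, La, Lb, Lz, Module.End.mul_apply, LinearMap.sub_apply, LinearMap.add_apply,
    LinearMap.zero_apply, mk4_apply, pr0_apply, pr1_apply, pr2_apply, pr3_apply, lm_apply,
    dm_apply, der_mul, map_add, map_zero, d0c, d0e0, d0e1, d0f0, d0f1, d1c, d1e0, d1e1, d1f0,
    d1f1, Prod.mk_add_mk, Prod.mk_sub_mk]
  refine Prod.ext ?_ (Prod.ext ?_ (Prod.ext ?_ ?_))
  all_goals simp only [Prod.fst_zero, Prod.snd_zero]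
  all_goals grind))

theorem h0a : E0 * La - La * E0 = 0 := by opext
theorem h0z : E0 * Lz - Lz * E0 = 0 := by opext
theorem h0b : E0 * Lb - Lb * E0 = (La + Lz) * Lb - Lb * (La + Lz) := by opext
theorem h1b : E1 * Lb - Lb * E1 = 0 := by opext
theorem h1z : E1 * Lz - Lz * E1 = 0 := by opext
theorem h1a : E1 * La - La * E1 = (Lb + Lz) * La - La * (Lb + Lz) := by opext

theorem h0v : E0 (inc 1) = 0 := by
  simp [E0, inc]
theorem h1v : E1 (inc 1) = 0 := by
  simp [E1, inc]

/-- `X = D₀ - L_a`, `Y = D₁ - L_{b+z}`. -/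
def Xo : Module.End F2 (N4 L5) := E0 - La
def Yo : Module.End F2 (N4 L5) := E1 - (Lb + Lz)

theorem Xo_apply (w0 w1 w2 w3 : B5) : Xo (w0, w1, w2, w3) =
    (e0 * w1 + f0 * w3 + der F2 d0 w0 + (c + e1) * w2, w0 + der F2 d0 w1 + (c + e1) * w3,
      e0 * w3 + der F2 d0 w2, w2 + der F2 d0 w3) := by
  simp only [Xo, E0, La, LinearMap.sub_apply, LinearMap.add_apply,
    mk4_apply, pr0_apply, pr1_apply, pr2_apply, pr3_apply, lm_apply,
    dm_apply, Prod.mk_sub_mk]
  refine Prod.ext ?_ (Prod.ext ?_ (Prod.ext ?_ ?_)) <;> simp only [] <;> grind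

theorem Yo_apply (w0 w1 w2 w3 : B5) : Yo (w0, w1, w2, w3) =
    (der F2 d1 w0 + e1 * w2, der F2 d1 w1 + e1 * w3, w0 + der F2 d1 w2, w1 + der F2 d1 w3) := by
  simp only [Yo, E1, Lb, Lz, LinearMap.sub_apply, LinearMap.add_apply,
    LinearMap.zero_apply, mk4_apply, pr0_apply, pr1_apply, pr2_apply, pr3_apply, lm_apply,
    dm_apply, Prod.mk_sub_mk, Prod.mk_add_mk]
  refine Prod.ext ?_ (Prod.ext ?_ (Prod.ext ?_ ?_)) <;> simp only [] <;> grind

/-- `D₁² = ad e1` -/
theorem d11 (w : B5) : der F2 d1 (der F2 d1 w) = e1 * w + w * e1 := by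
  rw [der_sq d1 (fun l => e1 * io l + io l * e1), der_inner]
  intro l
  cases l
  · change der F2 d1 f1 = _
    rw [d1f1]; grind
  · change der F2 d1 f0 = _
    rw [d1f0]; grind
  · change der F2 d1 0 = _
    rw [map_zero]; grind
  · change der F2 d1 (e0 * e1 + e1 * e0) = _
    simp only [map_add, der_mul, d1e0, d1e1]; grind
  · change der F2 d1 (c * e1 + e1 * c) = _
    simp only [map_add, der_mul, d1c, d1e1]; grind

/-- the operators of the five letters on the first component, pair `(X, Y)`. -/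
def τXY : L5 → Module.End F2 B5
  | .c => LinearMap.mulLeft F2 (c + e1) + (der F2 d0 * der F2 d1 + der F2 d1 * der F2 d0)
  | .e0 => LinearMap.mulLeft F2 e0 + der F2 d0 * der F2 d0
  | .e1 => LinearMap.mulRight F2 e1
  | .f0 => LinearMap.mulLeft F2 (f0 + f1)
      + (der F2 d1 * (der F2 d0 * der F2 d0) + (der F2 d0 * der F2 d0) * der F2 d1)
  | .f1 => 0

theorem hXY (l : L5) (w : B5) : five Xo Yo l (inc w) = inc (τXY l w) := by
  cases l
  all_goals
    simp only [five, τXY, inc, Module.End.mul_apply, LinearMap.add_apply, Xo_apply, Yo_apply,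
      LinearMap.mulLeft_apply, LinearMap.mulRight_apply, LinearMap.zero_apply, map_add, map_zero,
      der_mul, d0c, d0e1, d1e0, Prod.mk_add_mk, mul_zero, add_zero, zero_add, d11]
    refine Prod.ext ?_ (Prod.ext ?_ (Prod.ext ?_ ?_)) <;> simp only [] <;> grind

/-- pair `(L_a, L_{b+z})`: the identity -/
def τab : L5 → Module.End F2 B5 := fun l => LinearMap.mulLeft F2 (io l)

theorem hab (l : L5) (w : B5) : five La (Lb + Lz) l (inc w) = inc (τab l w) := by
  cases l
  all_goals
    simp only [five, τab, inc, La, Lb, Lz, Module.End.mul_apply, LinearMap.add_apply,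
      LinearMap.mulLeft_apply, LinearMap.zero_apply, mk4_apply, pr0_apply, pr1_apply,
      pr2_apply, pr3_apply, lm_apply, Prod.mk_add_mk, mul_zero, add_zero, zero_add]
    try (refine Prod.ext ?_ (Prod.ext ?_ (Prod.ext ?_ ?_)) <;> simp only [] <;> grind)

/-- pair `(L_a, L_z)` -/
def τaz : L5 → Module.End F2 B5
  | .e0 => LinearMap.mulLeft F2 e0
  | _ => 0

theorem haz (l : L5) (w : B5) : five La Lz l (inc w) = inc (τaz l w) := by
  cases l
  all_goals
    simp only [five, τaz, inc, La, Lz, Module.End.mul_apply, LinearMap.add_apply,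
      LinearMap.mulLeft_apply, LinearMap.zero_apply, mk4_apply, pr0_apply, pr1_apply,
      pr2_apply, pr3_apply, lm_apply, Prod.mk_add_mk, mul_zero, add_zero, zero_add]
    try (refine Prod.ext ?_ (Prod.ext ?_ (Prod.ext ?_ ?_)) <;> simp only [] <;> grind)

/-- pair `(L_z, Y)` -/
def τzy : L5 → Module.End F2 B5
  | .c => LinearMap.mulLeft F2 e1
  | .e1 => LinearMap.mulRight F2 e1
  | _ => 0

theorem hzy (l : L5) (w : B5) : five Lz Yo l (inc w) = inc (τzy l w) := by
  cases l
  all_goals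
    simp only [five, τzy, inc, Lz, Yo_apply, Module.End.mul_apply, LinearMap.add_apply,
      LinearMap.mulLeft_apply, LinearMap.mulRight_apply,
      LinearMap.zero_apply, map_zero, mk4_apply, pr1_apply, pr2_apply,
      pr3_apply, lm_apply, Prod.mk_add_mk, mul_zero, add_zero, zero_add, d11]
    try (refine Prod.ext ?_ (Prod.ext ?_ (Prod.ext ?_ ?_)) <;> simp only [] <;> grind)

/-- `κ` as an endomorphism of `B5`: kill `e1`, `f1`. -/
def aκB : L5 → B5
  | .c => c
  | .e0 => e0
  | .e1 => 0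
  | .f0 => f0
  | .f1 => 0

/-- `τXY` without the letter `e1`. -/
def τ' : L5 → Module.End F2 B5
  | .e1 => 0
  | l => τXY l

theorem lift_τ' (P : B5) :
    FreeAlgebra.lift F2 τ' P = FreeAlgebra.lift F2 τXY (FreeAlgebra.lift F2 aκB P) := by
  have h : FreeAlgebra.lift F2 τ'
      = (FreeAlgebra.lift F2 τXY).comp (FreeAlgebra.lift F2 aκB) := by
    apply FreeAlgebra.hom_ext
    funext l
    cases l <;> simp [τ', aκB, c, e0, f0, io, τXY]
  rw [h, AlgHom.comp_apply]

theorem τXY_W (P : B5) (hP : P ∈ W) :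
    FreeAlgebra.lift F2 τXY P = FreeAlgebra.lift F2 τ' P := by
  apply central_W _ _ _ _ _ _ P hP
  · intro l m
    simp only [io, FreeAlgebra.lift_ι_apply]
    cases l <;> cases m <;>
      (apply LinearMap.ext
       intro w
       simp only [τXY, τ', Module.End.mul_apply, LinearMap.sub_apply, LinearMap.add_apply,
        LinearMap.mulLeft_apply, LinearMap.mulRight_apply, LinearMap.zero_apply, der_mul, map_add,
        map_zero, d0e1, d1e1, mul_zero, add_zero, sub_zero, sub_self]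
       try grind)
  · intro l m
    simp only [io, FreeAlgebra.lift_ι_apply]
    cases l <;> cases m <;>
      (apply LinearMap.ext
       intro w
       simp only [τXY, τ', Module.End.mul_apply, LinearMap.sub_apply, LinearMap.add_apply,
        LinearMap.mulLeft_apply, LinearMap.mulRight_apply, LinearMap.zero_apply, der_mul, map_add,
        map_zero, d0e1, d1e1, mul_zero, add_zero, sub_zero, sub_self]
       try grind)
  · simp [io, τXY, τ']
  · simp [io, τXY, τ']

theorem lift_mulLeft' {T S : Type*} (a : T → FreeAlgebra F2 S) (P : FreeAlgebra F2 T)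
    (w : FreeAlgebra F2 S) :
    FreeAlgebra.lift F2 (fun l => LinearMap.mulLeft F2 (a l)) P w = FreeAlgebra.lift F2 a P * w := by
  induction P using FreeAlgebra.induction generalizing w with
  | grade0 r =>
    rw [AlgHom.commutes, AlgHom.commutes, Module.algebraMap_end_apply, Algebra.smul_def]
  | grade1 l => simp
  | mul p q hp hq => rw [map_mul, map_mul, Module.End.mul_apply, hq, hp, mul_assoc]
  | add p q hp hq => rw [map_add, map_add, LinearMap.add_apply, hp, hq, add_mul]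

theorem τab_eval (P : B5) : FreeAlgebra.lift F2 τab P 1 = P := by
  have h : FreeAlgebra.lift F2 (io : L5 → B5) = AlgHom.id F2 B5 := by
    apply FreeAlgebra.hom_ext
    funext l
    simp [io]
  change FreeAlgebra.lift F2 (fun l => LinearMap.mulLeft F2 (io l : B5)) P 1 = P
  rw [lift_mulLeft', mul_one, h, AlgHom.id_apply]

theorem τaz_W (P : B5) (hP : P ∈ W) : FreeAlgebra.lift F2 τaz P 1 = 0 := by
  have h : FreeAlgebra.lift F2 τaz P = 0 := by
    apply W_of_commute _ _ _ _ P hP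
    · intro l m
      simp only [io, FreeAlgebra.lift_ι_apply]
      cases l <;> cases m <;> simp [τaz]
    · simp [io, τaz]
    · simp [io, τaz]
  rw [h, LinearMap.zero_apply]

theorem τzy_W (P : B5) (hP : P ∈ W) : FreeAlgebra.lift F2 τzy P 1 = 0 := by
  have h : FreeAlgebra.lift F2 τzy P = 0 := by
    apply W_of_commute _ _ _ _ P hP
    · intro l m
      simp only [io, FreeAlgebra.lift_ι_apply]
      cases l <;> cases m <;>
        (apply LinearMap.ext
         intro w
         simp only [τzy, Module.End.mul_apply, LinearMap.mulLeft_apply,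
          LinearMap.mulRight_apply, LinearMap.zero_apply, mul_zero, zero_mul]
         try grind)
    · simp [io, τzy]
    · simp [io, τzy]
  rw [h, LinearMap.zero_apply]

/-- **Step B**: `P` is determined by `κ P`. -/
theorem stepB0 (P : B5) (hP : P ∈ W) (h : FibrePent2 F2 (jmap P)) :
    P = FreeAlgebra.lift F2 τXY (FreeAlgebra.lift F2 aκB P) 1 := by
  have t := transfer La Lb Lz E0 E1 (inc 1) h0a h0z h0b h1b h1z h1a h0v h1v (jmap P) h
  rw [ev2_jmap, ev2_jmap, ev2_jmap, ev2_jmap] at t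
  change ev5 La (Lb + Lz) P (inc 1) + ev5 Xo Yo P (inc 1)
    = ev5 Lz Yo P (inc 1) + ev5 La Lz P (inc 1) at t
  rw [ev5_inc _ _ τab hab, ev5_inc _ _ τXY hXY, ev5_inc _ _ τzy hzy, ev5_inc _ _ τaz haz,
    τXY_W P hP, lift_τ', τab_eval, τaz_W P hP, τzy_W P hP, inc_zero, add_zero, ← inc_add] at t
  exact CharTwo.add_eq_zero.mp (inc_inj (t.trans inc_zero.symm))

/-- **Step B**: if `κ P = 0` then `P = 0`. -/
theorem stepB (P : B5) (hP : P ∈ W) (h : FibrePent2 F2 (jmap P))
    (hκ : FreeAlgebra.lift F2 aκB P = 0) : P = 0 := by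
  rw [stepB0 P hP h, hκ, map_zero, LinearMap.zero_apply]

end Crest.Agent.R010.XU.SB
end
private theorem rz_5a447c0a8c : type_of% @_root_.Crest.Agent.R010.XU.SB.«aκB».eq_1 := @_root_.Crest.Agent.R010.XU.SB.«aκB».eq_1 -- L174
private theorem rz_b177284b06 : type_of% @_root_.Crest.Agent.R010.XU.SB.d0.eq_1 := @_root_.Crest.Agent.R010.XU.SB.d0.eq_1 -- L24
private theorem rz_d3455af25f : type_of% @_root_.Crest.Agent.R010.XU.SB.d1.eq_1 := @_root_.Crest.Agent.R010.XU.SB.d1.eq_1 -- L32
private theorem rz_a5c934705b : type_of% @_root_.Crest.Agent.R010.XU.SB.«τ'».eq_1 := @_root_.Crest.Agent.R010.XU.SB.«τ'».eq_1 -- L182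
private theorem rz_151ac3997d : type_of% @_root_.Crest.Agent.R010.XU.SB.«τXY».eq_1 := @_root_.Crest.Agent.R010.XU.SB.«τXY».eq_1 -- L118
private theorem rz_79d0ef421c : type_of% @_root_.Crest.Agent.R010.XU.SB.«τaz».eq_1 := @_root_.Crest.Agent.R010.XU.SB.«τaz».eq_1 -- L146
private theorem rz_2263a93889 : type_of% @_root_.Crest.Agent.R010.XU.SB.«τzy».eq_1 := @_root_.Crest.Agent.R010.XU.SB.«τzy».eq_1 -- L159
end

-- ▼ part R010/XC
section

/-!
Row 10 (S0011), upper bound (U), Step C (module `N_C`, note 8505 section 3).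
-/

set_option autoImplicit false

noncomputable section

namespace Crest.Agent.R010.XU.SC

open Crest.Agent.R010.C Crest.Agent.R010.XU

attribute [local instance 100] LieRing.ofAssociativeRing

/-- letters of `C = F2<c,u,v>` -/
inductive LC | c | u | v
  deriving DecidableEq

abbrev CC : Type := FreeAlgebra F2 LC

abbrev c : CC := io LC.c
abbrev u : CC := io LC.u
abbrev v : CC := io LC.v

/-- `D₀ : c ↦ v, u ↦ 0, v ↦ [c,u]` -/
def d0 : LC → CC
  | .c => v
  | .u => 0
  | .v => c * u + u * c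

/-- `D₁ : c ↦ v, u ↦ 0, v ↦ 0` -/
def d1 : LC → CC
  | .c => v
  | .u => 0
  | .v => 0

def La : Module.End F2 (N4 LC) := mk4 0 pr0 0 pr2
def Lb : Module.End F2 (N4 LC) := mk4 (lm c pr1) 0 (pr0 + lm c pr3) pr1
def Lz : Module.End F2 (N4 LC) := mk4 (lm u pr1 + lm v pr3) 0 (lm u pr3) 0
def E0 : Module.End F2 (N4 LC) := mk4 (dm d0 pr0 + lm c pr2) (dm d0 pr1 + lm c pr3) (dm d0 pr2) (dm d0 pr3)
def E1 : Module.End F2 (N4 LC) :=
  mk4 (dm d1 pr0 + lm (c + u) pr1 + lm v pr3) (dm d1 pr1) (dm d1 pr2 + lm (c + u) pr3) (dm d1 pr3)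

theorem d0c : der F2 d0 c = v := by simp [c, io, d0]
theorem d0u : der F2 d0 u = 0 := by simp [u, io, d0]
theorem d0v : der F2 d0 v = c * u + u * c := by simp [v, io, d0]
theorem d1c : der F2 d1 c = v := by simp [c, io, d1]
theorem d1u : der F2 d1 u = 0 := by simp [u, io, d1]
theorem d1v : der F2 d1 v = 0 := by simp [v, io, d1]

/-- evaluation of operator identities on `N4`. -/
macro "opext" : tactic => `(tactic| (
  apply LinearMap.ext
  rintro ⟨w0, w1, w2, w3⟩
  simp only [E0, E1, La, Lb, Lz, Module.End.mul_apply, LinearMap.sub_apply, LinearMap.add_apply,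
    LinearMap.zero_apply, mk4_apply, pr0_apply, pr1_apply, pr2_apply, pr3_apply, lm_apply,
    dm_apply, der_mul, map_add, map_zero, d0c, d0u, d0v, d1c, d1u, d1v, Prod.mk_add_mk, Prod.mk_sub_mk]
  refine Prod.ext ?_ (Prod.ext ?_ (Prod.ext ?_ ?_))
  all_goals simp only [Prod.fst_zero, Prod.snd_zero]
  all_goals grind))

theorem h0a : E0 * La - La * E0 = 0 := by opext
theorem h0z : E0 * Lz - Lz * E0 = 0 := by opext
theorem h0b : E0 * Lb - Lb * E0 = (La + Lz) * Lb - Lb * (La + Lz) := by opext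
theorem h1b : E1 * Lb - Lb * E1 = 0 := by opext
theorem h1z : E1 * Lz - Lz * E1 = 0 := by opext
theorem h1a : E1 * La - La * E1 = (Lb + Lz) * La - La * (Lb + Lz) := by opext

theorem h0v : E0 (inc 1) = 0 := by
  simp [E0, inc]
theorem h1v : E1 (inc 1) = 0 := by
  simp [E1, inc]

/-- `X = D₀ - L_a`, `Y = D₁ - L_{b+z}`. -/
def Xo : Module.End F2 (N4 LC) := E0 - La
def Yo : Module.End F2 (N4 LC) := E1 - (Lb + Lz)

theorem Xo_apply (w0 w1 w2 w3 : CC) : Xo (w0, w1, w2, w3) =
    (der F2 d0 w0 + c * w2, w0 + der F2 d0 w1 + c * w3, der F2 d0 w2, w2 + der F2 d0 w3) := by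
  simp only [Xo, E0, La, LinearMap.sub_apply, LinearMap.add_apply,
    LinearMap.zero_apply, mk4_apply, pr0_apply, pr1_apply, pr2_apply, pr3_apply, lm_apply,
    dm_apply, Prod.mk_sub_mk]
  refine Prod.ext ?_ (Prod.ext ?_ (Prod.ext ?_ ?_)) <;> simp only [] <;> grind

theorem Yo_apply (w0 w1 w2 w3 : CC) : Yo (w0, w1, w2, w3) =
    (der F2 d1 w0, der F2 d1 w1, w0 + der F2 d1 w2, w1 + der F2 d1 w3) := by
  simp only [Yo, E1, Lb, Lz, LinearMap.sub_apply, LinearMap.add_apply,
    LinearMap.zero_apply, mk4_apply, pr0_apply, pr1_apply, pr2_apply, pr3_apply, lm_apply,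
    dm_apply, Prod.mk_sub_mk, Prod.mk_add_mk]
  refine Prod.ext ?_ (Prod.ext ?_ (Prod.ext ?_ ?_)) <;> simp only [] <;> grind

theorem d00 (w : CC) : der F2 d0 (der F2 d0 w) = u * w + w * u := by
  rw [der_sq d0 (fun l => u * io l + io l * u), der_inner]
  intro l
  cases l
  · change der F2 d0 v = _
    rw [d0v]; grind
  · change der F2 d0 0 = _
    rw [map_zero]; grind
  · change der F2 d0 (c * u + u * c) = _
    simp only [map_add, der_mul, d0c, d0u]; grind

theorem d11 (w : CC) : der F2 d1 (der F2 d1 w) = 0 := by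
  rw [der_sq d1 (fun l => 0), der_zero]
  intro l
  cases l
  · exact d1v
  · exact map_zero _
  · exact map_zero _

theorem d01 (w : CC) : der F2 d0 (der F2 d1 w) + der F2 d1 (der F2 d0 w) = u * w + w * u := by
  rw [der_comm d0 d1 (fun l => u * io l + io l * u), der_inner]
  intro l
  cases l
  · change der F2 d0 v + der F2 d1 v = _
    rw [d0v, d1v]; grind
  · change der F2 d0 0 + der F2 d1 0 = _
    rw [map_zero, map_zero]; grind
  · change der F2 d0 0 + der F2 d1 (c * u + u * c) = _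
    simp only [map_add, map_zero, der_mul, d1c, d1u]; grind

/-- the operators of the five letters on the first component, pair `(X, Y)`. -/
def τXY : L5 → Module.End F2 CC
  | .c => LinearMap.mulLeft F2 (c + u) + LinearMap.mulRight F2 u
  | .e0 => LinearMap.mulLeft F2 u + LinearMap.mulRight F2 u
  | .e1 => 0
  | .f0 => LinearMap.mulLeft F2 v
  | .f1 => 0

theorem hXY (l : L5) (w : CC) : five Xo Yo l (inc w) = inc (τXY l w) := by
  cases l
  case c =>
    have h01 := d01 w
    simp only [five, τXY, inc, Module.End.mul_apply, LinearMap.add_apply, Xo_apply, Yo_apply,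
      LinearMap.mulLeft_apply, LinearMap.mulRight_apply, map_zero, Prod.mk_add_mk, mul_zero,
      add_zero]
    refine Prod.ext ?_ (Prod.ext ?_ (Prod.ext ?_ ?_)) <;> simp only []
    · linear_combination (norm := grind) h01
    all_goals grind
  all_goals
    simp only [five, τXY, inc, Module.End.mul_apply, LinearMap.add_apply, Xo_apply, Yo_apply,
      LinearMap.mulLeft_apply, LinearMap.mulRight_apply, LinearMap.zero_apply, map_add, map_zero,
      der_mul, d0c, d1u, Prod.mk_add_mk, mul_zero, add_zero,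
      zero_add, d00, d11]
    refine Prod.ext ?_ (Prod.ext ?_ (Prod.ext ?_ ?_)) <;> simp only [] <;> grind

/-- pair `(L_a, L_{b+z})` -/
def τab : L5 → Module.End F2 CC
  | .c => LinearMap.mulLeft F2 (c + u)
  | .e0 => 0
  | .e1 => 0
  | .f0 => 0
  | .f1 => LinearMap.mulLeft F2 v

theorem hab (l : L5) (w : CC) : five La (Lb + Lz) l (inc w) = inc (τab l w) := by
  cases l
  all_goals
    simp only [five, τab, inc, La, Lb, Lz, Module.End.mul_apply, LinearMap.add_apply,
      LinearMap.mulLeft_apply, LinearMap.zero_apply, mk4_apply, pr0_apply, pr1_apply,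
      pr2_apply, pr3_apply, lm_apply, Prod.mk_add_mk, mul_zero, add_zero, zero_add]
    try (refine Prod.ext ?_ (Prod.ext ?_ (Prod.ext ?_ ?_)) <;> simp only [] <;> grind)

/-- pair `(L_a, L_z)` -/
def τaz : L5 → Module.End F2 CC
  | .c => LinearMap.mulLeft F2 u
  | _ => 0

theorem haz (l : L5) (w : CC) : five La Lz l (inc w) = inc (τaz l w) := by
  cases l
  all_goals
    simp only [five, τaz, inc, La, Lz, Module.End.mul_apply, LinearMap.add_apply,
      LinearMap.mulLeft_apply, LinearMap.zero_apply, mk4_apply, pr0_apply, pr1_apply,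
      pr2_apply, pr3_apply, lm_apply, Prod.mk_add_mk, mul_zero, add_zero, zero_add]

/-- pair `(L_z, Y)` -/
def τzy : L5 → Module.End F2 CC := fun _ => 0

theorem hzy (l : L5) (w : CC) : five Lz Yo l (inc w) = inc (τzy l w) := by
  cases l
  all_goals
    simp only [five, τzy, inc, Lz, Yo_apply, Module.End.mul_apply, LinearMap.add_apply,
      LinearMap.zero_apply, map_zero, mk4_apply, pr1_apply,
      pr3_apply, lm_apply, Prod.mk_add_mk, mul_zero, add_zero, d11]
    try (refine Prod.ext ?_ (Prod.ext ?_ (Prod.ext ?_ ?_)) <;> simp only [] <;> grind)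

/-- values of the letters, left hand side -/
def aXY : L5 → CC
  | .c => c + u
  | .e0 => u
  | .e1 => 0
  | .f0 => v
  | .f1 => 0

/-- values of the letters, right hand side -/
def aab : L5 → CC
  | .c => c + u
  | .e0 => 0
  | .e1 => 0
  | .f0 => 0
  | .f1 => v

theorem lift_mulLeft {T S : Type*} (a : T → FreeAlgebra F2 S) (P : FreeAlgebra F2 T)
    (w : FreeAlgebra F2 S) :
    FreeAlgebra.lift F2 (fun l => LinearMap.mulLeft F2 (a l)) P w = FreeAlgebra.lift F2 a P * w := by
  induction P using FreeAlgebra.induction generalizing w with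
  | grade0 r =>
    rw [AlgHom.commutes, AlgHom.commutes, Module.algebraMap_end_apply, Algebra.smul_def]
  | grade1 l => simp
  | mul p q hp hq => rw [map_mul, map_mul, Module.End.mul_apply, hq, hp, mul_assoc]
  | add p q hp hq => rw [map_add, map_add, LinearMap.add_apply, hp, hq, add_mul]

theorem τXY_W (P : B5) (hP : P ∈ W) :
    FreeAlgebra.lift F2 τXY P 1 = FreeAlgebra.lift F2 aXY P := by
  have h : FreeAlgebra.lift F2 τXY P
      = FreeAlgebra.lift F2 (fun l => LinearMap.mulLeft F2 (aXY l)) P := by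
    apply central_W _ _ _ _ _ _ P hP
    · intro l m
      simp only [io, FreeAlgebra.lift_ι_apply]
      cases l <;> cases m <;> (apply LinearMap.ext; intro w; simp only [τXY, aXY, Module.End.mul_apply, LinearMap.sub_apply, LinearMap.add_apply, LinearMap.mulLeft_apply, LinearMap.mulRight_apply, LinearMap.zero_apply]; grind)
    · intro l m
      simp only [io, FreeAlgebra.lift_ι_apply]
      cases l <;> cases m <;> (apply LinearMap.ext; intro w; simp only [τXY, aXY, Module.End.mul_apply, LinearMap.sub_apply, LinearMap.add_apply, LinearMap.mulLeft_apply, LinearMap.mulRight_apply, LinearMap.zero_apply]; grind)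
    · simp [io, τXY, aXY]
    · simp [io, τXY, aXY]
  rw [h, lift_mulLeft, mul_one]

theorem τab_eval (P : B5) :
    FreeAlgebra.lift F2 τab P 1 = FreeAlgebra.lift F2 aab P := by
  have h : τab = (fun l => LinearMap.mulLeft F2 (aab l)) := by
    funext l
    cases l <;> simp [τab, aab]
  rw [h, lift_mulLeft, mul_one]

theorem τaz_W (P : B5) (hP : P ∈ W) : FreeAlgebra.lift F2 τaz P 1 = 0 := by
  have h : FreeAlgebra.lift F2 τaz P = 0 := by
    apply W_of_commute _ _ _ _ P hP
    · intro l m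
      simp only [io, FreeAlgebra.lift_ι_apply]
      cases l <;> cases m <;> simp [τaz]
    · simp [io, τaz]
    · simp [io, τaz]
  rw [h, LinearMap.zero_apply]

theorem τzy_W (P : B5) (hP : P ∈ W) : FreeAlgebra.lift F2 τzy P 1 = 0 := by
  have h : FreeAlgebra.lift F2 τzy P = 0 := lift_zero_W P hP
  rw [h, LinearMap.zero_apply]

/-- Step C, first form. -/
theorem stepC0 (P : B5) (hP : P ∈ W) (h : FibrePent2 F2 (jmap P)) :
    FreeAlgebra.lift F2 aXY P = FreeAlgebra.lift F2 aab P := by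
  have t := transfer La Lb Lz E0 E1 (inc 1) h0a h0z h0b h1b h1z h1a h0v h1v (jmap P) h
  rw [ev2_jmap, ev2_jmap, ev2_jmap, ev2_jmap] at t
  change ev5 La (Lb + Lz) P (inc 1) + ev5 Xo Yo P (inc 1)
    = ev5 Lz Yo P (inc 1) + ev5 La Lz P (inc 1) at t
  rw [ev5_inc _ _ τab hab, ev5_inc _ _ τXY hXY, ev5_inc _ _ τzy hzy, ev5_inc _ _ τaz haz,
    τXY_W P hP, τab_eval, τaz_W P hP, τzy_W P hP, inc_zero, add_zero, ← inc_add] at t
  have t' := inc_inj (t.trans inc_zero.symm)
  exact (CharTwo.add_eq_zero.mp t').symm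

/-- the values for `κ` -/
def aκ : L5 → CC
  | .c => c
  | .e0 => u
  | .e1 => 0
  | .f0 => v
  | .f1 => 0

/-- the values for `κ'` -/
def aκ' : L5 → CC
  | .c => c
  | .e0 => 0
  | .e1 => 0
  | .f0 => 0
  | .f1 => v

/-- **Step C**: `P(c, e0, 0, f0, 0) = P(c, 0, 0, 0, f0)`. -/
theorem stepC (P : B5) (hP : P ∈ W) (h : FibrePent2 F2 (jmap P)) :
    FreeAlgebra.lift F2 aκ P = FreeAlgebra.lift F2 aκ' P := by
  set θ : CC →ₐ[F2] CC := FreeAlgebra.lift F2 (fun l => match l with
    | .c => c + u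
    | .u => u
    | .v => v) with hθ
  have h1 : θ.comp (FreeAlgebra.lift F2 aXY) = FreeAlgebra.lift F2 aκ := by
    apply FreeAlgebra.hom_ext
    funext l
    cases l <;> simp [hθ, aXY, aκ, c, u, v, io] <;> grind
  have h2 : θ.comp (FreeAlgebra.lift F2 aab) = FreeAlgebra.lift F2 aκ' := by
    apply FreeAlgebra.hom_ext
    funext l
    cases l <;> simp [hθ, aab, aκ', c, u, v, io] <;> grind
  rw [← h1, ← h2, AlgHom.comp_apply, AlgHom.comp_apply, stepC0 P hP h]

end Crest.Agent.R010.XU.SC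
end
private theorem rz_cbd7ddec0d : type_of% @_root_.Crest.Agent.R010.XU.SC.aXY.eq_1 := @_root_.Crest.Agent.R010.XU.SC.aXY.eq_1 -- L189
private theorem rz_0870b66404 : type_of% @_root_.Crest.Agent.R010.XU.SC.aab.eq_1 := @_root_.Crest.Agent.R010.XU.SC.aab.eq_1 -- L197
private theorem rz_2c3aa5a72d : type_of% @_root_.Crest.Agent.R010.XU.SC.«aκ».eq_1 := @_root_.Crest.Agent.R010.XU.SC.«aκ».eq_1 -- L263
private theorem rz_4713d20dca : type_of% @_root_.Crest.Agent.R010.XU.SC.«aκ'».eq_1 := @_root_.Crest.Agent.R010.XU.SC.«aκ'».eq_1 -- L271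
private theorem rz_2f6f8c0c2d : type_of% @_root_.Crest.Agent.R010.XU.SC.d0.eq_1 := @_root_.Crest.Agent.R010.XU.SC.d0.eq_1 -- L28
private theorem rz_0411981419 : type_of% @_root_.Crest.Agent.R010.XU.SC.d1.eq_1 := @_root_.Crest.Agent.R010.XU.SC.d1.eq_1 -- L34
private theorem rz_0e8c8d961b : type_of% @_root_.Crest.Agent.R010.XU.SC.«τXY».eq_1 := @_root_.Crest.Agent.R010.XU.SC.«τXY».eq_1 -- L125
private theorem rz_1b76d91842 : type_of% @_root_.Crest.Agent.R010.XU.SC.«τab».eq_1 := @_root_.Crest.Agent.R010.XU.SC.«τab».eq_1 -- L150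
private theorem rz_e265d5b1e9 : type_of% @_root_.Crest.Agent.R010.XU.SC.«τaz».eq_1 := @_root_.Crest.Agent.R010.XU.SC.«τaz».eq_1 -- L166
end

-- ▼ part R010/Elim5
section

/-!
Row 10 (S0011), upper bound (U), section 0: over `F₂`, every Lie element of weight `≥ 3` of
`F₂⟨x, y⟩` is `j P` with `P` a Lie polynomial in the five letters
`c = [x,y], e₀ = x², e₁ = y², f₀ = [y,x²], f₁ = [x,y²]`, `P ∈ W = ⟨f₀, f₁⟩ + [Lie, Lie]`.
-/

set_option autoImplicit false

noncomputable section

namespace Crest.Agent.R010.El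

attribute [local instance 100] LieRing.ofAssociativeRing

open Crest.Agent.R010.C

/-- the free algebra on the five letters `c, e₀, e₁, f₀, f₁`. -/
abbrev B5 : Type := FreeAlgebra F2 (Fin 5)

/-- the letters of `B5`: `0 = c`, `1 = e₀`, `2 = e₁`, `3 = f₀`, `4 = f₁`. -/
def l5 (i : Fin 5) : B5 := FreeAlgebra.ι F2 i

/-- the five elements `[a,b], a², b², [b,a²], [a,b²]` of any ring. -/
def five {A : Type*} [Ring A] (a b : A) : Fin 5 → A :=
  ![a * b - b * a, a ^ 2, b ^ 2, b * a ^ 2 - a ^ 2 * b, a * b ^ 2 - b ^ 2 * a]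

section five
variable {A : Type*} [Ring A] (a b : A)
@[simp] theorem five_zero : five a b 0 = a * b - b * a := rfl
@[simp] theorem five_one : five a b 1 = a ^ 2 := rfl
@[simp] theorem five_two : five a b 2 = b ^ 2 := rfl
@[simp] theorem five_three : five a b 3 = b * a ^ 2 - a ^ 2 * b := rfl
@[simp] theorem five_four : five a b 4 = a * b ^ 2 - b ^ 2 * a := rfl

theorem map_five {B : Type*} [Ring B] (f : A →+* B) (i : Fin 5) :
    f (five a b i) = five (f a) (f b) i := by
  fin_cases i <;> simp [five]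
end five

/-- the map `j : B5 → F₂⟨x,y⟩`. -/
def j : B5 →ₐ[F2] Alg F2 := FreeAlgebra.lift F2 (five (X F2) (Y F2))

@[simp] theorem j_l5 (i : Fin 5) : j (l5 i) = five (X F2) (Y F2) i := by
  simp [j, l5]

/-- evaluation of `j P` in any algebra. -/
theorem ev_j {A : Type*} [Ring A] [Algebra F2 A] (a b : A) (P : B5) :
    ev2 F2 a b (j P) = FreeAlgebra.lift F2 (five a b) P := by
  have : (ev2 F2 a b).comp j = FreeAlgebra.lift F2 (five a b) := by
    apply FreeAlgebra.hom_ext
    funext i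
    have h : (ev2 F2 a b) (five (X F2) (Y F2) i) = five a b i := by
      have h1 := map_five (X F2) (Y F2) ((ev2 F2 a b) : Alg F2 →+* A) i
      have hx : ev2 F2 a b (X F2) = a := by simp [ev2, X]
      have hy : ev2 F2 a b (Y F2) = b := by simp [ev2, Y]
      simpa [hx, hy] using h1
    simp [j, h]
  exact DFunLike.congr_fun this P

/-- `ad x` on `B5`. -/
def dx : B5 →ₗ[F2] B5 :=
  der F2 ![l5 3, 0, l5 4, l5 0 * l5 1 - l5 1 * l5 0, l5 1 * l5 2 - l5 2 * l5 1]

/-- `ad y` on `B5`. -/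
def dy : B5 →ₗ[F2] B5 :=
  der F2 ![l5 4, l5 3, 0, l5 2 * l5 1 - l5 1 * l5 2, l5 0 * l5 2 - l5 2 * l5 0]

theorem dx_mul (a b : B5) : dx (a * b) = dx a * b + a * dx b := der_mul _ a b
theorem dy_mul (a b : B5) : dy (a * b) = dy a * b + a * dy b := der_mul _ a b
@[simp] theorem dx_l5 (i : Fin 5) : dx (l5 i) =
    (![l5 3, 0, l5 4, l5 0 * l5 1 - l5 1 * l5 0, l5 1 * l5 2 - l5 2 * l5 1] : Fin 5 → B5) i :=
  der_ι _ i
@[simp] theorem dy_l5 (i : Fin 5) : dy (l5 i) =
    (![l5 4, l5 3, 0, l5 2 * l5 1 - l5 1 * l5 2, l5 0 * l5 2 - l5 2 * l5 0] : Fin 5 → B5) i :=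
  der_ι _ i

theorem two_smul_zero {A : Type*} [Ring A] [Algebra F2 A] (a : A) : (2 : ℤ) • a = 0 := by
  have h : ((2 : F2)) • a = 0 := by
    have : (2 : F2) = 0 := by decide
    rw [this, zero_smul]
  have h2 : (2 : F2) • a = a + a := two_smul F2 a
  rw [two_zsmul, ← h2, h]



theorem add_self_zero {A : Type*} [Ring A] [Algebra F2 A] (a : A) : a + a = 0 := by
  have := two_smul_zero a
  rwa [two_zsmul] at this

theorem neg_self_eq {A : Type*} [Ring A] [Algebra F2 A] (a : A) : -a = a :=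
  neg_eq_of_add_eq_zero_left (add_self_zero a)

theorem sub_self_eq {A : Type*} [Ring A] [Algebra F2 A] (a b : A) : a - b = a + b := by
  rw [sub_eq_add_neg, neg_self_eq]


theorem j_dx (P : B5) : j (dx P) = X F2 * j P - j P * X F2 := by
  induction P using FreeAlgebra.induction with
  | grade0 r =>
    have : dx (algebraMap F2 B5 r) = 0 := der_algebraMap _ r
    rw [this, map_zero, AlgHom.commutes, Algebra.commutes, sub_self]
  | grade1 i =>
    change j (dx (l5 i)) = X F2 * j (l5 i) - j (l5 i) * X F2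
    fin_cases i
    all_goals simp [sub_self_eq, pow_two, mul_add, add_mul, mul_assoc]
    all_goals (try abel_nf)
    all_goals (try simp only [two_smul_zero, add_zero])
  | mul a b ha hb =>
    rw [dx_mul, map_add, map_mul, map_mul, ha, hb, map_mul]
    noncomm_ring
  | add a b ha hb =>
    rw [map_add, map_add, ha, hb, map_add]
    noncomm_ring

theorem j_dy (P : B5) : j (dy P) = Y F2 * j P - j P * Y F2 := by
  induction P using FreeAlgebra.induction with
  | grade0 r =>
    have : dy (algebraMap F2 B5 r) = 0 := der_algebraMap _ r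
    rw [this, map_zero, AlgHom.commutes, Algebra.commutes, sub_self]
  | grade1 i =>
    change j (dy (l5 i)) = Y F2 * j (l5 i) - j (l5 i) * Y F2
    fin_cases i
    all_goals simp [sub_self_eq, pow_two, mul_add, add_mul, mul_assoc]
    all_goals (try abel_nf)
    all_goals (try simp only [two_smul_zero, add_zero])
  | mul a b ha hb =>
    rw [dy_mul, map_add, map_mul, map_mul, ha, hb, map_mul]
    noncomm_ring
  | add a b ha hb =>
    rw [map_add, map_add, ha, hb, map_add]
    noncomm_ring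


/-! ### The subspace `W` -/

/-- Lie polynomials in the five letters. -/
abbrev L5 : LieSubalgebra F2 B5 := LieX F2 (Fin 5)

theorem l5_mem (i : Fin 5) : l5 i ∈ L5 := LieSubalgebra.subset_lieSpan ⟨i, rfl⟩

theorem comm_mem {R : Type*} [CommRing R] {Z : Type*} {a b : FreeAlgebra R Z}
    (ha : a ∈ LieX R Z) (hb : b ∈ LieX R Z) : a * b - b * a ∈ LieX R Z := by
  have := (LieX R Z).lie_mem ha hb
  rwa [LieRing.of_associative_ring_bracket] at this

/-- Induction principle for Lie polynomials. -/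
theorem LieX_induction {R : Type*} [CommRing R] {Z : Type*} {p : FreeAlgebra R Z → Prop}
    (hι : ∀ i, p (FreeAlgebra.ι R i)) (h0 : p 0)
    (hadd : ∀ a b, a ∈ LieX R Z → b ∈ LieX R Z → p a → p b → p (a + b))
    (hsmul : ∀ (r : R) a, a ∈ LieX R Z → p a → p (r • a))
    (hlie : ∀ a b, a ∈ LieX R Z → b ∈ LieX R Z → p a → p b → p (a * b - b * a))
    {a : FreeAlgebra R Z} (ha : a ∈ LieX R Z) : p a := by
  induction ha using LieSubalgebra.lieSpan_induction with
  | mem x h => obtain ⟨i, rfl⟩ := h; exact hι i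
  | zero => exact h0
  | add x y hx hy h1 h2 => exact hadd x y hx hy h1 h2
  | smul r x hx h1 => exact hsmul r x hx h1
  | lie x y hx hy h1 h2 =>
    rw [LieRing.of_associative_ring_bracket]
    exact hlie x y hx hy h1 h2

theorem der_LieX {R : Type*} [CommRing R] {Z : Type*} {d : Z → FreeAlgebra R Z}
    (hd : ∀ i, d i ∈ LieX R Z) {a : FreeAlgebra R Z} (ha : a ∈ LieX R Z) :
    der R d a ∈ LieX R Z := by
  refine LieX_induction (p := fun a => der R d a ∈ LieX R Z) ?_ ?_ ?_ ?_ ?_ ha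
  · intro i; rw [der_ι]; exact hd i
  · rw [map_zero]; exact zero_mem _
  · intro a b _ _ h1 h2; rw [map_add]; exact add_mem h1 h2
  · intro r a _ h1; rw [map_smul]; exact (LieX R Z).smul_mem r h1
  · intro a b ha hb h1 h2
    rw [map_sub, der_mul, der_mul]
    have e : der R d a * b + a * der R d b - (der R d b * a + b * der R d a)
        = (der R d a * b - b * der R d a) + (a * der R d b - der R d b * a) := by noncomm_ring
    rw [e]
    exact add_mem (comm_mem h1 hb) (comm_mem ha h2)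

/-- `[Lie, Lie]`. -/
def LL : Submodule F2 B5 := Submodule.span F2 {p | ∃ a ∈ L5, ∃ b ∈ L5, p = a * b - b * a}

/-- `W = ⟨f₀, f₁⟩ + [Lie, Lie]`. -/
def W : Submodule F2 B5 := Submodule.span F2 {l5 3, l5 4} ⊔ LL

theorem LL_le_W : LL ≤ W := le_sup_right
theorem l3_W : l5 3 ∈ W := (le_sup_left : _ ≤ W) (Submodule.subset_span (by simp))
theorem l4_W : l5 4 ∈ W := (le_sup_left : _ ≤ W) (Submodule.subset_span (by simp))
theorem comm_LL {a b : B5} (ha : a ∈ L5) (hb : b ∈ L5) : a * b - b * a ∈ LL :=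
  Submodule.subset_span ⟨a, ha, b, hb, rfl⟩

theorem LL_le_L5 : LL ≤ L5.toSubmodule := by
  refine Submodule.span_le.2 ?_
  rintro _ ⟨a, ha, b, hb, rfl⟩
  exact comm_mem ha hb

theorem W_le_L5 : W ≤ L5.toSubmodule := by
  refine sup_le (Submodule.span_le.2 ?_) LL_le_L5
  intro p hp
  rcases hp with rfl | rfl
  · exact l5_mem 3
  · exact l5_mem 4

theorem dx_L5 {a : B5} (ha : a ∈ L5) : dx a ∈ L5 := by
  refine der_LieX ?_ ha
  intro i
  fin_cases i
  · exact l5_mem 3
  · exact zero_mem _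
  · exact l5_mem 4
  · exact comm_mem (l5_mem 0) (l5_mem 1)
  · exact comm_mem (l5_mem 1) (l5_mem 2)

theorem dy_L5 {a : B5} (ha : a ∈ L5) : dy a ∈ L5 := by
  refine der_LieX ?_ ha
  intro i
  fin_cases i
  · exact l5_mem 4
  · exact l5_mem 3
  · exact zero_mem _
  · exact comm_mem (l5_mem 2) (l5_mem 1)
  · exact comm_mem (l5_mem 0) (l5_mem 2)

theorem der_LL {D : B5 →ₗ[F2] B5} (hD : ∀ a b, D (a * b) = D a * b + a * D b)
    (hL : ∀ a ∈ L5, D a ∈ L5) {p : B5} (hp : p ∈ LL) : D p ∈ LL := by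
  refine Submodule.span_induction (p := fun p _ => D p ∈ LL) ?_ ?_ ?_ ?_ hp
  · rintro _ ⟨a, ha, b, hb, rfl⟩
    rw [map_sub, hD, hD]
    have e : D a * b + a * D b - (D b * a + b * D a)
        = (D a * b - b * D a) + (a * D b - D b * a) := by noncomm_ring
    rw [e]
    exact add_mem (comm_LL (hL a ha) hb) (comm_LL ha (hL b hb))
  · rw [map_zero]; exact zero_mem _
  · intro a b _ _ h1 h2; rw [map_add]; exact add_mem h1 h2
  · intro r a _ h1; rw [map_smul]; exact LL.smul_mem r h1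

theorem W_induction {p : B5 → Prop} (h3 : p (l5 3)) (h4 : p (l5 4)) (hLL : ∀ a ∈ LL, p a)
    (hadd : ∀ a b, a ∈ W → b ∈ W → p a → p b → p (a + b))
    (hsmul : ∀ (r : F2) a, a ∈ W → p a → p (r • a)) {a : B5} (ha : a ∈ W) : p a := by
  obtain ⟨b, hb, c, hc, rfl⟩ := Submodule.mem_sup.1 ha
  obtain ⟨r, s, rfl⟩ := Submodule.mem_span_pair.1 hb
  refine hadd _ _ ?_ (LL_le_W hc) (hadd _ _ (W.smul_mem r l3_W) (W.smul_mem s l4_W)
    (hsmul _ _ l3_W h3) (hsmul _ _ l4_W h4)) (hLL _ hc)
  exact W.add_mem (W.smul_mem r l3_W) (W.smul_mem s l4_W)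

theorem dx_W {a : B5} (ha : a ∈ W) : dx a ∈ W := by
  refine W_induction (p := fun a => dx a ∈ W) ?_ ?_ ?_ ?_ ?_ ha
  · rw [dx_l5]; exact LL_le_W (comm_LL (l5_mem 0) (l5_mem 1))
  · rw [dx_l5]; exact LL_le_W (comm_LL (l5_mem 1) (l5_mem 2))
  · intro a ha; exact LL_le_W (der_LL dx_mul (fun _ h => dx_L5 h) ha)
  · intro a b _ _ h1 h2; rw [map_add]; exact add_mem h1 h2
  · intro r a _ h1; rw [map_smul]; exact W.smul_mem r h1

theorem dy_W {a : B5} (ha : a ∈ W) : dy a ∈ W := by
  refine W_induction (p := fun a => dy a ∈ W) ?_ ?_ ?_ ?_ ?_ ha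
  · rw [dy_l5]; exact LL_le_W (comm_LL (l5_mem 2) (l5_mem 1))
  · rw [dy_l5]; exact LL_le_W (comm_LL (l5_mem 0) (l5_mem 2))
  · intro a ha; exact LL_le_W (der_LL dy_mul (fun _ h => dy_L5 h) ha)
  · intro a b _ _ h1 h2; rw [map_add]; exact add_mem h1 h2
  · intro r a _ h1; rw [map_smul]; exact W.smul_mem r h1

/-- Every Lie element is `α x + β y + γ [x,y] + j P` with `P ∈ W`. -/
theorem LieX_decomp {ψ : Alg F2} (hψ : ψ ∈ LieX F2 (Fin 2)) :
    ∃ (r s t : F2) (P : B5), P ∈ W ∧
      ψ = r • X F2 + s • Y F2 + t • (X F2 * Y F2 - Y F2 * X F2) + j P := by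
  refine LieX_induction (p := fun ψ => ∃ (r s t : F2) (P : B5), P ∈ W ∧
      ψ = r • X F2 + s • Y F2 + t • (X F2 * Y F2 - Y F2 * X F2) + j P) ?_ ?_ ?_ ?_ ?_ hψ
  · intro i
    fin_cases i
    · exact ⟨1, 0, 0, 0, zero_mem _, by simp [X]⟩
    · exact ⟨0, 1, 0, 0, zero_mem _, by simp [Y]⟩
  · exact ⟨0, 0, 0, 0, zero_mem _, by simp⟩
  · rintro a b _ _ ⟨r, s, t, P, hP, rfl⟩ ⟨r', s', t', P', hP', rfl⟩
    refine ⟨r + r', s + s', t + t', P + P', add_mem hP hP', ?_⟩
    rw [map_add]
    module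
  · rintro q a _ ⟨r, s, t, P, hP, rfl⟩
    refine ⟨q * r, q * s, q * t, q • P, W.smul_mem q hP, ?_⟩
    rw [map_smul]
    module
  · rintro a b _ _ ⟨r, s, t, P, hP, rfl⟩ ⟨r', s', t', P', hP', rfl⟩
    have hPL : P ∈ L5 := W_le_L5 hP
    have hPL' : P' ∈ L5 := W_le_L5 hP'
    refine ⟨0, 0, r * s' - s * r',
      (r * t' - t * r') • l5 3 + (s * t' - t * s') • l5 4 + r • dx P' - r' • dx P
        + s • dy P' - s' • dy P + t • (l5 0 * P' - P' * l5 0) - t' • (l5 0 * P - P * l5 0)
        + (P * P' - P' * P), ?_, ?_⟩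
    · refine add_mem (sub_mem (add_mem (sub_mem (add_mem (sub_mem (add_mem (add_mem ?_ ?_) ?_)
        ?_) ?_) ?_) ?_) ?_) ?_
      · exact W.smul_mem _ l3_W
      · exact W.smul_mem _ l4_W
      · exact W.smul_mem _ (dx_W hP')
      · exact W.smul_mem _ (dx_W hP)
      · exact W.smul_mem _ (dy_W hP')
      · exact W.smul_mem _ (dy_W hP)
      · exact W.smul_mem _ (LL_le_W (comm_LL (l5_mem 0) hPL'))
      · exact W.smul_mem _ (LL_le_W (comm_LL (l5_mem 0) hPL))
      · exact LL_le_W (comm_LL hPL hPL')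
    · have hx : j (l5 3) = X F2 * (X F2 * Y F2 - Y F2 * X F2)
          - (X F2 * Y F2 - Y F2 * X F2) * X F2 := by
        have := j_dx (l5 0)
        simpa using this
      have hy : j (l5 4) = Y F2 * (X F2 * Y F2 - Y F2 * X F2)
          - (X F2 * Y F2 - Y F2 * X F2) * Y F2 := by
        have := j_dy (l5 0)
        simpa using this
      simp only [map_add, map_sub, map_smul, map_mul, j_dx, j_dy, hx, hy]
      have h0 : j (l5 0) = X F2 * Y F2 - Y F2 * X F2 := by simp
      rw [h0]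
      simp only [add_mul, mul_add, sub_mul, mul_sub, smul_mul_assoc, mul_smul_comm, smul_sub,
        smul_add, mul_assoc, smul_smul]
      module


/-! ### Weights -/

/-- detection of the words of length `≤ 2`: strictly upper triangular `3 × 3` matrices. -/
def MX : Matrix (Fin 3) (Fin 3) F2 := !![0, 1, 0; 0, 0, 0; 0, 0, 0]
/-- see `MX`. -/
def MY : Matrix (Fin 3) (Fin 3) F2 := !![0, 0, 0; 0, 0, 1; 0, 0, 0]
/-- see `MX`. -/
def MT : Matrix (Fin 3) (Fin 3) F2 := !![0, 0, 1; 0, 0, 0; 0, 0, 0]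

/-- see `MX`. -/
def rho : Alg F2 →ₐ[F2] Matrix (Fin 3) (Fin 3) F2 := ev2 F2 MX MY

theorem rho_ι (i : Fin 2) : rho (FreeAlgebra.ι F2 i) = ![MX, MY] i := by simp [rho, ev2]

theorem rho_three (a b c : Fin 2) :
    (![MX, MY] a : Matrix (Fin 3) (Fin 3) F2) * (![MX, MY] b * ![MX, MY] c) = 0 := by
  revert a b c; decide

theorem rho_word (l : List (Fin 2)) (h : 3 ≤ l.length) :
    rho ((l.map (FreeAlgebra.ι F2)).prod) = 0 := by
  match l, h with
  | a :: b :: c :: l', _ =>
    simp only [List.map_cons, List.prod_cons, map_mul, rho_ι]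
    have := rho_three a b c
    calc _ = ((![MX, MY] a : Matrix (Fin 3) (Fin 3) F2) * (![MX, MY] b * ![MX, MY] c))
        * rho ((l'.map (FreeAlgebra.ι F2)).prod) := by simp only [mul_assoc]
      _ = 0 := by rw [this, zero_mul]

theorem rho_wtA {N : ℕ} (hN : 3 ≤ N) {ψ : Alg F2} (hψ : ψ ∈ wtA F2 (fun _ : Fin 2 => 1) N) :
    rho ψ = 0 := by
  refine Submodule.span_induction (p := fun ψ _ => rho ψ = 0) ?_ ?_ ?_ ?_ hψ
  · rintro _ ⟨l, hl, rfl⟩
    apply rho_word
    have : (l.map (fun _ : Fin 2 => 1)).sum = l.length := by simp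
    omega
  · simp
  · intro a b _ _ h1 h2; rw [map_add, h1, h2, add_zero]
  · intro r a _ h1; rw [map_smul, h1, smul_zero]

theorem rho_j_l5 (i : Fin 5) : ∃ u : F2, rho (j (l5 i)) = u • MT := by
  have h : rho (j (l5 i)) = five MX MY i := by
    have := ev_j MX MY (l5 i)
    rw [rho, this]
    simp [l5]
  rw [h]
  fin_cases i
  · exact ⟨1, by decide⟩
  · exact ⟨0, by decide⟩
  · exact ⟨0, by decide⟩
  · exact ⟨0, by decide⟩
  · exact ⟨0, by decide⟩

theorem rho_j_l3 : rho (j (l5 3)) = 0 := by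
  have h : rho (j (l5 3)) = five MX MY 3 := by
    have := ev_j MX MY (l5 3)
    rw [rho, this]
    simp [l5]
  rw [h]; decide

theorem rho_j_l4 : rho (j (l5 4)) = 0 := by
  have h : rho (j (l5 4)) = five MX MY 4 := by
    have := ev_j MX MY (l5 4)
    rw [rho, this]
    simp [l5]
  rw [h]; decide

theorem rho_j_L5 {a : B5} (ha : a ∈ L5) : ∃ u : F2, rho (j a) = u • MT := by
  refine LieX_induction (p := fun a => ∃ u : F2, rho (j a) = u • MT) rho_j_l5 ?_ ?_ ?_ ?_ ha
  · exact ⟨0, by simp⟩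
  · rintro a b _ _ ⟨u, hu⟩ ⟨v, hv⟩
    exact ⟨u + v, by rw [map_add, map_add, hu, hv, add_smul]⟩
  · rintro r a _ ⟨u, hu⟩
    exact ⟨r * u, by rw [map_smul, map_smul, hu, mul_smul]⟩
  · rintro a b _ _ ⟨u, hu⟩ ⟨v, hv⟩
    refine ⟨0, ?_⟩
    rw [map_sub, map_mul, map_mul, map_sub, map_mul, map_mul, hu, hv]
    simp [mul_comm u v, smul_smul]

theorem rho_j_W {a : B5} (ha : a ∈ W) : rho (j a) = 0 := by
  refine W_induction (p := fun a => rho (j a) = 0) rho_j_l3 rho_j_l4 ?_ ?_ ?_ ha
  · intro a ha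
    refine Submodule.span_induction (p := fun a _ => rho (j a) = 0) ?_ ?_ ?_ ?_ ha
    · rintro _ ⟨a, ha, b, hb, rfl⟩
      obtain ⟨u, hu⟩ := rho_j_L5 ha
      obtain ⟨v, hv⟩ := rho_j_L5 hb
      rw [map_sub, map_mul, map_mul, map_sub, map_mul, map_mul, hu, hv]
      simp [mul_comm u v, smul_smul]
    · simp
    · intro a b _ _ h1 h2; rw [map_add, map_add, h1, h2, add_zero]
    · intro r a _ h1; rw [map_smul, map_smul, h1, smul_zero]
  · intro a b _ _ h1 h2; rw [map_add, map_add, h1, h2, add_zero]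
  · intro r a _ h1; rw [map_smul, map_smul, h1, smul_zero]

/-- **Elimination.** Every Lie element of weight `N ≥ 3` over `F₂` is `j P` with `P ∈ W`. -/
theorem elim5 {N : ℕ} (hN : 3 ≤ N) {ψ : Alg F2} (hw : ψ ∈ wtA F2 (fun _ : Fin 2 => 1) N)
    (hψ : ψ ∈ LieX F2 (Fin 2)) : ∃ P ∈ W, j P = ψ := by
  obtain ⟨r, s, t, P, hP, h⟩ := LieX_decomp hψ
  have h1 := congrArg rho h
  rw [rho_wtA hN hw, map_add, rho_j_W hP, add_zero] at h1
  have hX : rho (X F2) = MX := by simp [X, rho_ι]
  have hY : rho (Y F2) = MY := by simp [Y, rho_ι]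
  simp only [map_add, map_sub, map_smul, map_mul, hX, hY] at h1
  have key : ∀ r s t : F2, (0 : Matrix (Fin 3) (Fin 3) F2)
      = r • MX + s • MY + t • (MX * MY - MY * MX) → r = 0 ∧ s = 0 ∧ t = 0 := by decide
  obtain ⟨rfl, rfl, rfl⟩ := key r s t h1
  exact ⟨P, hP, by rw [h]; simp⟩

/-! ### Evaluation of Lie polynomials at commuting families -/

section eval
variable {R : Type*} [CommRing R] {Z : Type*} {M : Type*} [Ring M] [Algebra R M]


/-- values of polynomials in commuting families commute. -/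
theorem lift_commute {Z' : Type*} {u : Z → M} {v : Z' → M} (h : ∀ i k, Commute (u i) (v k))
    (P : FreeAlgebra R Z) (Q : FreeAlgebra R Z') :
    Commute (FreeAlgebra.lift R u P) (FreeAlgebra.lift R v Q) := by
  induction P using FreeAlgebra.induction with
  | grade0 r => rw [AlgHom.commutes]; exact Algebra.commutes r _
  | grade1 i =>
    rw [FreeAlgebra.lift_ι_apply]
    induction Q using FreeAlgebra.induction with
    | grade0 r => rw [AlgHom.commutes]; exact (Algebra.commutes r _).symm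
    | grade1 k => rw [FreeAlgebra.lift_ι_apply]; exact h i k
    | mul a b ha hb => rw [map_mul]; exact ha.mul_right hb
    | add a b ha hb => rw [map_add]; exact ha.add_right hb
  | mul a b ha hb => rw [map_mul]; exact ha.mul_left hb
  | add a b ha hb => rw [map_add]; exact ha.add_left hb


end eval

section evalW
variable {M : Type*} [Ring M] [Algebra F2 M]

/-- A commuting family kills `[Lie, Lie]`. -/
theorem lift_LL_of_comm {u : Fin 5 → M} (h : ∀ i k, Commute (u i) (u k)) {P : B5} (hP : P ∈ LL) :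
    FreeAlgebra.lift F2 u P = 0 := by
  refine Submodule.span_induction (p := fun P _ => FreeAlgebra.lift F2 u P = 0) ?_ ?_ ?_ ?_ hP
  · rintro _ ⟨a, _, b, _, rfl⟩
    rw [map_sub, map_mul, map_mul, (lift_commute h a b).eq, sub_self]
  · simp
  · intro a b _ _ h1 h2; rw [map_add, h1, h2, add_zero]
  · intro r a _ h1; rw [map_smul, h1, smul_zero]

/-- A commuting family with `f₀ = f₁ = 0` kills `W`. -/
theorem lift_W_of_comm {u : Fin 5 → M} (h : ∀ i k, Commute (u i) (u k)) (h3 : u 3 = 0)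
    (h4 : u 4 = 0) {P : B5} (hP : P ∈ W) : FreeAlgebra.lift F2 u P = 0 := by
  refine W_induction (p := fun P => FreeAlgebra.lift F2 u P = 0) ?_ ?_ ?_ ?_ ?_ hP
  · simp [l5, h3]
  · simp [l5, h4]
  · intro a ha; exact lift_LL_of_comm h ha
  · intro a b _ _ h1 h2; rw [map_add, h1, h2, add_zero]
  · intro r a _ h1; rw [map_smul, h1, smul_zero]



end evalW

end Crest.Agent.R010.El
end
end

-- ▼ part R010/XGrade
section

/-!
Row 10 (S0011): weight gradings of free algebras (`wtA`), components, compatibility with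
homomorphisms, derivations, Lie elements.
-/

set_option autoImplicit false

noncomputable section

namespace Crest.Agent.R010.El

attribute [local instance 100] LieRing.ofAssociativeRing

open Crest.Agent.R010.C

section grade
variable {R : Type*} [CommRing R] {Z : Type*} (w : Z → ℕ)

/-- the grading homomorphism `ι i ↦ T^{w i} ι i`. -/
def gw : FreeAlgebra R Z →ₐ[R] Polynomial (FreeAlgebra R Z) :=
  FreeAlgebra.lift R (fun i => Polynomial.monomial (w i) (FreeAlgebra.ι R i))

/-- the component of weight `n`. -/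
def cw (n : ℕ) : FreeAlgebra R Z →ₗ[R] FreeAlgebra R Z where
  toFun p := (gw w p).coeff n
  map_add' a b := by rw [map_add, Polynomial.coeff_add]
  map_smul' r a := by rw [map_smul, Polynomial.coeff_smul]; rfl

theorem cw_def (n : ℕ) (p : FreeAlgebra R Z) : cw w n p = (gw w p).coeff n := rfl

theorem gw_word (l : List Z) : gw w ((l.map (FreeAlgebra.ι R)).prod)
    = Polynomial.monomial ((l.map w).sum) ((l.map (FreeAlgebra.ι R)).prod) := by
  induction l with
  | nil => simp
  | cons a l ih =>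
    simp only [List.map_cons, List.prod_cons, List.sum_cons, map_mul, ih]
    rw [gw, FreeAlgebra.lift_ι_apply, Polynomial.monomial_mul_monomial]

theorem gw_of_mem {N : ℕ} {p : FreeAlgebra R Z} (h : p ∈ wtA R w N) :
    gw w p = Polynomial.monomial N p := by
  refine Submodule.span_induction (p := fun p _ => gw w p = Polynomial.monomial N p)
    ?_ ?_ ?_ ?_ h
  · rintro _ ⟨l, hl, rfl⟩
    rw [gw_word, hl]
  · simp
  · intro a b _ _ h1 h2; rw [map_add, h1, h2, map_add]
  · intro r a _ h1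
    rw [map_smul, h1, ← Polynomial.smul_monomial]

theorem cw_of_mem {N : ℕ} {p : FreeAlgebra R Z} (h : p ∈ wtA R w N) : cw w N p = p := by
  rw [cw_def, gw_of_mem w h, Polynomial.coeff_monomial, if_pos rfl]

theorem cw_of_mem_ne {N n : ℕ} {p : FreeAlgebra R Z} (h : p ∈ wtA R w N) (hn : n ≠ N) :
    cw w n p = 0 := by
  rw [cw_def, gw_of_mem w h, Polynomial.coeff_monomial, if_neg (fun h => hn h.symm)]

/-- the words span. -/
theorem word_induction {p : FreeAlgebra R Z → Prop}
    (hw : ∀ l : List Z, p ((l.map (FreeAlgebra.ι R)).prod))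
    (h0 : p 0) (hadd : ∀ a b, p a → p b → p (a + b)) (hsmul : ∀ (r : R) a, p a → p (r • a))
    (a : FreeAlgebra R Z) : p a := by
  have key : a ∈ Submodule.span R
      (Set.range (fun l : List Z => (l.map (FreeAlgebra.ι R)).prod)) := by
    induction a using FreeAlgebra.induction with
    | grade0 r =>
      rw [Algebra.algebraMap_eq_smul_one]
      exact Submodule.smul_mem _ _ (Submodule.subset_span ⟨[], by simp⟩)
    | grade1 i => exact Submodule.subset_span ⟨[i], by simp⟩
    | mul a b ha hb =>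
      have h := Submodule.mul_mem_mul ha hb
      rw [Submodule.span_mul_span] at h
      refine Submodule.span_mono ?_ h
      rintro _ ⟨_, ⟨l, rfl⟩, _, ⟨l', rfl⟩, rfl⟩
      exact ⟨l ++ l', by simp⟩
    | add a b ha hb => exact add_mem ha hb
  refine Submodule.span_induction (p := fun a _ => p a) ?_ h0 (fun a b _ _ => hadd a b)
    (fun r a _ => hsmul r a) key
  rintro _ ⟨l, rfl⟩
  exact hw l

theorem word_mem (l : List Z) :
    ((l.map (FreeAlgebra.ι R)).prod : FreeAlgebra R Z) ∈ wtA R w (l.map w).sum :=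
  Submodule.subset_span ⟨l, rfl, rfl⟩

theorem cw_mem (n : ℕ) (p : FreeAlgebra R Z) : cw w n p ∈ wtA R w n := by
  refine word_induction (p := fun p => cw w n p ∈ wtA R w n) ?_ ?_ ?_ ?_ p
  · intro l
    by_cases h : n = (l.map w).sum
    · subst h
      rw [cw_of_mem w (word_mem w l)]; exact word_mem w l
    · rw [cw_of_mem_ne w (word_mem w l) h]; exact zero_mem _
  · rw [map_zero]; exact zero_mem _
  · intro a b h1 h2; rw [map_add]; exact add_mem h1 h2
  · intro r a h1; rw [map_smul]; exact Submodule.smul_mem _ r h1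


theorem mul_mem_wtA {m n : ℕ} {p q : FreeAlgebra R Z} (hp : p ∈ wtA R w m)
    (hq : q ∈ wtA R w n) : p * q ∈ wtA R w (m + n) := by
  have h := Submodule.mul_mem_mul hp hq
  rw [wtA, wtA, Submodule.span_mul_span] at h
  refine Submodule.span_mono ?_ h
  rintro _ ⟨_, ⟨l, hl, rfl⟩, _, ⟨l', hl', rfl⟩, rfl⟩
  exact ⟨l ++ l', by simp [hl, hl'], by simp⟩

theorem one_mem_wtA : (1 : FreeAlgebra R Z) ∈ wtA R w 0 :=
  Submodule.subset_span ⟨[], by simp, by simp⟩

theorem ι_mem_wtA (i : Z) : FreeAlgebra.ι R i ∈ wtA R w (w i) :=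
  Submodule.subset_span ⟨[i], by simp, by simp⟩

/-- graded homomorphisms. -/
theorem lift_word_mem {Z' : Type*} {w' : Z' → ℕ} {f : Z → FreeAlgebra R Z'}
    (hf : ∀ i, f i ∈ wtA R w' (w i)) (l : List Z) :
    FreeAlgebra.lift R f ((l.map (FreeAlgebra.ι R)).prod) ∈ wtA R w' (l.map w).sum := by
  induction l with
  | nil => simpa using one_mem_wtA w'
  | cons a l ih =>
    simp only [List.map_cons, List.prod_cons, List.sum_cons, map_mul, FreeAlgebra.lift_ι_apply]
    exact mul_mem_wtA w' (hf a) ih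


theorem cw_lift {Z' : Type*} {w' : Z' → ℕ} {f : Z → FreeAlgebra R Z'}
    (hf : ∀ i, f i ∈ wtA R w' (w i)) (n : ℕ) (p : FreeAlgebra R Z) :
    cw w' n (FreeAlgebra.lift R f p) = FreeAlgebra.lift R f (cw w n p) := by
  refine word_induction (p := fun p => cw w' n (FreeAlgebra.lift R f p)
    = FreeAlgebra.lift R f (cw w n p)) ?_ ?_ ?_ ?_ p
  · intro l
    by_cases h : n = (l.map w).sum
    · subst h
      rw [cw_of_mem w (word_mem w l), cw_of_mem w' (lift_word_mem w hf l)]
    · rw [cw_of_mem_ne w (word_mem w l) h, cw_of_mem_ne w' (lift_word_mem w hf l) h, map_zero]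
  · simp
  · intro a b h1 h2; simp only [map_add, h1, h2]
  · intro r a h1; simp only [map_smul, h1]

/-- components of a product. -/
theorem cw_mul (n : ℕ) (p q : FreeAlgebra R Z) :
    cw w n (p * q) = ∑ x ∈ Finset.HasAntidiagonal.antidiagonal n, cw w x.1 p * cw w x.2 q := by
  rw [cw_def, map_mul, Polynomial.coeff_mul]; rfl

theorem cw_ι (n : ℕ) (i : Z) :
    cw w n (FreeAlgebra.ι R i) = if n = w i then FreeAlgebra.ι R i else 0 := by
  split_ifs with h
  · subst h; exact cw_of_mem w (ι_mem_wtA w i)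
  · exact cw_of_mem_ne w (ι_mem_wtA w i) h

/-- components of Lie elements are Lie elements. -/
theorem cw_LieX {p : FreeAlgebra R Z} (hp : p ∈ LieX R Z) : ∀ n, cw w n p ∈ LieX R Z := by
  refine LieX_induction (p := fun p => ∀ n, cw w n p ∈ LieX R Z) ?_ ?_ ?_ ?_ ?_ hp
  · intro i n
    rw [cw_ι]
    split_ifs
    · exact LieSubalgebra.subset_lieSpan ⟨i, rfl⟩
    · exact zero_mem _
  · intro n; rw [map_zero]; exact zero_mem _
  · intro a b _ _ h1 h2 n; rw [map_add]; exact add_mem (h1 n) (h2 n)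
  · intro r a _ h1 n; rw [map_smul]; exact (LieX R Z).smul_mem r (h1 n)
  · intro a b _ _ h1 h2 n
    rw [map_sub, cw_mul, cw_mul]
    rw [← Finset.Nat.sum_antidiagonal_swap (f := fun x => cw w x.1 b * cw w x.2 a),
      ← Finset.sum_sub_distrib]
    refine sum_mem (fun x _ => ?_)
    exact comm_mem (h1 _) (h2 _)

end grade

end Crest.Agent.R010.El
end
end

-- ▼ part R010/XD
section

/-!
Row 10 (S0011): from the exact form of the upper bound (steps B and C) to the interface
`UpperBound`, and the exact injectivity statements.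
-/

set_option autoImplicit false

noncomputable section

namespace Crest.Agent.R010.El

attribute [local instance 100] LieRing.ofAssociativeRing

open Crest.Agent.R010.C

/-- free algebra on `c = ι 0`, `f = ι 1`. -/
abbrev C2 : Type := FreeAlgebra F2 (Fin 2)

/-- the letter `c` -/
def lc : C2 := FreeAlgebra.ι F2 0
/-- the letter `f` -/
def lf : C2 := FreeAlgebra.ι F2 1

/-- `ad(c)^k f`. -/
def adf : ℕ → C2
  | 0 => lf
  | k + 1 => lc * adf k - adf k * lc

/-- `e_k ↦ ad(c)^k f`. -/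
def el : FreeAlgebra F2 ℕ →ₐ[F2] C2 := FreeAlgebra.lift F2 adf

@[simp] theorem el_ι (k : ℕ) : el (FreeAlgebra.ι F2 k) = adf k := by simp [el]

/-- `c ↦ c, f ↦ f₀` -/
def inc : C2 →ₐ[F2] B5 := FreeAlgebra.lift F2 ![l5 0, l5 3]

@[simp] theorem inc_lc : inc lc = l5 0 := by simp [inc, lc]
@[simp] theorem inc_lf : inc lf = l5 3 := by simp [inc, lf]

/-- `κ : c, e₀, f₀ ↦ c, e₀, f₀`, `e₁, f₁ ↦ 0`. -/
def kap : B5 →ₐ[F2] B5 := FreeAlgebra.lift F2 ![l5 0, l5 1, 0, l5 3, 0]

/-- `κ' : c ↦ c`, `f₁ ↦ f₀`, the others `↦ 0`. -/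
def kap' : B5 →ₐ[F2] B5 := FreeAlgebra.lift F2 ![l5 0, 0, 0, 0, l5 3]

/-- `κ'` with values in `C2`. -/
def kap2 : B5 →ₐ[F2] C2 := FreeAlgebra.lift F2 ![lc, 0, 0, 0, lf]

theorem inc_kap2 (P : B5) : inc (kap2 P) = kap' P := by
  have : inc.comp kap2 = kap' := by
    apply FreeAlgebra.hom_ext
    funext i
    fin_cases i <;> simp [kap2, kap']
  exact DFunLike.congr_fun this P

/-! ### The shift and the retraction of `el` -/

/-- the derivation `e_k ↦ e_{k+1}`. -/
def shN : FreeAlgebra F2 ℕ →ₗ[F2] FreeAlgebra F2 ℕ := der F2 (fun k => FreeAlgebra.ι F2 (k + 1))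






theorem el_shN (P : FreeAlgebra F2 ℕ) : el (shN P) = lc * el P - el P * lc := by
  induction P using FreeAlgebra.induction with
  | grade0 r =>
    have : shN (algebraMap F2 _ r) = 0 := der_algebraMap _ r
    rw [this, map_zero, AlgHom.commutes, Algebra.commutes, sub_self]
  | grade1 i => rw [shN, der_ι, el_ι, el_ι, adf]
  | mul a b ha hb =>
    have : shN (a * b) = shN a * b + a * shN b := der_mul _ a b
    rw [this, map_add, map_mul, map_mul, ha, hb, map_mul]
    noncomm_ring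
  | add a b ha hb =>
    rw [map_add, map_add, ha, hb, map_add]
    noncomm_ring

/-- Lie elements of `F₂⟨c, f⟩`: `t c + el P`. -/
theorem LieX_cf {q : C2} (hq : q ∈ LieX F2 (Fin 2)) :
    ∃ (t : F2) (P : FreeAlgebra F2 ℕ), P ∈ LieX F2 ℕ ∧ q = t • lc + el P := by
  refine LieX_induction (p := fun q => ∃ (t : F2) (P : FreeAlgebra F2 ℕ), P ∈ LieX F2 ℕ ∧
    q = t • lc + el P) ?_ ?_ ?_ ?_ ?_ hq
  · intro i
    fin_cases i
    · exact ⟨1, 0, zero_mem _, by simp [lc]⟩
    · exact ⟨0, FreeAlgebra.ι F2 0, LieSubalgebra.subset_lieSpan ⟨0, rfl⟩, by simp [adf, lf]⟩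
  · exact ⟨0, 0, zero_mem _, by simp⟩
  · rintro a b _ _ ⟨t, P, hP, rfl⟩ ⟨t', P', hP', rfl⟩
    refine ⟨t + t', P + P', add_mem hP hP', ?_⟩
    rw [map_add]; module
  · rintro r a _ ⟨t, P, hP, rfl⟩
    refine ⟨r * t, r • P, (LieX F2 ℕ).smul_mem r hP, ?_⟩
    rw [map_smul]; module
  · rintro a b _ _ ⟨t, P, hP, rfl⟩ ⟨t', P', hP', rfl⟩
    have hs : ∀ Q ∈ LieX F2 ℕ, shN Q ∈ LieX F2 ℕ := fun Q hQ =>
      der_LieX (fun k => LieSubalgebra.subset_lieSpan ⟨k + 1, rfl⟩) hQ
    refine ⟨0, t • shN P' - t' • shN P + (P * P' - P' * P), ?_, ?_⟩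
    · exact add_mem (sub_mem ((LieX F2 ℕ).smul_mem t (hs _ hP'))
        ((LieX F2 ℕ).smul_mem t' (hs _ hP))) (comm_mem hP hP')
    · simp only [map_add, map_sub, map_smul, map_mul, el_shN]
      simp only [add_mul, mul_add, smul_mul_assoc, mul_smul_comm, smul_sub]
      module

/-- detection of the coefficient of `c`. -/
def cc' : C2 →ₐ[F2] DualNumber F2 := FreeAlgebra.lift F2 ![DualNumber.eps, 0]

theorem cc'_lc : cc' lc = DualNumber.eps := by simp [cc', lc]
theorem cc'_adf (k : ℕ) : cc' (adf k) = 0 := by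
  induction k with
  | zero => simp [cc', adf, lf]
  | succ k ih => rw [adf, map_sub, map_mul, map_mul, ih]; simp

theorem cc'_el {P : FreeAlgebra F2 ℕ} (hP : P ∈ LieX F2 ℕ) : cc' (el P) = 0 := by
  refine LieX_induction (p := fun P => cc' (el P) = 0) ?_ ?_ ?_ ?_ ?_ hP
  · intro i; rw [el_ι, cc'_adf]
  · simp
  · intro a b _ _ h1 h2; rw [map_add, map_add, h1, h2, add_zero]
  · intro r a _ h1; rw [map_smul, map_smul, h1, smul_zero]
  · intro a b _ _ h1 h2
    simp only [map_sub, map_mul, h1, h2, mul_zero, sub_zero]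

theorem kap2_L5 {P : B5} (hP : P ∈ L5) : kap2 P ∈ LieX F2 (Fin 2) := by
  refine LieX_induction (p := fun P => kap2 P ∈ LieX F2 (Fin 2)) ?_ ?_ ?_ ?_ ?_ hP
  · intro i
    rw [kap2, FreeAlgebra.lift_ι_apply]
    fin_cases i
    · exact LieSubalgebra.subset_lieSpan ⟨0, rfl⟩
    · exact zero_mem _
    · exact zero_mem _
    · exact zero_mem _
    · exact LieSubalgebra.subset_lieSpan ⟨1, rfl⟩
  · rw [map_zero]; exact zero_mem _
  · intro a b _ _ h1 h2; rw [map_add]; exact add_mem h1 h2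
  · intro r a _ h1; rw [map_smul]; exact (LieX F2 (Fin 2)).smul_mem r h1
  · intro a b _ _ h1 h2; rw [map_sub, map_mul, map_mul]; exact comm_mem h1 h2

/-- `κ'(W)` consists of Lie polynomials in `ad(c)^k f`. -/
theorem kap2_W {P : B5} (hP : P ∈ W) : ∃ Q ∈ LieX F2 ℕ, kap2 P = el Q := by
  obtain ⟨t, Q, hQ, h⟩ := LieX_cf (kap2_L5 (W_le_L5 hP))
  have h0 : cc' (kap2 P) = 0 := by
    have : cc' (kap2 P) = FreeAlgebra.lift F2
        ((![DualNumber.eps, 0, 0, 0, 0] : Fin 5 → DualNumber F2)) P := by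
      have e : cc'.comp kap2 = FreeAlgebra.lift F2
        ((![DualNumber.eps, 0, 0, 0, 0] : Fin 5 → DualNumber F2)) := by
        apply FreeAlgebra.hom_ext
        funext i
        fin_cases i <;> simp [kap2, cc', lc, lf]
      exact DFunLike.congr_fun e P
    rw [this]
    exact lift_W_of_comm (fun i k => Commute.all _ _) rfl rfl hP
  rw [h, map_add, cc'_el hQ, map_smul, cc'_lc, add_zero] at h0
  have ht : t = 0 := by
    have := congrArg TrivSqZeroExt.snd h0
    simpa using this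
  exact ⟨Q, hQ, by rw [h, ht, zero_smul, zero_add]⟩

/-! ### `evalZ` factors -/

theorem evalZ_eq (P : FreeAlgebra F2 ℕ) : evalZ P = j (inc (el P)) := by
  have : evalZ = (j.comp inc).comp el := by
    apply FreeAlgebra.hom_ext
    funext k
    have h : ∀ k, Zc k = j (inc (adf k)) := by
      intro k
      induction k with
      | zero => simp [Zc, adf, FF]
      | succ k ih =>
        have h1 : Zc (k + 1) = adc (Zc k) := by simp [Zc, Function.iterate_succ_apply']
        rw [h1, adf, map_sub, map_sub, map_mul, map_mul, map_mul, map_mul, ← ih]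
        simp [adc, cc]
    simp [evalZ, h]
  exact DFunLike.congr_fun this P

theorem J0_mul_left {a : Alg F2} (b : Alg F2) (h : a ∈ J0) : b * a ∈ J0 := by
  refine Submodule.span_induction (p := fun a _ => b * a ∈ J0) ?_ ?_ ?_ ?_ h
  · rintro _ ⟨u, v, rfl⟩
    exact Submodule.subset_span ⟨b * u, v, by simp only [mul_assoc]⟩
  · rw [mul_zero]; exact zero_mem _
  · intro x y _ _ h1 h2; rw [mul_add]; exact add_mem h1 h2
  · intro r x _ h1; rw [mul_smul_comm]; exact J0.smul_mem r h1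

theorem J0_mul_right {a : Alg F2} (b : Alg F2) (h : a ∈ J0) : a * b ∈ J0 := by
  refine Submodule.span_induction (p := fun a _ => a * b ∈ J0) ?_ ?_ ?_ ?_ h
  · rintro _ ⟨u, v, rfl⟩
    exact Submodule.subset_span ⟨u, v * b, by simp only [mul_assoc]⟩
  · rw [zero_mul]; exact zero_mem _
  · intro x y _ _ h1 h2; rw [add_mul]; exact add_mem h1 h2
  · intro r x _ h1; rw [smul_mul_assoc]; exact J0.smul_mem r h1

theorem Y2_mem : (Y F2) ^ 2 ∈ J0 := Submodule.subset_span ⟨1, 1, by simp⟩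

/-- `j P ≡ j (κ P)` modulo `(y²)`. -/
theorem j_sub_kap (P : B5) : j P - j (kap P) ∈ J0 := by
  induction P using FreeAlgebra.induction with
  | grade0 r =>
    rw [AlgHom.commutes, AlgHom.commutes, AlgHom.commutes, sub_self]; exact zero_mem _
  | grade1 i =>
    have hk : kap (FreeAlgebra.ι F2 i) = (![l5 0, l5 1, 0, l5 3, 0] : Fin 5 → B5) i := by
      simp [kap]
    rw [hk]
    fin_cases i
    · change j (l5 0) - j (l5 0) ∈ J0
      rw [sub_self]; exact zero_mem _
    · change j (l5 1) - j (l5 1) ∈ J0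
      rw [sub_self]; exact zero_mem _
    · change j (l5 2) - j 0 ∈ J0
      rw [map_zero, sub_zero, j_l5]; exact Y2_mem
    · change j (l5 3) - j (l5 3) ∈ J0
      rw [sub_self]; exact zero_mem _
    · change j (l5 4) - j 0 ∈ J0
      rw [map_zero, sub_zero, j_l5, five_four]
      exact sub_mem (J0_mul_left _ Y2_mem) (J0_mul_right _ Y2_mem)
  | mul a b ha hb =>
    have e : j (a * b) - j (kap (a * b)) = (j a - j (kap a)) * j b + j (kap a) * (j b - j (kap b)) := by
      simp only [map_mul]; noncomm_ring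
    rw [e]
    exact add_mem (J0_mul_right _ ha) (J0_mul_left _ hb)
  | add a b ha hb =>
    have e : j (a + b) - j (kap (a + b)) = (j a - j (kap a)) + (j b - j (kap b)) := by
      simp only [map_add]; abel
    rw [e]
    exact add_mem ha hb

/-! ### Weights -/

/-- the weights `2, 2, 2, 3, 3` of the five letters. -/
def w5 : Fin 5 → ℕ := ![2, 2, 2, 3, 3]

/-- the weights `2, 3` of `c, f`. -/
def w2 : Fin 2 → ℕ := ![2, 3]

/-- the weight of `e_k`. -/
abbrev wN : ℕ → ℕ := fun k => 2 * k + 3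

/-- the word length on `F₂⟨x,y⟩`. -/
abbrev w1 : Fin 2 → ℕ := fun _ => 1

theorem X_mem : X F2 ∈ wtA F2 w1 1 := ι_mem_wtA w1 0
theorem Y_mem : Y F2 ∈ wtA F2 w1 1 := ι_mem_wtA w1 1

theorem mul_mem' {R : Type*} [CommRing R] {Z : Type*} (w : Z → ℕ) {m n k : ℕ}
    {p q : FreeAlgebra R Z} (hp : p ∈ wtA R w m) (hq : q ∈ wtA R w n) (h : m + n = k) :
    p * q ∈ wtA R w k := h ▸ mul_mem_wtA w hp hq

theorem w5_0 : w5 0 = 2 := rfl
theorem w5_1 : w5 1 = 2 := rfl
theorem w5_2 : w5 2 = 2 := rfl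
theorem w5_3 : w5 3 = 3 := rfl
theorem w5_4 : w5 4 = 3 := rfl

theorem five_mem (i : Fin 5) : five (X F2) (Y F2) i ∈ wtA F2 w1 (w5 i) := by
  have hXY : X F2 * Y F2 ∈ wtA F2 w1 2 := mul_mem' w1 X_mem Y_mem rfl
  have hYX : Y F2 * X F2 ∈ wtA F2 w1 2 := mul_mem' w1 Y_mem X_mem rfl
  have hXX : X F2 ^ 2 ∈ wtA F2 w1 2 := by rw [pow_two]; exact mul_mem' w1 X_mem X_mem rfl
  have hYY : Y F2 ^ 2 ∈ wtA F2 w1 2 := by rw [pow_two]; exact mul_mem' w1 Y_mem Y_mem rfl
  have h3 : Y F2 * X F2 ^ 2 ∈ wtA F2 w1 3 := mul_mem' w1 Y_mem hXX rfl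
  have h3' : X F2 ^ 2 * Y F2 ∈ wtA F2 w1 3 := mul_mem' w1 hXX Y_mem rfl
  have h4 : X F2 * Y F2 ^ 2 ∈ wtA F2 w1 3 := mul_mem' w1 X_mem hYY rfl
  have h4' : Y F2 ^ 2 * X F2 ∈ wtA F2 w1 3 := mul_mem' w1 hYY X_mem rfl
  match i with
  | 0 => rw [five_zero, w5_0]; exact sub_mem hXY hYX
  | 1 => rw [five_one, w5_1]; exact hXX
  | 2 => rw [five_two, w5_2]; exact hYY
  | 3 => rw [five_three, w5_3]; exact sub_mem h3 h3'
  | 4 => rw [five_four, w5_4]; exact sub_mem h4 h4'

theorem cw_j (n : ℕ) (P : B5) : cw w1 n (j P) = j (cw w5 n P) := cw_lift w5 five_mem n P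

theorem cw_W {P : B5} (hP : P ∈ W) (n : ℕ) : cw w5 n P ∈ W := by
  refine W_induction (p := fun P => cw w5 n P ∈ W) ?_ ?_ ?_ ?_ ?_ hP
  · rw [l5, cw_ι]
    split_ifs
    · exact l3_W
    · exact zero_mem _
  · rw [l5, cw_ι]
    split_ifs
    · exact l4_W
    · exact zero_mem _
  · intro a ha
    refine LL_le_W ?_
    refine Submodule.span_induction (p := fun a _ => cw w5 n a ∈ LL) ?_ ?_ ?_ ?_ ha
    · rintro _ ⟨a, ha, b, hb, rfl⟩
      rw [map_sub, cw_mul, cw_mul]
      rw [← Finset.Nat.sum_antidiagonal_swap (f := fun x => cw w5 x.1 b * cw w5 x.2 a),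
        ← Finset.sum_sub_distrib]
      exact sum_mem (fun x _ => comm_LL (cw_LieX w5 ha _) (cw_LieX w5 hb _))
    · rw [map_zero]; exact zero_mem _
    · intro a b _ _ h1 h2; rw [map_add]; exact add_mem h1 h2
    · intro r a _ h1; rw [map_smul]; exact LL.smul_mem r h1
  · intro a b _ _ h1 h2; rw [map_add]; exact add_mem h1 h2
  · intro r a _ h1; rw [map_smul]; exact W.smul_mem r h1

theorem adf_mem (k : ℕ) : adf k ∈ wtA F2 w2 (wN k) := by
  induction k with
  | zero => exact ι_mem_wtA w2 1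
  | succ k ih =>
    have h1 : lc ∈ wtA F2 w2 2 := ι_mem_wtA w2 0
    have e1 : wN (k + 1) = 2 + wN k := by simp only [wN]; ring
    have e2 : wN (k + 1) = wN k + 2 := by simp only [wN]; ring
    rw [adf]
    refine sub_mem ?_ ?_
    · rw [e1]; exact mul_mem_wtA w2 h1 ih
    · rw [e2]; exact mul_mem_wtA w2 ih h1

theorem cw_el (n : ℕ) (P : FreeAlgebra F2 ℕ) : cw w2 n (el P) = el (cw wN n P) :=
  cw_lift wN adf_mem n P

theorem cw_kap2 (n : ℕ) (P : B5) : cw w2 n (kap2 P) = kap2 (cw w5 n P) := by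
  refine cw_lift w5 ?_ n P
  intro i
  fin_cases i
  · exact ι_mem_wtA w2 0
  · exact zero_mem _
  · exact zero_mem _
  · exact zero_mem _
  · exact ι_mem_wtA w2 1


/-- homogeneous elimination. -/
theorem elim5_hom {N : ℕ} (hN : 3 ≤ N) {ψ : Alg F2} (hw : ψ ∈ wtA F2 w1 N)
    (hψ : ψ ∈ LieX F2 (Fin 2)) : ∃ P ∈ W, P ∈ wtA F2 w5 N ∧ j P = ψ := by
  obtain ⟨P, hP, rfl⟩ := elim5 hN hw hψ
  refine ⟨cw w5 N P, cw_W hP N, cw_mem w5 N P, ?_⟩
  rw [← cw_j, cw_of_mem w1 hw]

/-- **The exact form of the upper bound from steps B and C.** -/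
theorem exact_of {Pent : Alg F2 → Prop}
    (hC : ∀ P ∈ W, Pent (j P) → kap P = kap' P)
    (hB : ∀ P ∈ W, Pent (j P) → kap P = 0 → P = 0)
    {N : ℕ} (hN : 3 ≤ N) {ψ : Alg F2} (hw : ψ ∈ wtA F2 (fun _ : Fin 2 => 1) N)
    (hψ : ψ ∈ LieX F2 (Fin 2)) (hP : Pent ψ) (h0 : ψ ≠ 0) :
    ∃ P ∈ LieX F2 ℕ, P ∈ wtA F2 (fun k : ℕ => 2 * k + 3) N ∧ P ≠ 0 ∧ ψ - evalZ P ∈ J0 := by
  obtain ⟨P, hPW, hPw, rfl⟩ := elim5_hom hN hw hψ
  obtain ⟨Q, hQ, hk⟩ := kap2_W hPW
  have he : el (cw wN N Q) = kap2 P := by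
    rw [← cw_el, ← hk, cw_kap2, cw_of_mem w5 hPw]
  refine ⟨cw wN N Q, cw_LieX wN hQ N, cw_mem wN N Q, ?_, ?_⟩
  · intro hQ0
    rw [hQ0, map_zero] at he
    apply h0
    have h1 : kap' P = 0 := by rw [← inc_kap2, ← he, map_zero]
    have h2 := hB P hPW hP (by rw [hC P hPW hP, h1])
    rw [h2, map_zero]
  · rw [evalZ_eq, he, inc_kap2, ← hC P hPW hP]
    exact j_sub_kap P

/-! ### The interface of `CConv` -/

/-- `κ' P` as an evaluation at `(c, F)`. -/
theorem j_inc (q : C2) : j (inc q) = ev2 F2 cc FF q := by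
  have : j.comp inc = ev2 F2 cc FF := by
    apply FreeAlgebra.hom_ext
    funext i
    fin_cases i <;> simp [inc, ev2, cc, FF]
  exact DFunLike.congr_fun this q

theorem evalZ_inj_J0 {P : FreeAlgebra F2 ℕ} (h : evalZ P ∈ J0) : P = 0 := by
  have h1 : row (evalZ P) = 0 := by
    funext k
    rw [row, C.rho_J0 h]; rfl
  rw [row_evalZ] at h1
  have h2 : evalS P = 0 := by simpa using congrFun h1 0
  exact evalS_injective (by rw [h2, map_zero])

/-- steps B and C (in the form `κ P = κ' P`, `κ P = 0 → P = 0`) give the hypothesis of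
`CConv.upperBoundFor_of_exact`. -/
theorem exact_hyp {Pent : Alg F2 → Prop}
    (hC : ∀ P ∈ W, Pent (j P) → kap P = kap' P)
    (hB : ∀ P ∈ W, Pent (j P) → kap P = 0 → P = 0)
    (N : ℕ) (ψ : Alg F2) (hN : 3 ≤ N) (hw : ψ ∈ wtA F2 (fun _ : Fin 2 => 1) N)
    (hψ : ψ ∈ LieX F2 (Fin 2)) (hP : Pent ψ) :
    (∃ Λ ∈ LieX F2 (Fin 2), ψ - ev2 F2 cc FF Λ ∈ J0) ∧ (ψ ∈ J0 → ψ = 0) := by
  constructor
  · obtain ⟨P, hPW, rfl⟩ := elim5 hN hw hψ
    refine ⟨kap2 P, kap2_L5 (W_le_L5 hPW), ?_⟩
    rw [← j_inc, inc_kap2, ← hC P hPW hP]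
    exact j_sub_kap P
  · intro hJ
    by_contra h0
    obtain ⟨P, _, _, hP0, h⟩ := exact_of hC hB hN hw hψ hP h0
    apply hP0
    apply evalZ_inj_J0
    have := sub_mem hJ h
    rwa [sub_sub_cancel] at this

/-- **Step D**: steps B and C imply the upper bound for any predicate `Pent`. -/
theorem upperBoundFor_of_BC {Pent : Alg F2 → Prop}
    (hC : ∀ P ∈ W, Pent (j P) → kap P = kap' P)
    (hB : ∀ P ∈ W, Pent (j P) → kap P = 0 → P = 0) : CConv.UpperBoundFor Pent :=
  CConv.upperBoundFor_of_exact Pent (exact_hyp hC hB)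

end Crest.Agent.R010.El
end
private theorem rz_1e7e10b88c : type_of% @_root_.Crest.Agent.R010.El.adf.eq_def := @_root_.Crest.Agent.R010.El.adf.eq_def -- L29
private theorem rz_8bc6126907 : type_of% @_root_.Crest.Agent.R010.El.adf.eq_1 := @_root_.Crest.Agent.R010.El.adf.eq_1 -- L29
end

-- ▼ part R010/XU

/-!
Row 10 (S0011), upper bound (U): glue of Steps B and C with Step D (XD) and the bridge (UBridge2).
Main result: `upperBound2 : CConv.UpperBoundFor (U.FibrePent2 F2)`.
-/

set_option autoImplicit false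

noncomputable section

namespace Crest.Agent.R010.XU

open Crest.Agent.R010.C

attribute [local instance 100] LieRing.ofAssociativeRing

theorem fp2_of (ψ : Alg F2) (h : U.FibrePent2 F2 ψ) : FibrePent2 F2 ψ := by
  unfold FibrePent2
  unfold U.FibrePent2 at h
  have g0 : U.G0 F2 = G0 F2 := rfl
  have g1 : U.G1 F2 = G1 F2 := rfl
  rw [U.ev2_eq_ev, U.ev2_eq_ev, U.ev2_eq_ev, U.ev2_eq_ev, U.ev_L3, U.ev_L3]
  rw [g0, g1] at h
  simpa [L3] using h

/-- relabelling of letters -/
def rl : Fin 5 → L5 := ![L5.c, L5.e0, L5.e1, L5.f0, L5.f1]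

/-- relabelling of letters -/
def rl' : L5 → Fin 5
  | .c => 0
  | .e0 => 1
  | .e1 => 2
  | .f0 => 3
  | .f1 => 4

def tr : El.B5 →ₐ[F2] B5 := FreeAlgebra.lift F2 (fun i => io (rl i))
def tr' : B5 →ₐ[F2] El.B5 := FreeAlgebra.lift F2 (fun l => El.l5 (rl' l))

theorem tr_l5 (i : Fin 5) : tr (El.l5 i) = io (rl i) := by simp [tr, El.l5]

theorem tr'_tr (P : El.B5) : tr' (tr P) = P := by
  have : tr'.comp tr = AlgHom.id F2 El.B5 := by
    apply FreeAlgebra.hom_ext
    funext i
    fin_cases i <;> simp [tr, tr', rl, rl', El.l5]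
  exact DFunLike.congr_fun this P

theorem jmap_tr (P : El.B5) : jmap (tr P) = El.j P := by
  have : jmap.comp tr = El.j := by
    apply FreeAlgebra.hom_ext
    funext i
    fin_cases i <;> simp [tr, rl, jmap, El.j, five, El.five] <;> grind
  exact DFunLike.congr_fun this P

theorem tr_Lie (P : El.B5) (hP : P ∈ LieX F2 (Fin 5)) : tr P ∈ LieX F2 L5 := by
  refine El.LieX_induction (p := fun P => tr P ∈ LieX F2 L5) ?_ ?_ ?_ ?_ ?_ hP
  · intro i
    have := tr_l5 i
    rw [El.l5] at this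
    rw [this]
    exact LieSubalgebra.subset_lieSpan ⟨_, rfl⟩
  · rw [map_zero]; exact (LieX F2 L5).zero_mem
  · intro a b _ _ ha hb; rw [map_add]; exact (LieX F2 L5).add_mem ha hb
  · intro r a _ ha; rw [map_smul]; exact (LieX F2 L5).smul_mem r ha
  · intro a b _ _ ha hb
    rw [map_sub, map_mul, map_mul, ← LieRing.of_associative_ring_bracket]
    exact (LieX F2 L5).lie_mem ha hb

theorem tr_W (P : El.B5) (hP : P ∈ El.W) : tr P ∈ W := by
  refine El.W_induction (p := fun P => tr P ∈ W) ?_ ?_ ?_ ?_ ?_ hP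
  · rw [tr_l5]; exact Submodule.subset_span (Or.inl (by simp [rl]))
  · rw [tr_l5]; exact Submodule.subset_span (Or.inl (by simp [rl]))
  · intro a ha
    unfold El.LL at ha
    induction ha using Submodule.span_induction with
    | mem x hx =>
      obtain ⟨p, hp, q, hq, rfl⟩ := hx
      rw [map_sub, map_mul, map_mul]
      exact Submodule.subset_span (Or.inr ⟨_, tr_Lie p hp, _, tr_Lie q hq, rfl⟩)
    | zero => rw [map_zero]; exact W.zero_mem
    | add x y _ _ hx hy => rw [map_add]; exact W.add_mem hx hy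
    | smul r x _ hx => rw [map_smul]; exact W.smul_mem r hx
  · intro a b _ _ ha hb; rw [map_add]; exact W.add_mem ha hb
  · intro r a _ ha; rw [map_smul]; exact W.smul_mem r ha

theorem hC (P : El.B5) (hP : P ∈ El.W) (h : U.FibrePent2 F2 (El.j P)) :
    El.kap P = El.kap' P := by
  have h' := fp2_of _ h
  rw [← jmap_tr] at h'
  have key := SC.stepC (tr P) (tr_W P hP) h'
  set s : SC.CC →ₐ[F2] El.B5 := FreeAlgebra.lift F2 (fun l => match l with
    | .c => El.l5 0
    | .u => El.l5 1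
    | .v => El.l5 3) with hs
  have h1 : (s.comp (FreeAlgebra.lift F2 SC.aκ)).comp tr = El.kap := by
    apply FreeAlgebra.hom_ext
    funext i
    fin_cases i <;> simp [tr, rl, El.kap, SC.aκ, hs, SC.c, SC.u, SC.v]
  have h2 : (s.comp (FreeAlgebra.lift F2 SC.aκ')).comp tr = El.kap' := by
    apply FreeAlgebra.hom_ext
    funext i
    fin_cases i <;> simp [tr, rl, El.kap', SC.aκ', hs, SC.c, SC.v]
  rw [← h1, ← h2]
  simp only [AlgHom.comp_apply, key]

theorem hB (P : El.B5) (hP : P ∈ El.W) (h : U.FibrePent2 F2 (El.j P)) (hk : El.kap P = 0) :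
    P = 0 := by
  have h' := fp2_of _ h
  rw [← jmap_tr] at h'
  have h1 : (FreeAlgebra.lift F2 SB.aκB).comp tr = tr.comp El.kap := by
    apply FreeAlgebra.hom_ext
    funext i
    fin_cases i <;> simp [tr, rl, El.kap, SB.aκB, SB.c, SB.e0, SB.f0, El.l5]
  have h2 : FreeAlgebra.lift F2 SB.aκB (tr P) = 0 := by
    have := DFunLike.congr_fun h1 P
    rw [AlgHom.comp_apply, AlgHom.comp_apply, hk, map_zero] at this
    exact this
  have h3 := SB.stepB (tr P) (tr_W P hP) h' h2
  rw [← tr'_tr P, h3, map_zero]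

/-- **The upper bound (U)** over `F2`, for the gauge 2 fibre pentagon. -/
theorem upperBound2 : CConv.UpperBoundFor (U.FibrePent2 F2) :=
  El.upperBoundFor_of_BC hC hB


end Crest.Agent.R010.XU
end
private theorem rz_1a161a2db2 : type_of% @_root_.Crest.Agent.R010.XU.rl'.eq_1 := @_root_.Crest.Agent.R010.XU.rl'.eq_1 -- L34
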